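import Vale.Agent.P352X.R.BB.Base

/-!
# P352X, row BB: the assembly for `y = 0`
-/

set_option linter.all false

open MeasureTheory Filter Topology Set
open scoped SchwartzMap ComplexConjugate ENNReal ContDiff

namespace Vale.Agent.P352X.BX

open Vale.Agent.P352 Vale.Agent.P352.GF Vale.Agent.P352.BW Vale.Agent.P352.H246
open Vale.Agent.P352.H496 Vale.Agent.P352.H755 Vale.Agent.P352.H15 Vale.Agent.P352X.Ap
open Vale.Agent.P132 (ModData jconj)
open UniformSpace (Completion)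
open Complex (I)

noncomputable section

namespace Co

theorem ex_u1 {ρ : ℝ → ℝ} {u0 : ℝ} (hρ : Tst ρ) (hs : tsupport ρ ⊆ Ioo (-u0) u0) :
    ∃ u1, u1 < u0 ∧ tsupport ρ ⊆ Icc (-u1) u1 := by
  rcases (tsupport ρ).eq_empty_or_nonempty with h0 | h0
  · exact ⟨u0 - 1, by linarith, by simp [h0]⟩
  obtain ⟨z, hz, h⟩ := hρ.2.isCompact.exists_isMaxOn h0 continuous_abs.continuousOn
  exact ⟨|z|, abs_lt.2 (hs hz), fun t ht => abs_le.1 (h ht)⟩

theorem al_o (r : ℝ) : al (bas o r) = r / 2 := by simp [al_eq, bas, o]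

theorem be_o (r : ℝ) : be (bas o r) = r := by simp [be_eq, bas, o]

theorem tx_o (r : ℝ) : tx (bas o r) = 0 := by
  funext i
  fin_cases i <;> simp [tx, bas, o]

theorem dc_bd {y z : V} {r : ℝ} (h : z ∈ dc y r) : |al z - al y| < r / 2 ∧ |be z - be y| < r ∧
    d2 (tx z - tx y) (tx z - tx y) ≤ 4 * r ^ 2 := by
  obtain ⟨h1, h2⟩ := h
  have a1 := ((mem_Fc' _).1 h1).1
  have a2 := ((mem_Fc' _).1 h2).1
  have b2 := ((mem_Fc _).1 h2).1
  obtain ⟨b1, m1⟩ := (mem_Fc _).1 h1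
  rw [mu_eq] at m1
  simp only [al_sub, al_add, be_sub, be_add, tx_sub, al_o, be_o, tx_o, sub_zero] at *
  refine ⟨abs_lt.2 ⟨by linarith, by linarith⟩, abs_lt.2 ⟨by linarith, by linarith⟩, ?_⟩
  nlinarith

theorem closed_Box (d e R : ℝ) : IsClosed (Box d e R) :=
  (isClosed_le continuous_const cont_be).inter ((isClosed_le cont_be continuous_const).inter
    ((isClosed_le continuous_const cont_al).inter ((isClosed_le cont_al continuous_const).inter
      (isClosed_le (cont_d2 cont_tx cont_tx) continuous_const))))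

theorem mem_dc {y z a : V} {r : ℝ} : z + a ∈ dc (y + a) r ↔ z ∈ dc y r := by
  simp only [dc, mem_setOf_eq]
  rw [show z + a - (y + a - bas o r) = z - (y - bas o r) by abel,
    show y + a + bas o r - (z + a) = y + bas o r - z by abel]

theorem ex_box {u0 u1 d0 r : ℝ} {y : V} (hs : dc y r ⊆ {z | be z < -u0 ∧ d0 < al z}) :
    ∀ᶠ R in atTop, ∀ u ∈ Icc (-u1) u1, closure (dc (y + (-u) • vb) r) ⊆ Box d0 (u0 - u1) R := by
  filter_upwards [eventually_ge_atTop (|be y| + r + u1), eventually_ge_atTop (|al y| + r / 2),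
    eventually_ge_atTop (2 * d2 (tx y) (tx y) + 8 * r ^ 2 + 1)] with R h1 h2 h3 u hu
  refine closure_minimal (fun z hz => ?_) (closed_Box _ _ _)
  have hz' : z + u • vb ∈ dc y r := by
    rw [← mem_dc (a := (-u) • vb), add_assoc, ← add_smul, add_neg_cancel, zero_smul, add_zero]
    exact hz
  obtain ⟨a1, a2, a3⟩ := dc_bd hz'
  obtain ⟨b1, b2⟩ := hs hz'
  simp only [al_add, be_add, tx_add, al_smul, be_smul, tx_smul, al_vb, be_vb, tx_vb, mul_zero,
    mul_one, smul_zero, add_zero] at a1 a2 a3 b1 b2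
  rw [abs_lt] at a1 a2
  have := neg_abs_le (be y)
  have := le_abs_self (al y)
  refine ⟨by linarith [hu.2], by linarith [hu.1], b2.le, by linarith, ?_⟩
  have e : d2 (tx z) (tx z) ≤ 2 * d2 (tx z - tx y) (tx z - tx y) + 2 * d2 (tx y) (tx y) := by
    simp only [d2_eq, Pi.sub_apply]
    nlinarith [sq_nonneg (tx z 0 - 2 * tx y 0), sq_nonneg (tx z 1 - 2 * tx y 1)]
  nlinarith [d2_nonneg (tx y), sq_nonneg r]

theorem rc_sub {r r' : ℝ} (h0 : 0 ≤ r') (h : r' ≤ r) (y : V) : Rc r y ⊆ Rc r' y := by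
  rintro z ⟨h1, h2, h3⟩
  simp only [md_va, md_vb] at h1 h2 h3
  rw [show mdot (z - y) (z - y) = mu (z - y) from rfl, mu_eq] at h3
  refine ⟨by rwa [md_va], by rw [md_va]; nlinarith, ?_⟩
  rw [md_vb, show mdot (z - y) (z - y) = mu (z - y) from rfl, mu_eq]
  have h4 := d2_nonneg (tx (z - y))
  have h5 : 0 < al (z - y) := by
    by_contra h5
    nlinarith [mul_nonneg (h0.trans h) h4, mul_nonneg (neg_nonneg.2 (not_lt.1 h5)) h2.le]
  nlinarith [mul_nonneg (sub_nonneg.2 h) h4, mul_nonneg (sub_nonneg.2 h) (mul_pos h5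
    (neg_pos.2 h1)).le]

theorem int4 {f1 f2 f3 f4 : ℝ → ℂ} (i1 : Integrable f1) (i2 : Integrable f2) (i3 : Integrable f3)
    (i4 : Integrable f4) : ∫ u, (I * f1 u + I * f2 u - I * f3 u + I * f4 u) =
      I * (∫ u, f1 u) + I * (∫ u, f2 u) - I * (∫ u, f3 u) + I * ∫ u, f4 u := by
  have a := (i1.const_mul I).add (i2.const_mul I)
  rw [integral_add (by exact a.sub (i3.const_mul I)) (i4.const_mul I),
    integral_sub (by exact a) (i3.const_mul I), integral_add (i1.const_mul I) (i2.const_mul I)]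
  simp only [integral_const_mul]

variable {H : Type*} [NormedAddCommGroup H] [InnerProductSpace ℂ H] [CompleteSpace H]

theorem int_on {ρ : ℝ → ℝ} {u1 : ℝ} {F : ℝ → ℂ} (hρ : Tst ρ) (hs : tsupport ρ ⊆ Icc (-u1) u1)
    (hF : ContinuousOn F (Icc (-u1) u1)) : Integrable fun u => (ρ u : ℂ) * F u := by
  refine IntegrableOn.integrable_of_forall_notMem_eq_zero (s := Icc (-u1) u1)
    (((dc_cx hρ).1.continuous.continuousOn.mul hF).integrableOn_compact isCompact_Icc)
    fun u hu => ?_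
  rw [image_eq_zero_of_notMem_tsupport fun h => hu (hs h), Complex.ofReal_zero, zero_mul]

theorem cont_on {W : ℝ → H →L[ℂ] H} (g : UG W) {r : ℝ → ℝ} {f : ℝ → H} {S : Set ℝ}
    (hr : Continuous r) (hf : ContinuousOn f S) : ContinuousOn (fun u => W (r u) (f u)) S :=
  fun u hu => g.tendsto hr.continuousWithinAt (hf u hu)

theorem neg_mem {u u1 : ℝ} (h : u ∈ Icc (-u1) u1) : -u ∈ Icc (-u1) u1 :=
  ⟨neg_le_neg h.2, neg_le.1 h.1⟩

end Co

open Co

variable {D : Type*} [NormedAddCommGroup D] [InnerProductSpace ℂ D]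

theorem core_row (c : Ctx D) : T3 c → HALF c → MI c → DOM c → LIP c → MAIN c → CROSS c → END c →
    CORE c := by
  intro t half mi dom lip main cross fin u0 d0 y1 r1 y2 r2 X X' χ ρ dat sX sX' hχ hρ hs
  have G := t.grp
  have j := t.jc
  have hd := dat.hd
  obtain ⟨u1, hu1, hρ1⟩ := ex_u1 hρ hs
  obtain ⟨R, b1, b2, hdR, heR⟩ := ((ex_box (u1 := u1) dat.s1).and ((ex_box (u1 := u1) dat.s2).and
    ((eventually_ge_atTop d0).and (eventually_ge_atTop (u0 - u1))))).exists
  have hR : 0 < R := hd.trans_le hdR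
  refine ⟨cut0 R, cut_cut0 hR, ?_⟩
  obtain ⟨ra, Na, hra, da1, ca⟩ := dom u0 u1 d0 (3 * d0 / 4) y1 r1 X hu1 (by positivity)
    (by linarith) dat.h1 dat.s1 dat.m1 sX
  obtain ⟨rb, Nb, hrb, db1, cb⟩ := dom u0 u1 d0 (3 * d0 / 4) y2 r2 (star X') hu1 (by positivity)
    (by linarith) dat.h2 dat.s2 (star_mem dat.m2) (Sm.star G sX')
  obtain ⟨C1, l1⟩ := lip.op X' sX'
  obtain ⟨C2, l2⟩ := lip.op (star X) (Sm.star G sX)
  obtain ⟨Cj, lj⟩ := lip.j
  set Y := jconj c.J X' with hY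
  set φ := X c.Om with hφ
  set φ' := star X' c.Om with hφ'
  set w := Y φ with hw
  set w' := star X (star Y c.Om) with hw'
  have eψ : star Y c.Om = c.J φ' := star_Y X'
  let v : ℝ → Completion D := fun u => Pb c.Q (-u) (Y (Pb c.Q u (gen c.SK (Pb c.Q (-u) φ))))
  let v' : ℝ → Completion D := fun u =>
    Pb c.Q (-u) (star X (Pb c.Q u (c.J (gen c.SK (Pb c.Q u φ')))))
  have cb' : ContinuousOn (fun u => gen c.SK (Pb c.Q u φ')) (Icc (-u1) u1) := by
    have := cb.comp continuous_neg.continuousOn fun u hu => neg_mem hu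
    simpa only [Function.comp_def, neg_neg] using this
  have cv : ContinuousOn v (Icc (-u1) u1) := cont_on G.ugPb continuous_neg
    (Y.continuous.comp_continuousOn (cont_on G.ugPb continuous_id ca))
  have cv' : ContinuousOn v' (Icc (-u1) u1) := cont_on G.ugPb continuous_neg
    ((star X).continuous.comp_continuousOn (cont_on G.ugPb continuous_id
      (c.J.continuous.comp_continuousOn cb')))
  have qv : ∀ u ∈ Icc (-u1) u1, Qb c (v u) (Cj * (C1 * (Cj * Na))) := fun u hu => by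
    have := lj _ _ (l1 (-u) _ _ (lj _ _ (da1 u hu).2.2))
    simpa only [v, hY, P132.jconj_apply, J_pb j, neg_neg, ContinuousLinearMap.mul_apply] using this
  have qv' : ∀ u ∈ Icc (-u1) u1, Qb c (v' u) (C2 * (Cj * Nb)) := fun u hu => by
    have := l2 u _ _ (lj _ _ (db1 _ (neg_mem hu)).2.2)
    simpa only [v', neg_neg, ContinuousLinearMap.mul_apply] using this
  set k := ∫ u, (ρ u : ℂ) * inner ℂ (star Y c.Om) (gen (c.Ky (u • vb)) φ) with hk
  have key : ∀ L ε, 2 * R ≤ L → 0 < ε → 2 * ε ≤ u0 - u1 → k =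
      I * inner ℂ (Rb c ρ (gen c.SK (GG c χ R L ε))) w +
      I * inner ℂ (Rb c (ng ρ) (gen c.SK (GG c (opp χ) R L ε))) (c.J w') -
      I * (∫ u, (ρ u : ℂ) * inner ℂ (GG c χ R L ε - c.J (GG c (opp χ) R L ε)) (v u)) +
      I * conj (∫ u, (ρ u : ℂ) *
        inner ℂ (GG c χ R L ε - c.J (GG c (opp χ) R L ε)) (v' u)) := by
    intro L ε hL hε he
    have hL0 : 0 < L := by linarith
    set G1 := GG c χ R L ε
    set G2 := GG c (opp χ) R L ε
    have pw : ∀ u, (ρ u : ℂ) * inner ℂ (star Y c.Om) (gen (c.Ky (u • vb)) φ) =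
        I * ((ρ u : ℂ) * inner ℂ (gen c.SK G1) (Pb c.Q (-u) w)) +
        I * ((ρ u : ℂ) * inner ℂ (gen c.SK G2) (Pb c.Q u (c.J w'))) -
        I * ((ρ u : ℂ) * inner ℂ (G1 - c.J G2) (v u)) +
        I * ((ρ u : ℂ) * inner ℂ (v' u) (G1 - c.J G2)) := fun u => by
      by_cases hu : u ∈ Icc (-u1) u1
      swap
      · simp [image_eq_zero_of_notMem_tsupport fun h => hu (hρ1 h)]
      obtain ⟨m1, g1, -⟩ := da1 u hu
      obtain ⟨m2, g2, -⟩ := db1 _ (neg_mem hu)
      rw [neg_neg] at m2 g2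
      have e1 : (Pb c.Q (-u) * X * Pb c.Q u) c.Om = Pb c.Q (-u) φ := by
        simp only [ContinuousLinearMap.mul_apply, pb_om G, hφ]
      have e0 : star (Pb c.Q u * X' * Pb c.Q (-u)) = Pb c.Q u * star X' * Pb c.Q (-u) := by
        simp only [star_mul, G.ugPb.star_eq, neg_neg, mul_assoc]
      have e0' : star (Pb c.Q (-u) * X * Pb c.Q u) = Pb c.Q (-u) * star X * Pb c.Q u := by
        simp only [star_mul, G.ugPb.star_eq, neg_neg, mul_assoc]
      have e2 : (Pb c.Q u * star X' * Pb c.Q (-u)) c.Om = Pb c.Q u φ' := by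
        simp only [ContinuousLinearMap.mul_apply, pb_om G, hφ']
      have n1 : Pb c.Q (-u) * X * Pb c.Q u ∈ c.N (dc (y1 + (-u) • vb) r1) := by
        have := G.mem_ut dat.m1 ((-u) • vb) fun z hz => mem_dc.2 hz
        rwa [← neg_smul, neg_neg] at this
      have n2 : Pb c.Q u * star X' * Pb c.Q (-u) ∈ c.N (dc (y2 + (- -u) • vb) r2) := by
        have := G.mem_ut (star_mem dat.m2) ((- -u) • vb) fun z hz => mem_dc.2 hz
        rwa [← neg_smul, neg_neg (-u), show Ut c.Q ((- -u) • vb) = Pb c.Q u by rw [neg_neg]; rfl]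
          at this
      have h1 := half d0 (3 * d0 / 4) _ R L ε χ _ r1 _ _ hd (by linarith) hdR hL hε he heR hχ
        dat.h1 n1 (b1 u hu) (e1.symm ▸ g1.1.gn)
      have h2 := half d0 (3 * d0 / 4) _ R L ε (opp χ) _ r2 _ _ hd (by linarith) hdR hL hε he heR
        hχ.opp dat.h2 n2 (b2 _ (neg_mem hu)) (e2.symm ▸ g2.1.gn)
      have m2' : Pb c.Q u * X' * Pb c.Q (-u) ∈ c.N (Rc rb ((3 * d0 / 4) • va)) := by
        have := star_mem m2
        rwa [← e0, star_star] at this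
      have := mi (3 * d0 / 4) (min ra rb) _ _ G1 G2 (by positivity) (lt_min hra hrb)
        (c.N_mono (rc_sub (lt_min hra hrb).le (min_le_left _ _) _) _ m1)
        (c.N_mono (rc_sub (lt_min hra hrb).le (min_le_right _ _) _) _ m2')
        (dm_GG t.kd hχ hR hL0 hε) (dm_GG t.kd hχ.opp hR hL0 hε) (e1.symm ▸ g1)
        (by rw [e0, e2]; exact g2.1) (by rw [e0, e2]; exact g2.2.1) h1
        (by rw [← e0, star_star] at h2; exact h2)
      rw [e0, e1, e2, e0', jconj_pb j G] at this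
      have e3 : gen (c.Ky (u • vb)) φ = Pb c.Q u (gen c.SK (Pb c.Q (-u) φ)) := by
        have h : Ut c.Q (-(u • vb)) = Pb c.Q (-u) := by rw [← neg_smul]; rfl
        rw [G.gen_Ky _ (by rw [h]; exact g1.2.1), h]
        rfl
      simp only [ContinuousLinearMap.mul_apply, J_pb j, pb_pb G, add_neg_cancel, neg_neg,
        G.ugPb.zero', ContinuousLinearMap.one_apply] at this
      rw [e3, eψ, G.ugPb.adj', this, hw', eψ]
      ring
    have i1 : Integrable fun u => (ρ u : ℂ) * inner ℂ (gen c.SK G1) (Pb c.Q (-u) w) :=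
      int_on hρ hρ1 (ContinuousOn.inner (𝕜 := ℂ) continuousOn_const
        (cont_on G.ugPb continuous_neg continuousOn_const))
    have i2 : Integrable fun u => (ρ u : ℂ) * inner ℂ (gen c.SK G2) (Pb c.Q u (c.J w')) :=
      int_on hρ hρ1 (ContinuousOn.inner (𝕜 := ℂ) continuousOn_const
        (cont_on G.ugPb continuous_id continuousOn_const))
    have i3 : Integrable fun u => (ρ u : ℂ) * inner ℂ (G1 - c.J G2) (v u) :=
      int_on hρ hρ1 (ContinuousOn.inner (𝕜 := ℂ) continuousOn_const cv)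
    have i4 : Integrable fun u => (ρ u : ℂ) * inner ℂ (v' u) (G1 - c.J G2) :=
      int_on hρ hρ1 (ContinuousOn.inner (𝕜 := ℂ) cv' continuousOn_const)
    rw [hk, integral_congr_ae (Eventually.of_forall pw), int4 i1 i2 i3 i4, inner_Rb G hρ,
      inner_Rb G (tst_ng hρ), ← integral_conj, ← integral_neg_eq_self fun u => (ng ρ u : ℂ) * _]
    simp only [ng, neg_neg, map_mul, Complex.conj_ofReal, inner_conj_symm]
  have lim : Tendsto (fun L => inner ℂ (TP c va va (x2 (da (ap 1 (slab χ R L)))) ρ) w +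
      inner ℂ (TP c va va (x2 (da (ap 1 (slab (opp χ) R L)))) (ng ρ)) (c.J w')) atTop (𝓝 k) := by
    rw [Metric.tendsto_nhds]
    intro η hη
    have h5 : 0 < η / 5 := by positivity
    filter_upwards [main d0 R χ ρ w hd hdR hχ hρ _ h5,
      main d0 R (opp χ) (ng ρ) (c.J w') hd hdR hχ.opp (tst_ng hρ) _ h5,
      cross d0 R u1 _ χ ρ v hd hdR hχ hρ hρ1 cv qv _ h5,
      cross d0 R u1 _ χ ρ v' hd hdR hχ hρ hρ1 cv' qv' _ h5, eventually_ge_atTop (2 * R)]
      with L a1 a2 a3 a4 hL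
    have a5 : ∀ᶠ n in atTop, ep n ≤ (u0 - u1) / 2 :=
      (tendsto_ep.mono_right nhdsWithin_le_nhds).eventually_le_const (by linarith)
    obtain ⟨n, a1, a2, a3, a4, a5⟩ := (a1.and (a2.and (a3.and (a4.and a5)))).exists
    rw [key L (ep n) hL (ep_pos n) (by linarith), dist_eq_norm]
    generalize (∫ u, (ρ u : ℂ) * inner ℂ _ (v u)) = z3 at a3 ⊢
    generalize (∫ u, (ρ u : ℂ) * inner ℂ _ (v' u)) = z4 at a4 ⊢
    generalize I * inner ℂ (Rb c ρ _) w = z1 at a1 ⊢
    generalize I * inner ℂ (Rb c (ng ρ) _) (c.J w') = z2 at a2 ⊢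
    generalize inner ℂ (TP c va va _ ρ) w = x1 at a1 ⊢
    generalize inner ℂ (TP c va va _ (ng ρ)) (c.J w') = x2 at a2 ⊢
    have e : x1 + x2 - (z1 + z2 - I * z3 + I * conj z4) =
        -(z1 - x1) + -(z2 - x2) + I * z3 + -(I * conj z4) := by ring
    rw [e]
    refine (norm_add₄_le).trans_lt ?_
    simp only [norm_neg, norm_mul, Complex.norm_I, one_mul, RCLike.norm_conj]
    linarith
  have := lim.sub (fin u0 d0 y1 r1 y2 r2 X X' χ ρ R dat hχ hR hρ hs)
  rw [sub_zero] at this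
  exact this.congr fun L => sub_sub_cancel _ _

end

end Vale.Agent.P352X.BX
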