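import Vale.Agent.P352X.R.BB.DecA

/-!
# P352X, row BB.dec: the total surface, by conservation
-/

set_option linter.all false

open MeasureTheory Filter Topology Set
open scoped SchwartzMap ComplexConjugate ContDiff

namespace Vale.Agent.P352X.BX

open Vale.Agent.P352 Vale.Agent.P352.GF Vale.Agent.P352.H755 Ap
open UniformSpace (Completion)

noncomputable section

namespace Dec

variable {t d R L ε : ℝ} {χ : ℝ → ℝ}

@[fun_prop] lemma sm_kk : ContDiff ℝ ∞ kk :=
  contDiff_const.sub (Real.smoothTransition.contDiff.comp (contDiff_id.sub contDiff_const))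

@[fun_prop] lemma sm_ps : ContDiff ℝ ∞ ps := by
  unfold ps
  fun_prop

lemma kk_one (h : t ≤ 1) : kk t = 1 := by
  rw [kk, Real.smoothTransition.zero_of_nonpos (by linarith), sub_zero]

lemma kk_zero (h : 2 ≤ t) : kk t = 0 := by
  rw [kk, Real.smoothTransition.one_of_one_le (by linarith), sub_self]

lemma ps_one (h : t ≤ -1) : ps t = 1 := kk_one (by linarith)

lemma ps_zero (h : -1 / 2 ≤ t) : ps t = 0 := kk_zero (by linarith)

lemma tst_of {φ : ℝ → ℝ} (a b : ℝ) (h : ContDiff ℝ ∞ φ) (ha : ∀ t < a, φ t = 0)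
    (hb : ∀ t, b < t → φ t = 0) : Tst φ :=
  cs_of h (isCompact_Icc (a := a) (b := b)) fun t k =>
    (not_and_or.1 k).elim (fun k => ha t (not_le.1 k)) fun k => hb t (not_le.1 k)

lemma der_lt {φ : ℝ → ℝ} {a x : ℝ} (h : ∀ t ≤ a, φ t = x) (k : t < a) : deriv φ t = 0 := by
  rw [EventuallyEq.deriv_eq (f := fun _ => x) ((eventually_lt_nhds k).mono fun s e => h s e.le),
    deriv_const]

lemma der_gt {φ : ℝ → ℝ} {a x : ℝ} (h : ∀ t, a ≤ t → φ t = x) (k : a < t) : deriv φ t = 0 := by
  rw [EventuallyEq.deriv_eq (f := fun _ => x) ((eventually_gt_nhds k).mono fun s e => h s e.le),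
    deriv_const]

lemma tst_dkk : Tst (deriv kk) := tst_of 1 2 (contDiff_infty_iff_deriv.1 sm_kk).2
  (fun _ => der_lt fun _ => kk_one) fun _ => der_gt fun _ => kk_zero

lemma tst_dps : Tst (deriv ps) := tst_of (-1) (-1 / 2) (contDiff_infty_iff_deriv.1 sm_ps).2
  (fun _ => der_lt fun _ => ps_one) fun _ => der_gt fun _ => ps_zero

lemma tst_kp (h : 0 < R) : Tst (kp R) := by
  refine cs_of (by unfold kp; fun_prop) (isCompact_closedBall 0 (22 * R + 1)) fun x k =>
    kk_zero ((le_div_iff₀ (by positivity)).2 ?_)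
  rw [mem_closedBall_zero_iff, not_le] at k
  nlinarith [norm_sq_le_d2 x]

lemma stp_opp (h : Stp d χ) : Stp d (opp χ) :=
  ⟨contDiff_const.sub (h.1.comp contDiff_neg), fun t k => by rw [opp, h.2.2 _ (by linarith), sub_self],
    fun t k => by rw [opp, h.2.1 _ (by linarith), sub_zero]⟩

lemma tst_slab (h : Stp d χ) (hR : 0 < R) (hL : 0 < L) : Tst (slab χ R L) := by
  have h1 := h.1
  have e : slab χ R L = k3 (fun t => χ t * kk (t / L)) fun x => kp R ((Real.sqrt L)⁻¹ • x) :=
    funext fun y => (mul_assoc _ _ _).symm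
  exact e ▸ tst_k3 (tst_of (-d / 2) (2 * L) (by fun_prop) (fun t k => by rw [h.2.1 t k.le, zero_mul])
    fun t k => by rw [kk_zero ((le_div_iff₀ hL).2 k.le), mul_zero])
    (cs_smul (by positivity) (tst_kp hR))

lemma tst_edge (hR : 0 < R) (he : 0 < ε) : Tst (edge R ε) :=
  tst_of (-(4 * R)) 0 (by unfold edge; fun_prop)
    (fun t k => by rw [edge, kk_zero ((le_div_iff₀ (by positivity)).2 (by linarith)), mul_zero])
    fun t k => by rw [edge, ps_zero (by linarith [div_pos k he]), zero_mul]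

lemma tst_cut0 (hR : 0 < R) : Tst (cut0 R) :=
  tst_k3 (tst_of (-2) 2 (by fun_prop) (fun t k => by rw [kk_zero (t := -t) (by linarith), mul_zero])
    fun t k => by rw [kk_zero k.le, zero_mul]) (tst_kp hR)

/-- the gap -/
def gm (t : ℝ) : ℝ := 1 - ps t - ps (-t)

/-- the difference of two scales -/
def ph (t : ℝ) : ℝ := ps (t / (1 / 2) ^ 22) - ps t

/-- the face at scale one -/
def fc (R : ℝ) : P3 → ℝ := k3 (deriv kk) (kp R)

lemma tst_gm : Tst gm := tst_of (-1) 1 (by unfold gm; fun_prop)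
  (fun t k => by rw [gm, ps_one k.le, ps_zero (by linarith)]; ring)
  fun t k => by rw [gm, ps_zero (by linarith), ps_one (by linarith)]; ring

lemma ph_zero (h : t ≤ -1) : ph t = 0 := by
  rw [ph, ps_one h, ps_one ((div_le_iff₀ (by positivity)).2 (by linarith)), sub_self]

lemma tst_ph : Tst ph := tst_of (-1) 0 (by unfold ph; fun_prop) (fun _ k => ph_zero k.le)
  fun t k => by
    rw [ph, ps_zero (t := t) (by linarith), ps_zero (t := t / (1 / 2) ^ 22)
      (le_trans (by norm_num : (-1 / 2 : ℝ) ≤ 0) (by positivity)), sub_self]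

lemma d_ps : Differentiable ℝ ps := sm_ps.differentiable (by simp)

lemma da_cut0 (hR : 0 < R) : da (cut0 R) = fun y => fc R y - fl (fc R) y := by
  funext y
  have d := sm_kk.differentiable (by simp)
  have h1 := ((d y.1).hasDerivAt.mul ((d (-y.1)).hasDerivAt.comp y.1 (hasDerivAt_neg y.1)))
  have h2 := (h1.comp_hasFDerivAt y hasFDerivAt_fst).mul
    (((tst_kp hR).1.differentiable (by simp) y.2).hasFDerivAt.comp y hasFDerivAt_snd)
  have e : ∀ s, deriv kk s * kk (-s) = deriv kk s := fun s => by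
    rcases lt_or_ge s 1 with k | k
    · rw [der_lt (fun _ => kk_one) k, zero_mul]
    · rw [kk_one (by linarith), mul_one]
  have e' := e (-y.1)
  rw [neg_neg] at e'
  refine (congrArg (fun A : P3 →L[ℝ] ℝ => A (1, 0)) h2.fderiv).trans ?_
  simp [fc, fl, k3]
  linear_combination kp R y.2 * e y.1 - kp R y.2 * e'

lemma slab_sum (h : Stp d χ) (hd : 0 < d) (hL : d ≤ L) (y : P3) :
    slab χ R L y + fl (slab (opp χ) R L) y = kL (cut0 R) L y := by
  have l := hd.trans_le hL
  simp only [slab, fl, opp, kL, cut0, k3, neg_neg, neg_div]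
  rcases le_total y.1 0 with k | k
  · have a : kk (y.1 / L) = 1 := kk_one ((div_le_one l).2 (by linarith))
    rcases le_total y.1 (-d / 2) with k' | k'
    · rw [a, h.2.1 _ k']
      ring
    · rw [a, kk_one (t := -(y.1 / L)) (by rw [← neg_div, div_le_one l]; linarith)]
      ring
  · have a : kk (-(y.1 / L)) = 1 := kk_one (by rw [← neg_div, div_le_one l]; linarith)
    rcases le_total y.1 (d / 2) with k' | k'
    · rw [a, kk_one ((div_le_one l).2 (by linarith))]
      ring
    · rw [a, h.2.2 _ k']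
      ring

lemma ng_dlt (ε : ℝ) : ng (dlt ε (deriv ps)) =
    fun t => dlt ε (deriv ps) t + deriv (dil ε gm) t := by
  funext t
  have h := (((hasDerivAt_const (t / ε) (1 : ℝ)).sub (d_ps _).hasDerivAt).sub
    ((d_ps (-(t / ε))).hasDerivAt.comp (t / ε) (hasDerivAt_neg _))).deriv
  rw [deriv_dil, show gm = (fun _ => (1 : ℝ)) - ps - ps ∘ Neg.neg from rfl, h, ng, dlt, dlt, neg_div]
  ring

lemma dlt_step (ε : ℝ) : dlt (ε * (1 / 2) ^ 22) (deriv ps) =
    fun t => dlt ε (deriv ps) t + deriv (dil ε ph) t := by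
  funext t
  rw [deriv_dil, show ph = dil ((1 / 2) ^ 22) ps - ps from rfl,
    deriv_sub ((smooth_dil sm_ps _).differentiable (by simp) _) (d_ps _), deriv_dil, dlt, dlt,
    div_div]
  ring

lemma edge_step (he : 0 < ε) (h : ε ≤ R) (t : ℝ) :
    edge R (ε * (1 / 2) ^ 22) t = edge R ε t + dil ε ph t := by
  have e : edge R (ε * (1 / 2) ^ 22) t = edge R ε t + ph (t / ε) * kk (-t / (2 * R)) := by
    rw [edge, edge, ph, div_div]
    ring
  rw [e, dil]
  rcases le_total t (-ε) with k | k
  · rw [ph_zero ((div_le_iff₀ he).2 (by linarith)), zero_mul]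
  · rw [kk_one ((div_le_one (by linarith)).2 (by linarith)), mul_one]

variable {D : Type*} [NormedAddCommGroup D] [InnerProductSpace ℂ D] (c : Ctx D)

/-- the total surface at scale one -/
def Gm (R ε : ℝ) : Completion D := -Tx c va (cut0 R) (dlt ε (deriv ps)) - Tx c vb (fc R) (edge R ε) -
  Tx c vb (fl (fc R)) fun t => ng (edge R ε) t + dil ε gm t

end Dec

open Dec

variable {D : Type*} [NormedAddCommGroup D] [InnerProductSpace ℂ D]

/-- **row BB.dec** -/
theorem dec_row (c : Ctx D) : T3 c → DEC c := by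
  intro T d R χ hd hR h
  have G := T.grp
  have r := hd.trans_le hR
  have t0 := tst_cut0 r
  have tf : Tst (fc R) := tst_k3 tst_dkk (tst_kp r)
  have tf' := tst_fl tf
  have tp : ∀ {ε : ℝ}, 0 < ε → Tst (dlt ε (deriv ps)) := fun e => tst_dlt tst_dps e.ne'
  have tg : ∀ {ε : ℝ}, 0 < ε → Tst (dil ε gm) := fun e => tst_dil tst_gm e.ne'
  have tn : ∀ {ε : ℝ}, 0 < ε → Tst fun t => ng (edge R ε) t + dil ε gm t := fun e =>
    cs_add (tst_ng (tst_edge r e)) (tg e)
  refine ⟨Gm c R, fun i y => -di i (cut0 R) y, ph, gm, fun i => cs_neg (tst_di i t0), tst_ph, tst_gm,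
    fun ε e => ?_, fun n hn => ?_, fun L hL => ?_⟩
  · rw [Gm, inner_sub_right, inner_sub_right, inner_neg_right, Tx_perp G t0 (tp e),
      Tx_perp G tf (tst_edge r e), Tx_perp G tf' (tn e)]
    simp
  · have e : 0 < ep n := by unfold ep; positivity
    have e1 : ep (n + 1) = ep n * (1 / 2) ^ 22 := by unfold ep; ring
    have th := tst_dil tst_ph e.ne'
    have e2 : (fun t => ng (edge R (ep n * (1 / 2) ^ 22)) t + dil (ep n * (1 / 2) ^ 22) gm t) =
        fun t => (ng (edge R (ep n)) t + dil (ep n) gm t) - dil (ep n) ph t := funext fun t => by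
      simp only [ng, edge_step e hn, dil, gm, ph, div_div, neg_div]
      ring
    have k := Tx_cons G t0 th
    rw [da_cut0 r, Tx_sub_l tf tf' th] at k
    simp only [Tx_neg_l (tst_di _ t0) th, Finset.sum_neg_distrib, ← k]
    rw [e1, Gm, Gm, e2, funext (edge_step e hn), dlt_step, Tx_add_r t0 (tp e) (cs_deriv th),
      Tx_add_r tf (tst_edge r e) th, Tx_sub_r tf' (tn e) th]
    abel
  · have l := r.trans_le hL
    have s1 := tst_slab h r l
    have s2 := tst_slab (stp_opp h) r l
    have s3 := tst_fl s2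
    have f1 : Tst (face R L) := cs_cmul _ (tst_kL tf l)
    have f2 := tst_fl f1
    refine ⟨fun y => da (fl (slab (opp χ) R L)) y + fl (face R L) y,
      fun i y => -di i (fl (slab (opp χ) R L)) y, cs_add (tst_da s3) f2,
      fun i => cs_neg (tst_di i s3), fun ε e _ => ?_⟩
    have a : scp L 1 va = L • va := null_ext (by simp) (by simp) (by simp)
    have b : scp L 1 vb = (1 : ℝ) • vb := null_ext (by simp) (by simp) (by simp)
    have e1 : (fun y => L / L * kL (cut0 R) L y) =
        fun y => slab χ R L y + fl (slab (opp χ) R L) y :=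
      funext fun y => by rw [slab_sum h hd (hR.trans hL), div_self l.ne', one_mul]
    have e2 : (fun y => 1 / L * kL (fc R) L y) = face R L := funext fun y => by rw [one_div]; rfl
    have e3 : (fun y => 1 / L * kL (fl (fc R)) L y) = fl (face R L) :=
      funext fun y => by simp [fl, face, kL, fc, neg_div]
    have k := Tx_cons G s3 (tg e)
    simp only [Tx_neg_l (tst_di _ s3) (tg e), Finset.sum_neg_distrib, ← k]
    rw [GG, GG, Gm, map_sub, map_sub, map_sub, map_neg, map_neg,
      Tx_J T.jc (null_ext (by simp) (by simp) (by simp)) s2 (tp e),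
      Tx_J T.jc (null_ext (by simp) (by simp) (by simp)) f1 (tst_edge r e),
      Tx_sc G l a t0 (tp e), Tx_sc G l b tf (tst_edge r e), Tx_sc G l b tf' (tn e), e1, e2, e3,
      ng_dlt, Tx_add_r s3 (tp e) (cs_deriv (tg e)), Tx_add_l s1 s3 (tp e),
      Tx_add_r f2 (tst_ng (tst_edge r e)) (tg e), Tx_add_l (tst_da s3) f2 (tg e)]
    abel

end

end Vale.Agent.P352X.BX
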