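import Vale.Agent.P352X.R.BB.Spec
import Vale.Agent.P352X.Api1C

/-!
# P352X, row BB.dom: domains, uniformly under small translations along `b`
-/

set_option linter.all false

open MeasureTheory Filter Topology
open scoped SchwartzMap ComplexConjugate ENNReal ContDiff

namespace Vale.Agent.P352X.BX

open Vale.Agent.P352 Vale.Agent.P352.GF Vale.Agent.P352.BW Vale.Agent.P352.H246
open Vale.Agent.P352.H496 Vale.Agent.P352.H755 Vale.Agent.P352.H15
open UniformSpace (Completion)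
open Complex (I)

noncomputable section

namespace Dom

/-! ### geometry -/

lemma abs_le_time {w : V} (h : w ∈ Fc) (m : Ix) : |w m| ≤ w 0 := by
  have h1 : 0 < mdot w w := h.1
  have h2 : 0 < w 0 := h.2
  rw [mdot_eq] at h1
  refine abs_le_of_sq_le_sq' ?_ h2.le |> abs_le.2
  fin_cases m <;> simp <;> nlinarith [sq_nonneg (w 1), sq_nonneg (w 2), sq_nonneg (w 3)]

lemma norm_dc {y z : V} {r : ℝ} (h : z ∈ dc y r) : ‖z‖ ≤ ‖y‖ + 3 * |r| := by
  have h1 := abs_le_time h.1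
  have h2 : 0 < (y + bas o r - z) 0 := h.2.2
  have h3 : ∀ m, |bas o r m| ≤ |r| := fun m => by
    unfold bas
    split_ifs <;> simp
  refine (pi_norm_le_iff_of_nonneg (by positivity)).2 fun m => ?_
  have h4 := abs_le.1 (h1 m)
  have h5 := abs_le.1 (h3 m)
  have h6 := abs_le.1 (show |y m| ≤ ‖y‖ from norm_le_pi_norm y m)
  have h7 : bas o r 0 = r := rfl
  simp only [Pi.sub_apply, Pi.add_apply, h7] at h2 h4
  rw [Real.norm_eq_abs, abs_le]
  constructor <;> linarith [le_abs_self r]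

lemma ex_r0 (R : ℝ) {d : ℝ} (hd : 0 < d) :
    ∃ r0, 0 < r0 ∧ ∀ z : V, ‖z‖ ≤ R → be z < 0 → d < al z → z ∈ Rc r0 0 := by
  have p : 0 < 4 * |R| + 1 := by positivity
  have q : 0 < 4 * R ^ 2 + 1 := by positivity
  refine ⟨min (1 / (4 * |R| + 1)) (d / (4 * R ^ 2 + 1)), by positivity, fun z h1 h2 h3 => ?_⟩
  set r := min (1 / (4 * |R| + 1)) (d / (4 * R ^ 2 + 1))
  have r0 : 0 < r := by positivity
  have r1 : r * (4 * |R| + 1) ≤ 1 := (le_div_iff₀ p).1 (min_le_left _ _)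
  have r2 : r * (4 * R ^ 2 + 1) ≤ d := (le_div_iff₀ q).1 (min_le_right _ _)
  have h4 := (abs_le.1 (abs_be_le z)).1
  have h5 := (abs_le.1 (abs_mdot_le z z)).1
  have h6 : ‖z‖ * ‖z‖ ≤ R ^ 2 := (mul_self_le_mul_self (norm_nonneg z) h1).trans_eq (sq R).symm
  rw [Rc, Set.mem_setOf_eq, sub_zero]
  refine ⟨h2, ?_, ?_⟩
  · rw [md_va]
    nlinarith [le_abs_self R]
  · rw [md_vb]
    nlinarith

/-- the translates of a double cone below the plane stay in two cut cones -/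
lemma ex_cone {y : V} {r u0 u1 d0 d1 : ℝ} (hu : u1 < u0) (h1 : 0 ≤ d1) (hd : d1 < d0)
    (h : dc y r ⊆ {z | be z < -u0 ∧ d0 < al z}) : ∃ r0, 0 < r0 ∧ ∀ u ∈ Set.Icc (-u1) u1,
      ∀ z ∈ dc y r, z + (-u) • vb ∈ Rc r0 0 ∧ z + (-u) • vb ∈ Rc r0 (d1 • va) := by
  obtain ⟨r0, p, q⟩ := ex_r0 (‖y‖ + 3 * |r| + u1 * ‖vb‖ + d1 * ‖va‖) (sub_pos.2 hd)
  refine ⟨r0, p, fun u hu' z hz => ?_⟩
  have n1 : ‖z + (-u) • vb‖ ≤ ‖y‖ + 3 * |r| + u1 * ‖vb‖ := by
    refine (norm_add_le _ _).trans (add_le_add (norm_dc hz) ?_)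
    rw [norm_smul, norm_neg]
    exact mul_le_mul_of_nonneg_right (abs_le.2 hu') (norm_nonneg _)
  have n2 : ‖d1 • va‖ = d1 * ‖va‖ := by rw [norm_smul, Real.norm_of_nonneg h1]
  have b1 := (h hz).1
  have b2 := (h hz).2
  refine ⟨q _ (n1.trans (le_add_of_nonneg_right (by positivity))) ?_ ?_, ?_⟩
  · simp only [be_add, be_smul, be_vb]
    linarith [hu'.1]
  · simp only [al_add, al_smul, al_vb]
    linarith
  · have := q (z + (-u) • vb - d1 • va) ((norm_sub_le _ _).trans (by linarith)) (by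
      simp only [be_add, be_sub, be_smul, be_vb, be_va]
      linarith [hu'.1]) (by
      simp only [al_add, al_sub, al_smul, al_vb, al_va]
      linarith)
    rw [Rc, Set.mem_setOf_eq, sub_zero] at this
    exact this

/-! ### smooth families of vectors -/

section abstr

variable {H : Type*} [NormedAddCommGroup H] [InnerProductSpace ℂ H] [CompleteSpace H]
  {P : Type*} [NormedAddCommGroup P] [NormedSpace ℝ P] {W : ℝ → H →L[ℂ] H} {ψ : P → H}

lemma line (p : P) : HasDerivAt (fun t : ℝ => ((t, p) : ℝ × P)) (1, 0) 0 :=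
  (hasDerivAt_id (0 : ℝ)).prodMk (hasDerivAt_const _ _)

lemma dm_of (h : ContDiff ℝ ∞ fun q : ℝ × P => W q.1 (ψ q.2)) (p : P) : Dm W (ψ p) := by
  have h1 := ((h.differentiable (by simp)) (0, p)).hasFDerivAt.comp_hasDerivAt (0 : ℝ) (line p)
  exact h1.differentiableAt

lemma smooth_gen {A : P → H →L[ℂ] H} (hd : ∀ p, Dm W (ψ p))
    (h : ContDiff ℝ ∞ fun q : ℝ × P => A q.2 (W q.1 (ψ q.2))) :
    ContDiff ℝ ∞ fun p => A p (gen W (ψ p)) := by
  have e : (fun p => A p (gen W (ψ p))) = fun p =>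
      -I • fderiv ℝ (fun q : ℝ × P => A q.2 (W q.1 (ψ q.2))) (0, p) (1, 0) := by
    funext p
    have h1 := ((h.differentiable (by simp)) (0, p)).hasFDerivAt.comp_hasDerivAt (0 : ℝ) (line p)
    have h2 := ((A p).restrictScalars ℝ).hasFDerivAt.comp_hasDerivAt (0 : ℝ) (hd p).gn
    rw [h1.unique h2, ContinuousLinearMap.coe_restrictScalars', map_smul, neg_I_I]
  rw [e]
  exact (((h.fderiv_right (m := ∞) le_rfl).comp (contDiff_const.prodMk contDiff_id)).clm_apply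
    contDiff_const).const_smul _

lemma cont_gen (h : ContDiff ℝ ∞ fun q : ℝ × P => W q.1 (ψ q.2)) :
    Continuous fun p => gen W (ψ p) :=
  (smooth_gen (A := fun _ => 1) (dm_of h) h).continuous

/-- smooth vectors -/
def Sv (B T : ℝ → H →L[ℂ] H) (v : H) : Prop := ContDiff ℝ ∞ fun q : ℝ × ℝ => B q.1 (T q.2 v)

/-- the domains along the orbit of a smooth vector -/
structure Nice (B T : ℝ → H →L[ℂ] H) (φ : ℝ → H) : Prop where
  c0 : Continuous φ
  dp : ∀ u, Dm T (φ u)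
  cp : Continuous fun u => gen T (φ u)
  db : ∀ u, Dm B (φ u)
  cb : Continuous fun u => gen B (φ u)
  dpb : ∀ u, Dm T (gen B (φ u))
  cpb : Continuous fun u => gen T (gen B (φ u))
  dbb : ∀ u, Dm B (gen B (φ u))
  cbb : Continuous fun u => gen B (gen B (φ u))

variable {B T : ℝ → H →L[ℂ] H} {v : H} (h : Sv B T v)
include h

lemma s2 : ContDiff ℝ ∞ fun q : ℝ × ℝ => B q.1 (T (-q.2) v) := by
  have := ContDiff.comp h (f := fun q : ℝ × ℝ => (q.1, -q.2)) (by fun_prop)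
  exact this

lemma s1 (gB : UG B) (gT : UG T) : ContDiff ℝ ∞ fun q : ℝ × ℝ => T q.1 (T (-q.2) v) := by
  have := ContDiff.comp h (f := fun q : ℝ × ℝ => ((0 : ℝ), q.1 + -q.2)) (by fun_prop)
  refine (congrArg (ContDiff ℝ ∞) (funext fun q => ?_)).mp this
  simp only [Function.comp_apply, gB.zero, gT.add]

lemma s3 (gT : UG T) (e : ∀ s t w, T s (B t w) = B t (T (Real.exp t * s) w)) :
    ContDiff ℝ ∞ fun q : ℝ × ℝ => T q.1 (gen B (T (-q.2) v)) := by
  refine smooth_gen (A := fun q : ℝ × ℝ => T q.1) (ψ := fun q => T (-q.2) v)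
    (fun q => dm_of (ψ := fun u => T (-u) v) (s2 h) q.2) ?_
  have := ContDiff.comp h (f := fun q : ℝ × ℝ × ℝ => (q.1, Real.exp q.1 * q.2.1 + -q.2.2))
    (by fun_prop)
  refine (congrArg (ContDiff ℝ ∞) (funext fun q => ?_)).mp this
  simp only [Function.comp_apply, gT.add, e]

lemma s4 (gB : UG B) : ContDiff ℝ ∞ fun q : ℝ × ℝ => B q.1 (gen B (T (-q.2) v)) := by
  refine smooth_gen (A := fun q : ℝ × ℝ => B q.1) (ψ := fun q => T (-q.2) v)
    (fun q => dm_of (ψ := fun u => T (-u) v) (s2 h) q.2) ?_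
  have := ContDiff.comp h (f := fun q : ℝ × ℝ × ℝ => (q.2.1 + q.1, -q.2.2)) (by fun_prop)
  refine (congrArg (ContDiff ℝ ∞) (funext fun q => ?_)).mp this
  simp only [Function.comp_apply, gB.add]

lemma nice (gB : UG B) (gT : UG T) (e : ∀ s t w, T s (B t w) = B t (T (Real.exp t * s) w)) :
    Nice B T fun u => T (-u) v :=
  ⟨(gT.cont v).comp continuous_neg, dm_of (ψ := fun u => T (-u) v) (s1 h gB gT),
    cont_gen (ψ := fun u => T (-u) v) (s1 h gB gT), dm_of (ψ := fun u => T (-u) v) (s2 h),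
    cont_gen (ψ := fun u => T (-u) v) (s2 h), dm_of (ψ := fun u => gen B (T (-u) v)) (s3 h gT e),
    cont_gen (ψ := fun u => gen B (T (-u) v)) (s3 h gT e),
    dm_of (ψ := fun u => gen B (T (-u) v)) (s4 h gB),
    cont_gen (ψ := fun u => gen B (T (-u) v)) (s4 h gB)⟩

end abstr

variable {D : Type*} [NormedAddCommGroup D] [InnerProductSpace ℂ D] {c : Ctx D}

lemma pb_vac (g : GRP c) (t : ℝ) : Pb c.Q t c.Om = c.Om := g.vac _ _ _

lemma bo_vac (g : GRP c) (t : ℝ) : Bo c.Q t c.Om = c.Om := g.vac _ _ _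

lemma sm_star (g : GRP c) {X} (h : Sm c X) : Sm c (star X) := by
  have := (starL' ℝ : (Completion D →L[ℂ] Completion D) ≃L[ℝ] _).contDiff.comp h
  refine (congrArg (ContDiff ℝ ∞) (funext fun q => ?_)).mp this
  simp only [Function.comp_apply, starL'_apply, star_mul, g.ugB.star_eq, g.ugPb.star_eq, neg_neg,
    mul_assoc]

lemma sv_of (g : GRP c) {X} (h : Sm c X) : Sv (Bo c.Q) (Pb c.Q) (X c.Om) := by
  have := ((ContinuousLinearMap.apply ℂ (Completion D) c.Om).restrictScalars ℝ).contDiff.comp h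
  refine (congrArg (ContDiff ℝ ∞) (funext fun q => ?_)).mp this
  simp only [Function.comp_apply, ContinuousLinearMap.coe_restrictScalars',
    ContinuousLinearMap.apply_apply, ContinuousLinearMap.mul_apply, pb_vac g, bo_vac g]

lemma pb_bo (g : GRP c) (s t : ℝ) (v : Completion D) :
    Pb c.Q s (Bo c.Q t v) = Bo c.Q t (Pb c.Q (Real.exp t * s) v) := by
  have := DFunLike.congr_fun (g.bo_pb t (Real.exp t * s)) v
  rw [← mul_assoc, ← Real.exp_add, neg_one_mul, neg_add_cancel, Real.exp_zero, one_mul] at this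
  exact this.symm

lemma nice_of (g : GRP c) {X} (h : Sm c X) :
    Nice (Bo c.Q) (Pb c.Q) fun u => Pb c.Q (-u) (X c.Om) :=
  nice (sv_of g h) g.ugB g.ugPb (pb_bo g)

variable {φ φ' : ℝ → Completion D} {r : ℝ} {S : Set ℝ}

lemma reg (t : T3 c) (hr : 0 < r) (n : Nice (Bo c.Q) (Pb c.Q) φ)
    (n' : Nice (Bo c.Q) (Pb c.Q) φ') {u : ℝ}
    (p : Pr (c.N (Rc r 0)) c.Om (φ u) (φ' u)) : Reg c (φ u) := by
  obtain ⟨C, hC⟩ := t.kd.a r hr
  have k := (t.kd.a2 r 0 _ _ le_rfl hr p (n.db u) (n'.db u)).2 (n.dbb u)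
  exact ⟨n.db u, (hC _ _ p (n.db u)).1, k.1, k.2⟩

lemma contOn (t : T3 c) (hr : 0 < r) (n : Nice (Bo c.Q) (Pb c.Q) φ)
    (n' : Nice (Bo c.Q) (Pb c.Q) φ')
    (p : ∀ u ∈ S, Pr (c.N (Rc r 0)) c.Om (φ u) (φ' u)) :
    ContinuousOn (fun u => gen c.SK (φ u)) S := fun v hv => by
  obtain ⟨C, hC⟩ := t.kd.a r hr
  have h0 : Continuous fun u => C * (‖φ u - φ v‖ + ‖φ' u - φ' v‖ +
      ‖gen (Bo c.Q) (φ u) - gen (Bo c.Q) (φ v)‖) :=
    continuous_const.mul (((n.c0.sub continuous_const).norm.add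
      (n'.c0.sub continuous_const).norm).add (n.cb.sub continuous_const).norm)
  have h1 := (h0.tendsto v).mono_left (nhdsWithin_le_nhds (s := S))
  simp only [sub_self, norm_zero, add_zero, mul_zero] at h1
  refine tendsto_iff_norm_sub_tendsto_zero.2 (squeeze_zero' (.of_forall fun _ => norm_nonneg _)
    (eventually_mem_nhdsWithin.mono fun u hu => ?_) h1)
  have := (hC _ _ ((p u hu).sub (p v hv)) ((n.db u).sub (n.db v))).2
  rwa [gen_sub (hC _ _ (p u hu) (n.db u)).1 (hC _ _ (p v hv) (n.db v)).1,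
    gen_sub (n.db u) (n.db v)] at this

lemma bound (t : T3 c) (hr : 0 < r) (n : Nice (Bo c.Q) (Pb c.Q) φ)
    (n' : Nice (Bo c.Q) (Pb c.Q) φ') (hS : IsCompact S)
    (p : ∀ u ∈ S, Pr (c.N (Rc r 0)) c.Om (φ u) (φ' u)) :
    ∃ N, ∀ u ∈ S, Qb c (gen c.SK (φ u)) N := by
  obtain ⟨C, hC⟩ := t.a2.abs r hr
  obtain ⟨N1, h1⟩ := hS.exists_bound_of_continuousOn (contOn t hr n n' p)
  have h0 : Continuous fun u => C * (‖φ u‖ + ‖φ' u‖ + ‖gen (Pb c.Q) (φ u)‖ +
      ‖gen (Pb c.Q) (φ' u)‖ + ‖gen (Bo c.Q) (φ u)‖ + ‖gen (Bo c.Q) (φ' u)‖ +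
      ‖gen (Pb c.Q) (gen (Bo c.Q) (φ u))‖ + ‖gen (Bo c.Q) (gen (Bo c.Q) (φ u))‖) ^ 2 :=
    continuous_const.mul ((((((((n.c0.norm.add n'.c0.norm).add n.cp.norm).add n'.cp.norm).add
      n.cb.norm).add n'.cb.norm).add n.cpb.norm).add n.cbb.norm).pow 2)
  obtain ⟨N2, h2⟩ := hS.exists_bound_of_continuousOn h0.continuousOn
  refine ⟨|N1| + |N2| + 1, fun u hu => ⟨(h1 u hu).trans ?_, (hC _ _ (p u hu) (n.dp u) (n'.dp u)
    (n.db u) (n'.db u) (n.dpb u) (n.dbb u)).trans (ENNReal.ofReal_le_ofReal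
      ((le_abs_self _).trans ((h2 u hu).trans ?_)))⟩⟩
  · linarith [le_abs_self N1, abs_nonneg N2]
  · nlinarith [le_abs_self N2, abs_nonneg N2, abs_nonneg N1]

end Dom

variable {D : Type*} [NormedAddCommGroup D] [InnerProductSpace ℂ D]

open Dom in
theorem dom_row (c : Ctx D) : T3 c → DOM c := fun t u0 u1 d0 d1 y r X hu h1 hd _ hs hX sX => by
  have g := t.grp
  obtain ⟨r', hr, hc⟩ := ex_cone hu h1 hd hs
  have n := nice_of g sX
  have n' := nice_of g (sm_star g sX)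
  have p : ∀ u ∈ Set.Icc (-u1) u1,
      Pr (c.N (Rc r' 0)) c.Om (Pb c.Q (-u) (X c.Om)) (Pb c.Q (-u) (star X c.Om)) := fun u hu =>
    g.pr_ut (Pr.of_mem hX) _ fun z hz => (hc u hu z hz).1
  obtain ⟨N, hN⟩ := bound t hr n n' isCompact_Icc p
  refine ⟨r', N, hr, fun u hu => ⟨?_, reg t hr n n' (p u hu), hN u hu⟩, contOn t hr n n' p⟩
  have := g.mem_ut hX ((-u) • vb) fun z hz => (hc u hu z hz).2
  rwa [← neg_smul, neg_neg] at this

end

end Vale.Agent.P352X.BX
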