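import Vale.Agent.P352X.R.BB.Base
import Vale.Agent.P352X.Api2d

/-!
# P352X, row BB: the gap and the far part
-/

open MeasureTheory Filter Topology Set Metric
open scoped SchwartzMap ComplexConjugate ENNReal ContDiff

namespace Vale.Agent.P352X.BX

open Vale.Agent.P352 Vale.Agent.P352.GF Vale.Agent.P352.BW Vale.Agent.P352.H246
open Vale.Agent.P352.H496 Vale.Agent.P352.H755 Vale.Agent.P352.H15 Vale.Agent.P352X.Ap
open Vale.Agent.P132 (ModData jconj)
open UniformSpace (Completion)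

noncomputable section

variable {D : Type*} [NormedAddCommGroup D] [InnerProductSpace ℂ D] {c : Ctx D}
  {a b v a' b' v' : V} {f : Fn} {g κ κ0 : P3 → ℝ} {ρ χ θ : ℝ → ℝ} {O O1 O2 : Set V}
  {w w' : Completion D} {X X' : Completion D →L[ℂ] Completion D}

theorem mem_J (j : JC c) (ha : IsNull a) (hb : IsNull b) (h : 0 < mdot a b) (hX : X ∈ c.N O)
    (e : ∀ z ∈ O, jr z ∈ Wdg a b v) : jconj c.J X ∈ c.N (Wdg a b v) := by
  have n : ∀ a, IsNull a → IsNull (-jr a) := fun a ha =>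
    ⟨by rw [md_neg, md_neg_l, neg_neg, md_jr, ha.1], by simpa [jr_apply, sj, o] using ha.2⟩
  have k : ∀ z, z ∈ Wdg (-jr b) (-jr a) (jr v) ↔ jr z ∈ Wdg a b v := fun z => by
    have k : ∀ a, mdot (-jr a) (z - jr v) = -mdot a (jr z - v) := fun a => by
      simp [mdot_null, d2_neg_l]
      ring
    simp only [Wdg, mem_ofPred_eq, k, neg_lt_zero, neg_pos, and_comm]
  exact c.N_mono (O' := Wdg a b v) (image_subset_iff.2 fun z hz => (k z).1 hz) _ (j.alg _ _ _ (n b hb) (n a ha)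
    (by rwa [md_neg, md_neg_l, neg_neg, md_jr, md_comm]) X
      (c.N_mono (fun z hz => (k z).2 (e z hz)) X hX))

/-- locality in wedges -/
theorem loc_w (t : T3 c) (ha : IsNull a) (hb : IsNull b) (h : 0 < mdot a b) (ha' : IsNull a')
    (hb' : IsNull b') (h' : 0 < mdot a' b') (hX : X ∈ c.N O1) (e : O1 ⊆ Wdg a b v)
    (hX' : X' ∈ c.N O2) (e' : ∀ z ∈ O2, jr z ∈ Wdg a' b' v') (hf : In O f) (k : O ⊆ Wdg b a v)
    (k' : O ⊆ Wdg b' a' v') (p q : V) :
    inner ℂ (c.Tv (hk p q (bar f))) (jconj c.J X' (X c.Om)) =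
      inner ℂ (star X (star (jconj c.J X') c.Om)) (c.Tv (hk p q f)) := by
  have := t.grp.pr_Tv (in_hk p q hf) _ (mul_mem (t.jc.loc hb' ha' (by rwa [md_comm]) k' le_rfl _
    (mem_J t.jc ha' hb' h' hX' e')) (t.jc.loc hb ha (by rwa [md_comm]) k e X hX))
  simp only [bar_hk, star_mul] at this
  exact this.symm

theorem gap_row (c : Ctx D) (t : T3 c) : GAP c := by
  intro u0 d0 y1 r1 y2 r2 X X' g ρ d hg sg hρ sρ
  have := loc_w t null_va null_vb (md_ab ▸ one_pos) null_vb null_va (by simp [md_vb])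
    d.m1 (v := pt d0 (-u0) 0) (fun z hz => mem_W.2 (by simpa using d.s1 hz)) d.m2
    (v' := pt (-d0) u0 0) (fun z hz => mem_W'.2 (by simpa [lt_neg, and_comm] using d.s2 hz))
    (in_pr (O := {z | |al z| < d0 ∧ be z ∈ Ioo (-u0) u0}) hg hρ fun z h1 h2 => ⟨sg h1, sρ h2⟩)
    (fun z hz => mem_W'.2 (by simpa using ⟨(abs_lt.1 hz.1).2, hz.2.1⟩))
    (fun z hz => mem_W.2 (by simpa using ⟨hz.2.2, (abs_lt.1 hz.1).1⟩)) va va
  rwa [bar_pr] at this

/-- locality far away -/
theorem loc_far (t : T3 c) {y1 y2 : V} {r1 r2 : ℝ} (hX : X ∈ c.N (dc y1 r1))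
    (hX' : X' ∈ c.N (dc y2 r2)) (p q : V) : ∃ R > 0, ∀ f, In (Jc (closedBall 0 R))ᶜ f →
      inner ℂ (c.Tv (hk p q (bar f))) (jconj c.J X' (X c.Om)) =
        inner ℂ (star X (star (jconj c.J X') c.Om)) (c.Tv (hk p q f)) := by
  obtain ⟨R, R0, hR⟩ := ((isBounded_ball (x := y1) (r := r1)).union
    (isBounded_ball (x := jr y2) (r := r2))).subset_ball_lt 0 0
  have k : ball 0 R ⊆ closure (dc 0 (4 * R)) := fun z hz =>
    subset_closure (ball_dc _ _ (by simpa using hz))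
  refine ⟨4 * R, by positivity, fun f hf => in_ind_dc (r := 4 * R) (y := 0) (by positivity)
    (compl_subset_compl.2 (Jc_mono (closure_dc_ball _ _))) ?_ (fun f g hf hg h1 h2 => ?_)
    (fun a b v f ha hb h e hf => loc_w t ha hb h ha hb h hX
      (fun z hz => e (k (hR (.inl (dc_ball _ _ hz))))) hX' (fun z hz => e (k (hR (.inr (dc_ball _ _
        ((dc_jr _ _).ge hz)))))) hf inter_subset_left inter_subset_left p q) hf⟩
  · rw [show bar (fun _ => 0) = fun _ => 0 from funext fun _ => star_zero _, Tv_zero,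
      inner_zero_left, inner_zero_right]
  · rw [show bar (fun x => f x + g x) = fun x => bar f x + bar g x from
      funext fun _ => star_add _ _, Tv_add (test_bar hf.1) (test_bar hg.1), Tv_add hf.1 hg.1,
      inner_add_left, inner_add_right, h1, h2]

theorem om2_eq (w w' : Completion D) (χ : ℝ → ℝ) (g : P3 → ℝ) (ρ : ℝ → ℝ) :
    c.om2 w w' χ (hk va va (pr g ρ)) = inner ℂ (TP c va va (fun q => χ q.1 * g q) ρ) w +
      inner ℂ w' (TP c va va (fun q => (1 - χ q.1) * g q) ρ) := by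
  simp only [Ctx.om2, bar_hk, bar_pr, TP]
  congr 3 <;> funext m n z <;> simp only [hk, pr, pl_1] <;> push_cast <;> ring

theorem tst_sh (hg : Tst g) (v : R2) : Tst fun q : P3 => d2 q.2 q.2 * g (q.1, q.2 + v) :=
  cs_mul_l (by fun_prop) (by simpa [Prod.add_def] using cs_tr ((0, v) : P3) hg)

theorem lim1 (t : T3 c) (hg : Tst g) (hρ : Tst ρ) (y : R2) (w : Completion D) :
    Tendsto (fun L => inner ℂ (TP c va va (fun q => d2 q.2 q.2 * kL g L (q.1, q.2 + y)) ρ) w) atTop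
      (𝓝 0) := by
  have m : (fun z => (d2 (tx z) (tx z) : ℂ)).HasTemperateGrowth := by fun_prop
  have k := tst_sh hg
  let η : R2 → Completion D := fun v =>
    TL c va va (SchwartzMap.smulLeftCLM ℂ (fun z => (d2 (tx z) (tx z) : ℂ))
      (ST.tsl (-tv v) (sch (pr g ρ))))
  have e : ∀ v, η v = TP c va va (fun q => d2 q.2 q.2 * g (q.1, q.2 + v)) ρ := fun v => by
    rw [TP_sch (k v) hρ, Ap.sch_eq (G := SchwartzMap.smulLeftCLM ℂ
      (fun z => (d2 (tx z) (tx z) : ℂ)) (ST.tsl (-tv v) (sch (pr g ρ)))) fun z => ?_]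
    rw [SchwartzMap.smulLeftCLM_apply_apply m, ST.tsl_apply, sch_dc (dc_pr hg hρ)]
    simp [pr, pl, mul_assoc]
  have h1 : Tendsto (fun L : ℝ => (Real.sqrt L)⁻¹ • y) atTop (𝓝 0) := by
    simpa using (tendsto_inv_atTop_zero.comp Real.tendsto_sqrt_atTop).smul_const y
  have h2 : Continuous η := (TL c va va).continuous.comp ((SchwartzMap.smulLeftCLM ℂ _).continuous.comp
    (ST.continuous_tsl.comp (cont_tv.neg.prodMk continuous_const)))
  refine (t.bas.wn ℝ atTop (fun L => max L 1) (fun _ => 1) (fun _ => 0) _ _ w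
    (fun L => ⟨lt_max_of_lt_right one_pos, one_pos⟩)
    (.inl (tendsto_atTop_mono (fun L => le_max_left L 1) tendsto_id)) ((h2.tendsto 0).comp h1)
    (e 0 ▸ perp_TP t.grp (k 0) hρ _ _)).congr' ?_
  filter_upwards [eventually_ge_atTop (1 : ℝ)] with L hL
  have L0 := one_pos.trans_le hL
  rw [t.grp.ut0, max_eq_left hL, Function.comp, e, one_apply_eq_self, TP,
    Far.usc_Tv t.grp (k _) hρ L0, ← TP, ← TP_mul_g L (tst_kL (k _) L0) hρ]
  congr 2
  funext q
  simp only [kL, d2_smul, d2_smul_l, smul_add, ← mul_assoc, ← mul_inv,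
    Real.mul_self_sqrt L0.le, mul_inv_cancel₀ L0.ne', one_mul]

theorem lim2 (t : T3 c) (hθ : ContDiff ℝ ∞ θ) (hκ : Tst κ) (hκ0 : Tst κ0) (hρ : Tst ρ) (y : R2)
    (w : Completion D) : Tendsto (fun L => inner ℂ (TP c va va (fun q => θ (q.1 / L) *
      (d2 q.2 q.2 * (kL κ L (q.1, q.2 + y) - kL κ0 L q))) ρ) w) atTop (𝓝 0) := by
  have m : ∀ κ, Tst κ → Tst fun q : P3 => θ q.1 * κ q := fun κ h =>
    cs_mul_l (hθ.comp contDiff_fst) h
  have := (lim1 t (m κ hκ) hρ y w).sub (lim1 t (m κ0 hκ0) hρ 0 w)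
  rw [sub_zero] at this
  refine this.congr' ((eventually_gt_atTop 0).mono fun L hL => ?_)
  simp only
  rw [← inner_sub_left, ← TP_sub_g (tst_sh (tst_kL (m κ hκ) hL) y)
    (tst_sh (tst_kL (m κ0 hκ0) hL) 0) hρ]
  congr 2
  funext q
  simp only [kL, add_zero]
  ring

theorem far_row (c : Ctx D) (t : T3 c) : FAR c := by
  intro u0 d0 y1 r1 y2 r2 X X' χ κ κ0 ρ y d hχ hκ hκ0 hρ sρ
  obtain ⟨R, R0, hR⟩ := loc_far t d.m1 d.m2 va va
  obtain ⟨ε, ε0, hε⟩ := Metric.eventually_nhds_iff.1 (hκ.2.and hκ0.2)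
  have M0 : 0 < 2 * R + |u0| := by positivity
  obtain ⟨δ, δ0, δ1, δ2⟩ : ∃ δ > 0, δ < ε ∧ 2 * δ ≤ (ε / 2) ^ 2 / (4 * (2 * R + |u0|)) :=
    ⟨min (ε / 2) ((ε / 2) ^ 2 / (4 * (2 * R + |u0|)) / 2), by positivity,
      (min_le_left _ _).trans_lt (by linarith), by
        linarith [min_le_right (ε / 2) ((ε / 2) ^ 2 / (4 * (2 * R + |u0|)) / 2)]⟩
  obtain ⟨θ, hθ, θ0, θ1, -⟩ := ex_step (show -δ < δ by linarith)
  have := (lim2 t hθ hκ.1 hκ0.1 hρ y (jconj c.J X' (X c.Om))).add ((Complex.continuous_conj.tendsto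
    _).comp (lim2 t (θ := fun s => 1 - θ s) (contDiff_const.sub hθ) hκ.1 hκ0.1 hρ y
      (star X (star (jconj c.J X') c.Om))))
  rw [map_zero, add_zero] at this
  refine this.congr' ?_
  have h1 : Tendsto (fun L : ℝ => ‖(Real.sqrt L)⁻¹ • y‖) atTop (𝓝 0) := by
    simpa using ((tendsto_inv_atTop_zero.comp Real.tendsto_sqrt_atTop).smul_const y).norm
  filter_upwards [eventually_gt_atTop 0, eventually_gt_atTop (2 * R / δ),
    eventually_ge_atTop (d0 / 2 / δ), h1.eventually_lt_const (half_pos ε0)] with L L0 L1 L2 L3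
  have hg : Tst fun q : P3 => d2 q.2 q.2 * (kL κ L (q.1, q.2 + y) - kL κ0 L q) := by
    simpa only [mul_sub, add_zero, tst_iff] using cs_sub (tst_sh (tst_kL hκ.1 L0) y)
      (tst_sh (tst_kL hκ0.1 L0) 0)
  rw [div_le_iff₀ δ0] at L2
  simp only [Function.comp, inner_conj_symm, om2_eq]
  generalize e : (fun q : P3 => d2 q.2 q.2 * (kL κ L (q.1, q.2 + y) - kL κ0 L q)) = g at hg
  simp only [congrFun e]
  have m : ∀ {θ : ℝ → ℝ}, ContDiff ℝ ∞ θ → Tst fun q : P3 => θ q.1 * g q := fun h =>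
    cs_mul_l (h.comp contDiff_fst) hg
  have a1 := m (smooth_dil hθ L)
  have a2 := m (hχ.1.sub (smooth_dil hθ L))
  have a3 := m (contDiff_const.sub (smooth_dil hθ L) (f := fun _ => 1))
  have s : tsupport (fun q : P3 => (χ q.1 - dil L θ q.1) * g q) ⊆
      {q | |q.1 / L| ≤ δ ∧ ε / 2 ≤ ‖(Real.sqrt L)⁻¹ • q.2‖} :=
    tsupp_sub (.and (isClosed_le (by fun_prop) continuous_const)
      (isClosed_le continuous_const (by fun_prop))) fun q hq => by
        have b1 : |q.1 / L| ≤ δ := by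
          refine abs_le.2 ⟨not_lt.1 fun h => ?_, not_lt.1 fun h => ?_⟩ <;>
            apply left_ne_zero_of_mul hq
          · rw [dil, θ0 _ h.le, hχ.2.1 _ (by linarith [(div_lt_iff₀ L0).1 h]), sub_self]
          · rw [dil, θ1 _ h.le, hχ.2.2 _ (by linarith [(lt_div_iff₀ L0).1 h]), sub_self]
        refine ⟨b1, not_lt.1 fun h => right_ne_zero_of_mul hq ?_⟩
        have b2 : ∀ x : R2, ‖x‖ < ε → dist ((q.1 / L, x) : P3) 0 < ε := fun x hx => by
          rw [dist_zero_right]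
          exact max_lt (b1.trans_lt δ1) hx
        rw [← e]
        simp only [kL, smul_add]
        rw [(hε (b2 _ ((norm_add_le _ _).trans_lt (by linarith)))).1,
          (hε (b2 _ (h.trans (half_lt_self ε0)))).2, sub_self, mul_zero]
  have z := hR _ (in_pr a2 hρ fun z h1 h2 => notMem_Jc.2 fun x hx => by
    obtain ⟨b1, b2⟩ := s h1
    have b3 := mem_closedBall_zero_iff.1 hx
    have b4 := Far.far_est (s := -|al z|) (x := z) R0 (abs_nonneg u0) δ0 L1 b3
      (abs_nonneg (al z - al x)) (B := |be z - be x|)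
      (by linarith [abs_sub (al z) (al x), abs_al_le x])
      (by linarith [abs_sub (be z) (be x), abs_be_le x, (abs_lt.2 (sρ h2)).le, le_abs_self u0]) (by
        have := div_le_div_of_nonneg_right ((pow_le_pow_left₀ (half_pos ε0).le b2 2).trans
          (norm_sq_le_d2 _)) (show 0 ≤ 4 * (2 * R + |u0|) by positivity)
        rw [abs_div, abs_of_pos L0, pl_1] at b1
        rw [neg_div]
        exact (by linarith : _ ≤ _ + _).trans (add_le_add_right this _))
    rw [mu_eq, al_sub, be_sub, tx_sub, mul_assoc]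
    rw [mul_assoc, ← abs_mul] at b4
    linarith [le_abs_self ((al z - al x) * (be z - be x))])
  rw [bar_pr, ← TP] at z
  rw [show (fun q : P3 => χ q.1 * g q) = fun q => dil L θ q.1 * g q + (χ q.1 - dil L θ q.1) * g q
    from funext fun q => by ring, show (fun q : P3 => (1 - χ q.1) * g q) = fun q =>
      (1 - dil L θ q.1) * g q - (χ q.1 - dil L θ q.1) * g q from funext fun q => by ring,
    TP_add_g a1 a2 hρ, TP_sub_g a3 a2 hρ, inner_add_left, inner_sub_right, z]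
  simp only [dil]
  ring

end

end Vale.Agent.P352X.BX
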