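import Vale.Agent.P352X.R.BB.BaseA
import Vale.Agent.P352X.R.GRP.B
import Vale.Agent.P352X.R.GRP.C

/-!
# P352X, row BB.half: the Ward identity of the boost on the surface below the plane
-/

set_option linter.all false

open MeasureTheory Filter Topology Set
open scoped SchwartzMap ComplexConjugate ENNReal ContDiff

namespace Vale.Agent.P352X.BX

open Vale.Agent.P352 Vale.Agent.P352.GF Vale.Agent.P352.H755 Vale.Agent.P352.H496
open Vale.Agent.P352X.Ap

noncomputable section

namespace Half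

variable {χ : ℝ → ℝ} {d e R L ε : ℝ} {z : V} {K : Set V}

/-- the step -/
def st (L ε : ℝ) (z : V) : ℝ := 1 - ps (be z / ε) * kk (al z / L)

/-- the cutoff -/
def ct (χ : ℝ → ℝ) (R L ε : ℝ) (z : V) : ℝ :=
  χ (al z) * kk (al z / (3 * L)) * kp R ((Real.sqrt L)⁻¹ • tx z) * edge R (ε / 4) (be z)

/-- the boost field -/
def bf (z : V) : V := al z • va - be z • vb

theorem tst_ct (h : Stp d χ) (hR : 0 < R) (hL : 0 < L) (hε : 0 < ε) : Tst (ct χ R L ε) :=
  tst_pr (tst_k3 (tst_chk h (L := 3 * L) (by positivity)) (tst_kpL hR hL))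
    (tst_edge (ε := ε / 4) hR (by positivity))

theorem supp_ct (h : Stp d χ) (hε : 0 < ε) :
    tsupport (ct χ R L ε) ⊆ {z | -d / 2 ≤ al z ∧ be z ≤ -(ε / 4) / 2} :=
  tsupp_sub ((isClosed_le continuous_const cont_al).inter (isClosed_le cont_be continuous_const))
    fun z hz => ⟨le_of_not_ge fun k => hz (by simp [ct, h.2.1 _ k]), le_of_not_ge fun k =>
      hz (by simp [ct, edge, ps_div_zero (ε := ε / 4) (by positivity) k])⟩

theorem st_be (hε : 0 < ε) (h : -ε / 2 < be z) : ∀ᶠ x in 𝓝 z, st L ε x = 1 :=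
  (cont_be.continuousAt.eventually (eventually_gt_nhds h)).mono fun x hx => by
    simp [st, ps_div_zero hε hx.le]

theorem st_al (hL : 0 < L) (h : 2 * L < al z) : ∀ᶠ x in 𝓝 z, st L ε x = 1 :=
  (cont_al.continuousAt.eventually (eventually_gt_nhds h)).mono fun x hx => by
    simp [st, kk_zero ((le_div_iff₀ hL).2 hx.le)]

theorem st_lo (hε : 0 < ε) (hL : 0 < L) (h : be z < -ε) (h' : al z < L) :
    ∀ᶠ x in 𝓝 z, st L ε x = 0 := by
  filter_upwards [cont_be.continuousAt.eventually (eventually_lt_nhds h),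
    cont_al.continuousAt.eventually (eventually_lt_nhds h')] with x a b
  simp [st, ps_div_one hε a.le, kk_one ((div_le_one hL).2 b.le)]

theorem ct_one (h : Stp d χ) (hR : 0 < R) (hL : 0 < L) (hε : 0 < ε) (a1 : d / 2 < al z)
    (a2 : al z < 3 * L) (b1 : -(2 * R) < be z) (b2 : be z < -(ε / 4))
    (x1 : d2 (tx z) (tx z) < 11 * R * L) : ∀ᶠ x in 𝓝 z, ct χ R L ε x = 1 := by
  filter_upwards [cont_al.continuousAt.eventually (Ioo_mem_nhds a1 a2),
    cont_be.continuousAt.eventually (Ioo_mem_nhds b1 b2),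
    (cont_d2 cont_tx cont_tx).continuousAt.eventually (eventually_lt_nhds x1)] with x a b k
  have : d2 ((Real.sqrt L)⁻¹ • tx x) ((Real.sqrt L)⁻¹ • tx x) ≤ 11 * R := by
    rw [d2_smul, d2_smul_l, ← mul_assoc, ← mul_inv, Real.mul_self_sqrt hL.le, inv_mul_le_iff₀ hL]
    linarith
  rw [ct, edge, h.2.2 _ a.1.le, kk_one ((div_le_one (by positivity)).2 a.2.le), kp_one hR this,
    ps_div_one (by positivity) b.2.le, kk_one ((div_le_one (by positivity)).2 (by linarith [b.1]))]
  norm_num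

theorem chg (hd : 0 < d) (h1 : d ≤ R) (h2 : 2 * R ≤ L) (hε : 0 < ε) (h3 : 2 * ε ≤ e) (h4 : e ≤ R)
    (h : Stp d χ) (hK : K ⊆ Box d e R) : Chg K (ct χ R L ε) (st L ε) := by
  have hR := hd.trans_le h1
  have hL : 0 < L := by linarith
  have j : ∀ z ∈ Jc K, ∃ x ∈ Box d e R, d2 (tx z - tx x) (tx z - tx x) ≤
      2 * (al z - al x) * (be z - be x) := fun z ⟨x, a, b⟩ => ⟨x, hK a, by
    simpa only [mu_eq, al_sub, be_sub, tx_sub, sub_nonneg] using show 0 ≤ mu (z - x) from b⟩
  refine ⟨tst_ct h hR hL hε, by unfold st; fun_prop, ⟨2 * L + 1, fun z hz => ⟨fun k => ?_,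
    fun k => ?_⟩⟩, fun z hz => ?_⟩
  · rw [time_eq z] at k
    exact (lt_or_ge (-ε / 2) (be z)).elim (st_be hε) fun b => st_al hL (by linarith)
  · obtain ⟨x, ⟨x1, x2, x3, x4, -⟩, b⟩ := j z hz
    rw [time_eq z] at k
    have b := (d2_nonneg _).trans b
    exact st_lo hε hL (by nlinarith) (by nlinarith)
  obtain ⟨x, ⟨x1, x2, x3, x4, x5⟩, b⟩ := j z hz
  have b' := (d2_nonneg _).trans b
  have c : ∀ {r : ℝ}, (∀ᶠ x in 𝓝 z, st L ε x = r) → ∀ᶠ x in 𝓝 z, st L ε x = st L ε z :=
    fun k => k.mono fun _ a => a.trans k.self_of_nhds.symm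
  by_contra! H
  have a1 := le_of_not_gt fun k => H.2.and_eventually (c (st_be hε k)) |>.exists.elim
    fun _ a => a.1 a.2
  have a2 := le_of_not_gt fun k => H.2.and_eventually (c (st_al hL k)) |>.exists.elim
    fun _ a => a.1 a.2
  have a3 : al x ≤ al z ∧ be x ≤ be z := by
    rcases lt_or_ge (be z) (-ε) with k | k
    · have := le_of_not_gt fun k' => H.2.and_eventually (c (st_lo hε hL k k')) |>.exists.elim
        fun _ a => a.1 a.2
      exact ⟨by linarith, by nlinarith⟩
    · exact ⟨by nlinarith, by linarith⟩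
  have a4 : d2 (tx z) (tx z) ≤ 2 * d2 (tx z - tx x) (tx z - tx x) + 2 * d2 (tx x) (tx x) := by
    have := d2_nonneg (tx z - (2 : ℝ) • tx x)
    simp only [d2, Pi.sub_apply, Pi.smul_apply, smul_eq_mul] at this ⊢
    linarith
  have a5 : (al z - al x) * (be z - be x) ≤ 2 * L * R :=
    mul_le_mul (by linarith) (by linarith) (sub_nonneg.2 a3.2) (by positivity)
  exact (H.1.and_eventually (ct_one h hR hL hε (by linarith [a3.1]) (by linarith)
    (by linarith [a3.2]) (by linarith) (by nlinarith))).exists.elim fun _ a => a.1 a.2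

theorem dr_st (m : Ix) (z : V) : dr m (st L ε) z =
    -(eta m * va m * (dlt ε (deriv ps) (be z) * kk (al z / L)) +
      eta m * vb m * (ps (be z / ε) * (deriv kk (al z / L) / L))) := by
  have a : ∀ (h : V) (t : ℝ), mdot h (z + bas m t) = mdot h z + eta m * h m * t := fun h t => by
    rw [md_add]
    simp [GF.mdot, bas]
  have b : ∀ (h : V) (s : ℝ), HasDerivAt (fun t => mdot h (z + bas m t) / s) (eta m * h m / s) 0 :=
    fun h s => by simpa only [a, mul_one, id] using
      (((hasDerivAt_id (0 : ℝ)).const_mul (eta m * h m)).const_add (mdot h z)).div_const s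
  refine ((((diff_ps _).hasDerivAt.comp 0 (b va ε)).mul
    ((diff_kk _).hasDerivAt.comp 0 (b vb L))).const_sub 1).deriv.trans ?_
  simp only [a, md_va, md_vb, dlt, Function.comp, mul_zero, add_zero]
  ring

theorem ct_slab (hε : 0 < ε) (h : ε ≤ 2 * R) (hL : 0 < L) (z : V) :
    ct χ R L ε z * (dlt ε (deriv ps) (be z) * kk (al z / L)) =
      slab χ R L (pl z) * dlt ε (deriv ps) (be z) := by
  have hR : 0 < 2 * R := hε.trans_le h
  simp only [ct, slab_eq, k3, edge, dlt, pl_1, pl_2]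
  rcases le_total (be z) (-ε) with a | a
  · simp [dps_le ((div_le_iff₀ hε).2 (by linarith : be z ≤ -1 * ε))]
  rcases le_total (-ε / 2) (be z) with b | b
  · simp [dps_ge ((le_div_iff₀ hε).2 (by linarith : -1 / 2 * ε ≤ be z))]
  rcases le_total (2 * L) (al z) with k | k
  · simp [kk_zero ((le_div_iff₀ hL).2 k)]
  rw [ps_div_one (by positivity) (by linarith), kk_one ((div_le_one hR).2 (by linarith)),
    kk_one (t := al z / (3 * L)) ((div_le_one (by positivity)).2 (by linarith))]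
  ring

theorem ct_face (h : Stp d χ) (hε : 0 < ε) (hd : d / 2 ≤ L) (hL : 0 < L) (z : V) :
    ct χ R L ε z * (ps (be z / ε) * (deriv kk (al z / L) / L)) =
      face R L (pl z) * edge R ε (be z) := by
  simp only [ct, face, kL, k3, edge, pl_1, pl_2]
  rcases le_total (al z) L with a | a
  · simp [dkk_le ((div_le_one hL).2 a)]
  rcases le_total (2 * L) (al z) with k | k
  · simp [dkk_ge ((le_div_iff₀ hL).2 k)]
  rcases le_total (-ε / 2) (be z) with b | b
  · simp [ps_div_zero hε b]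
  rw [ps_div_one (ε := ε / 4) (by positivity) (by linarith), h.2.2 _ (hd.trans a),
    kk_one (t := al z / (3 * L)) ((div_le_one (by positivity)).2 (by linarith))]
  ring

variable {D : Type*} [NormedAddCommGroup D] [InnerProductSpace ℂ D] (c : Ctx D)

theorem Tv_sub {F G : Ix → Ix → Fn} (hF : ∀ m n, IsTest (F m n)) (hG : ∀ m n, IsTest (G m n)) :
    c.Tv (fun m n z => F m n z - G m n z) = c.Tv F - c.Tv G := by
  choose f hf using hF
  choose g hg using hG
  rw [Ctx.Tv, Ctx.Tv, Ctx.Tv, ← UniformSpace.Completion.coe_sub]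
  simp only [Ctx.Tf, ← Finset.sum_sub_distrib, ← hf, ← hg]
  exact congrArg _ (Finset.sum_congr rfl fun m _ => Finset.sum_congr rfl fun n _ =>
    map_sub (Grp.fC (Grp.T_fld c.hT m n) c.Q.vac) (f m n) (g m n))

theorem Tx_eq (h : V) {g : P3 → ℝ} {φ : ℝ → ℝ} (hg : Tst g) (hφ : Tst φ) :
    Tx c h g φ = c.Tv (hX h bf (pr g φ)) := by
  rw [Tx, TP, TP, ← Tv_sub c (test_hk _ _ (test_pr (tst_ap 1 hg) hφ))
    (test_hk _ _ (test_pr hg (tst_tm hφ)))]
  congr 1
  funext m n z
  simp only [hk, hX, pr, ap, tm, bf, pl_1, Pi.sub_apply, Pi.smul_apply, smul_eq_mul]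
  push_cast
  ring

theorem GG_eq (h : Stp d χ) (hR : 0 < R) (hε : 0 < ε) (h1 : ε ≤ 2 * R) (hd : d / 2 ≤ L)
    (hL : 0 < L) : GG c χ R L ε = c.Tv (dens (ct χ R L ε) (st L ε) bf) := by
  have b : bf.HasTemperateGrowth := by unfold bf; fun_prop
  have a1 := tst_slab h hR hL
  have a2 := tst_dlt tst_dps hε.ne'
  have a3 := test_hX va b (test_pr a1 a2)
  have a4 := test_hX vb b (test_pr (tst_face hR hL) (tst_edge hR hε))
  have z : c.Tv (fun _ _ _ => 0) = 0 := by
    simpa using Tv_sub c a3 a3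
  rw [GG, Tx_eq c _ a1 a2, Tx_eq c _ (tst_face hR hL) (tst_edge hR hε), ← zero_sub, ← z,
    ← Tv_sub c (fun _ _ => sw_zero) a3, ← Tv_sub c (fun m n => sw_sub sw_zero (a3 m n)) a4]
  congr 1
  funext m n z
  simp only [hX, pr, dens, dr_st, ← ct_slab hε h1 hL, ← ct_face h hε hd hL]
  push_cast
  ring

end Half

open Half

theorem half_row {D : Type*} [NormedAddCommGroup D] [InnerProductSpace ℂ D] (c : Ctx D)
    (t : T3 c) : HALF c := by
  intro d d1 e R L ε χ y r X k hd h0 h1 h2 hε h3 h4 h hr hX hB hk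
  have hR := hd.trans_le h1
  have w : ∀ z, be z < 0 → -d1 < al z → z ∈ Wdg va vb (-(d1 • va)) := fun z a b =>
    ⟨by simpa [md_va] using a, by simpa [md_vb] using neg_lt_iff_pos_add.1 b⟩
  rw [GG_eq c h hR hε (by linarith) (by linarith) (by linarith)]
  refine t.f2 y r va vb _ _ _ (fun s => bst va vb (Real.exp s - 1) (Real.exp (-s) - 1)) (fun _ => 0)
    bf X k hr null_va null_vb (by simp [md_ab]) hX (chg hd h1 h2 hε h3 h4 h hB)
    (fun z hz => ?_) (fun z hz => ?_) (by funext m; simp [bst, GF.one]) rfl Grp.lor_bo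
    (fun n z => ?_) (by simpa only [← Grp.bo_eq] using hk)
  · obtain ⟨-, a, b, -⟩ := hB (subset_closure hz)
    exact w z (by linarith) (by linarith)
  · obtain ⟨a, b⟩ := supp_ct h hε hz
    exact w z (by linarith) (by linarith)
  · simp only [sim_bst, md_va, md_vb, bf, Pi.add_apply, Pi.sub_apply, Pi.smul_apply, smul_eq_mul]
    refine ((((((Real.hasDerivAt_exp 0).sub_const 1).mul_const (al z)).mul_const (va n)).const_add
      (z n)).add (((((hasDerivAt_neg (0 : ℝ)).exp).sub_const 1).mul_const (be z)).mul_const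
        (vb n))).congr_deriv ?_
    rw [neg_zero, Real.exp_zero]
    ring

end

end Vale.Agent.P352X.BX
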