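import Vale.Agent.P352X.R.BB.Base

/-!
# P352X, row BB.ks: `K` on thin slabs (helper64)
-/

set_option linter.all false

open MeasureTheory Filter Topology Set
open scoped SchwartzMap ComplexConjugate ENNReal ContDiff

namespace Vale.Agent.P352X.BX

open Vale.Agent.P352 Vale.Agent.P352.GF Vale.Agent.P352.BW Vale.Agent.P352.H246
open Vale.Agent.P352.H496 Vale.Agent.P352.H755 Vale.Agent.P352.H15 Vale.Agent.P352X.Ap
open UniformSpace (Completion)
open Complex (I)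

noncomputable section

variable {D : Type*} [NormedAddCommGroup D] [InnerProductSpace ℂ D] {c : Ctx D}
  {g : P3 → ℝ} {φ ρ : ℝ → ℝ} {F F' : ℝ → Completion D}

namespace Ks

theorem da_mul {u : R2 → ℝ} (hu : Differentiable ℝ u) (h : Differentiable ℝ g) :
    da (fun y => u y.2 * g y) = fun y => u y.2 * da g y := by
  funext y
  have h1 : HasDerivAt (fun a : ℝ => ((a, y.2) : P3)) (1, 0) y.1 :=
    (hasDerivAt_id y.1).prodMk (hasDerivAt_const _ _)
  exact da_of ((hu.comp differentiable_snd).mul h y)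
    (((h y).hasFDerivAt.comp_hasDerivAt y.1 h1).const_mul (u y.2))

theorem da_xi (i : Fin 2) (h : Differentiable ℝ g) : da (xi i g) = xi i (da g) :=
  da_mul (u := fun x => x i) (by fun_prop) h

theorem da_x2 (h : Differentiable ℝ g) : da (x2 g) = x2 (da g) :=
  da_mul (u := fun x => d2 x x) (by unfold d2; fun_prop) h

/-- the action of `M_i` on the indices -/
def mv (i : Fin 2) (h : V) : V := tx h i • va + be h • ex i

variable (c) in
/-- the terms without a derivative along `a` -/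
def Rm (h k : V) (g : P3 → ℝ) (φ : ℝ → ℝ) : Completion D := ∑ i,
  (TP c h k (di i (xi i g)) (tm φ) - TP c (mv i h) k (xi i g) φ - TP c h (mv i k) (xi i g) φ)

theorem K_TP (G : GEN c) (hg : Tst g) (hφ : Tst φ) (h k : V) : gen c.SK (TP c h k g φ) =
    Kt c h k (pr g φ) + I • TP c h k (x2 (da g)) φ + (2 * I) • Rm c h k g φ := by
  have e1 (i : Fin 2) : (fun z => ((tx z i : ℝ) : ℂ) * pr g φ z) = pr (xi i g) φ := by
    funext z; simp [pr, xi, pl, mul_assoc]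
  have e2 : (fun z => ((d2 (tx z) (tx z) : ℝ) : ℂ) * pr g φ z) = pr (x2 g) φ := by
    funext z; simp [pr, x2, pl, mul_assoc]
  have e3 (i : Fin 2) : c.Tv (hk h k (Mc i (pr (xi i g) φ))) =
      TP c h k (xi i (xi i (da g))) φ + TP c h k (di i (xi i g)) (tm φ) := by
    rw [TP, TP, ← Tv_add (test_pr (tst_xi i (tst_xi i (tst_da hg))) hφ)
      (test_pr (tst_di i (tst_xi i hg)) (tst_tm hφ)), ← da_xi i (tst_diff hg)]
    congr 2
    funext z
    rw [Mc, dv_pr_a (tst_diff (tst_xi i hg)) (tst_diff hφ),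
      dv_pr_ex (tst_diff (tst_xi i hg)) (tst_diff hφ)]
    simp only [pr, xi, da, di, dx, tm, pl]
    push_cast
    ring
  have e4 : gen (Pa c.Q) (c.Tv (hk h k (pr (x2 g) φ))) = I • TP c h k (x2 (da g)) φ := by
    have := (G.ut va h k _ (test_pr (tst_x2 hg) hφ)).gen_eq
    rw [dv_pr_a (tst_diff (tst_x2 hg)) (tst_diff hφ)] at this
    rw [← da_x2 (tst_diff hg)]
    exact this
  have e5 : TP c h k (x2 (da g)) φ = ∑ i, TP c h k (xi i (xi i (da g))) φ := by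
    rw [← TP_sum_g (fun i _ => tst_xi i (tst_xi i (tst_da hg))) hφ]
    congr 1
    funext y
    simp [x2, xi, d2]
    ring
  simp only [Kt, e1, e2, e4, (G.mi _ h k _ (test_pr (tst_xi _ hg) hφ)).gen_eq, e3, e5]
  simp only [Rm, mv, Fin.sum_univ_two, TP]
  module

/-- vectors of order `t` -/
def Ot (F : ℝ → Completion D) : Prop := ∃ C : ℝ, ∀ t ∈ Ioc (0 : ℝ) 1, ‖F t‖ ≤ C * t

theorem Ot.add (h : Ot F) (h' : Ot F') : Ot fun t => F t + F' t := by
  obtain ⟨C, h⟩ := h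
  obtain ⟨C', h'⟩ := h'
  exact ⟨C + C', fun t ht => (norm_add_le _ _).trans (by linarith [h t ht, h' t ht])⟩

theorem Ot.smul {a : ℝ → ℂ} {A : ℝ} (ha : ∀ t ∈ Ioc (0 : ℝ) 1, ‖a t‖ ≤ A) (h : Ot F) :
    Ot fun t => a t • F t := by
  obtain ⟨C, h⟩ := h
  refine ⟨A * C, fun t ht => ?_⟩
  rw [norm_smul, mul_assoc]
  exact mul_le_mul (ha t ht) (h t ht) (norm_nonneg _) ((norm_nonneg _).trans (ha t ht))

theorem Ot.cs (a : ℂ) (h : Ot F) : Ot fun t => a • F t := h.smul fun _ _ => le_rfl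

theorem Ot.sub (h : Ot F) (h' : Ot F') : Ot fun t => F t - F' t := by
  simpa only [neg_one_smul, ← sub_eq_add_neg] using h.add (h'.cs (-1))

theorem Ot.pw (h : Ot F) : Ot fun t => ((t ^ 22 : ℝ) : ℂ) • F t := h.smul (A := 1) fun t ht => by
  rw [Complex.norm_real, Real.norm_of_nonneg (pow_pos ht.1 _).le]
  exact pow_le_one₀ ht.1.le ht.2

theorem Ot.congr (h : Ot F) (e : ∀ t ∈ Ioc (0 : ℝ) 1, F' t = F t) : Ot F' :=
  h.imp fun C h t ht => (e t ht).symm ▸ h t ht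

theorem Ot.lim (h : Ot F) : Tendsto F (𝓝[>] 0) (𝓝 0) := by
  obtain ⟨C, h⟩ := h
  refine squeeze_zero_norm' (mem_of_superset (Ioc_mem_nhdsGT one_pos) h) ?_
  exact ((continuous_const_mul C).tendsto' (0 : ℝ) 0 (mul_zero C)).mono_left nhdsWithin_le_nhds

theorem ot_TP (l : L1 c) (hρ : Tst ρ) (hg : Tst g) (hφ : Tst φ) (h k : V) :
    Ot fun t => Rb c ρ (TP c h k g (dil (t ^ 22) φ)) := by
  obtain ⟨C, H⟩ := l.l1 h k ρ g hρ hg
  refine ⟨|C| * ∫ t, |φ t|, fun t ht => (H _ (tst_dil hφ (pow_pos ht.1 _).ne')).trans ?_⟩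
  have h0 : 0 ≤ ∫ t, |φ t| := integral_nonneg fun _ => abs_nonneg _
  have h1 := pow_pos ht.1 22
  rw [show (fun u => |dil (t ^ 22) φ u|) = dil (t ^ 22) fun u => |φ u| from rfl,
    integral_dil h1, mul_comm (t ^ 22), mul_assoc]
  refine mul_le_mul (le_abs_self _) (mul_le_mul_of_nonneg_left ?_ h0) (by positivity) (abs_nonneg _)
  exact pow_le_of_le_one ht.1.le ht.2 (by norm_num)

theorem TP_tm (hg : Tst g) (hφ : Tst φ) (h k : V) {s : ℝ} (hs : 0 < s) :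
    TP c h k g (tm (dil s φ)) = (s : ℂ) • TP c h k g (dil s (tm φ)) := by
  rw [tm_dil s hs.ne', TP_mul_p s hg (tst_dil (tst_tm hφ) hs.ne')]

theorem ot_ex (T : T3 c) (l : L1 c) (hρ : Tst ρ) (hg : Tst g) (hφ : Tst φ) (h k : V) :
    Ot fun t => Rb c ρ (gen c.SK (TP c h k g (dil (t ^ 22) φ))) -
      Rb c ρ (Kt c h k (pr g (dil (t ^ 22) φ))) := by
  have o (i) := ((ot_TP l hρ (tst_di i (tst_xi i hg)) (tst_tm hφ) h k).pw.sub
    (ot_TP l hρ (tst_xi i hg) hφ (mv i h) k)).sub (ot_TP l hρ (tst_xi i hg) hφ h (mv i k))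
  refine (((ot_TP l hρ (tst_x2 (tst_da hg)) hφ h k).cs I).add
    (((o 0).add (o 1)).cs (2 * I))).congr fun t ht => ?_
  have s := pow_pos ht.1 22
  simp only [K_TP T.gen hg (tst_dil hφ s.ne'), Rm, Fin.sum_univ_two, Rb_add T.grp hρ,
    Rb_sub T.grp hρ, Rb_smul, TP_tm (tst_di _ (tst_xi _ hg)) hφ _ _ s]
  abel

theorem face (T : T3 c) (l : L1 c) (kt : KT c) (hρ : Tst ρ) (hg : Tst g) (hφ : Tst φ)
    (hs : tsupport φ ⊆ Iio 0) :
    Ot fun t => Rb c ρ (gen c.SK (Tx c vb g (dil (t ^ 22) φ))) := by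
  have hs' := (tsupport_tm φ).trans hs
  have o1 : Ot fun t => Rb c ρ (Kt c vb va (pr (ap 1 g) (dil (t ^ 22) φ))) :=
    (kt ρ _ φ hρ (tst_ap 1 hg) hφ hs).imp fun C h t ht => (h t ht).2.2.1
  have o2 : Ot fun t => ((t ^ 22 : ℝ) : ℂ) • Rb c ρ (Kt c vb vb (pr g (dil (t ^ 22) (tm φ)))) :=
    (kt ρ _ _ hρ hg (tst_tm hφ) hs').imp fun C h t ht => by
      rw [norm_smul, Complex.norm_real, Real.norm_of_nonneg (pow_pos ht.1 _).le]
      exact (h t ht).2.2.2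
  refine ((o1.add (ot_ex T l hρ (tst_ap 1 hg) hφ vb va)).sub
    (o2.add (ot_ex T l hρ hg (tst_tm hφ) vb vb).pw)).congr fun t ht => ?_
  have s := pow_pos ht.1 22
  have d := dm_TP T.kd hg (tst_dil (tst_tm hφ) s.ne') (tsupport_dil_neg hs' s) vb vb
  rw [Tx, TP_tm hg hφ _ _ s, gen_sub (dm_TP T.kd (tst_ap 1 hg) (tst_dil hφ s.ne')
    (tsupport_dil_neg hs s) vb va) (d.smul _), gen_smul _ d, Rb_sub T.grp hρ, Rb_smul]
  module

theorem slab (T : T3 c) (l : L1 c) (kt : KT c) (hρ : Tst ρ) (hg : Tst g) (hφ : Tst φ)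
    (hs : tsupport φ ⊆ Iio 0) :
    Tendsto (fun t : ℝ => Rb c ρ (gen c.SK (Tx c va g (dlt (t ^ 22) φ)))) (𝓝[>] 0)
      (𝓝 (((∫ t, φ t : ℝ) : ℂ) • I • TP c va va (x2 (da (ap 1 g))) ρ)) := by
  have hs' := (tsupport_tm φ).trans hs
  have g1 := tst_ap 1 hg
  have o1 : Ot fun t => (((t ^ 22)⁻¹ : ℝ) : ℂ) •
      Rb c ρ (Kt c va va (pr (ap 1 g) (dil (t ^ 22) φ))) :=
    (kt ρ _ φ hρ g1 hφ hs).imp fun C h t ht => by
      have s := pow_pos ht.1 22
      rw [norm_smul, Complex.norm_real, Real.norm_of_nonneg (inv_pos.2 s).le,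
        inv_mul_le_iff₀ s, mul_comm]
      exact (h t ht).1
  have o2 : Ot fun t => Rb c ρ (Kt c va vb (pr g (dil (t ^ 22) (tm φ)))) :=
    (kt ρ _ _ hρ hg (tst_tm hφ) hs').imp fun C h t ht => (h t ht).2.1
  have o (i) := ot_TP l hρ (tst_di i (tst_xi i g1)) (tst_tm hφ) va va
  have l1 := ((l.del va va ρ _ φ hρ (tst_x2 (tst_da g1)) hφ).comp tendsto_pow22).const_smul I
  have l2 := l1.add ((o1.add (((o 0).add (o 1)).cs (2 * I))).sub
    (o2.add (ot_ex T l hρ hg (tst_tm hφ) va vb))).lim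
  rw [add_zero, smul_comm] at l2
  refine l2.congr' (mem_of_superset self_mem_nhdsWithin fun t (ht : 0 < t) => ?_)
  have s := pow_pos ht 22
  have s' : (((t ^ 22)⁻¹ : ℝ) : ℂ) * (t ^ 22 : ℝ) = 1 := by
    rw [← Complex.ofReal_mul, inv_mul_cancel₀ s.ne', Complex.ofReal_one]
  have d := dm_TP T.kd g1 (tst_dil hφ s.ne') (tsupport_dil_neg hs s) va va
  have m (i) : mv i va = 0 := by simp [mv]
  have t1 := tst_dil hφ s.ne'
  show _ = Rb c ρ _
  rw [Tx, tm_dlt, dlt_eq, TP_mul_p _ g1 t1, gen_sub (d.smul _) (dm_TP T.kd hg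
    (tst_dil (tst_tm hφ) s.ne') (tsupport_dil_neg hs' s) va vb), gen_smul _ d, K_TP T.gen g1 t1]
  simp only [Function.comp, dlt_eq, TP_mul_p _ (tst_x2 (tst_da g1)) t1, Rm, m, Fin.sum_univ_two,
    TP_tm (tst_di _ (tst_xi _ g1)) hφ _ _ s]
  simp only [TP, Tv_zero_l (test_pr (tst_xi _ g1) t1), Tv_zero_r (test_pr (tst_xi _ g1) t1),
    sub_zero, Rb_add T.grp hρ, Rb_sub T.grp hρ, Rb_smul, smul_add, smul_comm _ (2 * I),
    smul_smul (((t ^ 22)⁻¹ : ℝ) : ℂ) ((t ^ 22 : ℝ) : ℂ), s', one_smul]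
  module

end Ks

theorem ks_row (c : Ctx D) : T3 c → L1 c → KT c → KS c := fun T l kt =>
  ⟨fun _ _ _ hρ hg hφ hs => Ks.face T l kt hρ hg hφ hs,
    fun _ _ _ hρ hg hφ hs => Ks.slab T l kt hρ hg hφ hs⟩

end

end Vale.Agent.P352X.BX
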