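import Vale.Agent.P352X.Api4
import Vale.Agent.P352X.Api2c

/-!
# P352X, row BB.kt: decomposition of wide test functions into transverse unit cells
-/

set_option linter.all false

open MeasureTheory Filter Topology Set
open scoped SchwartzMap ComplexConjugate ENNReal ContDiff

namespace Vale.Agent.P352X.BX.Ktp

open Vale.Agent.P352 Vale.Agent.P352.GF Vale.Agent.P352.H755 Vale.Agent.P352X.Ap

noncomputable section

/-- the cell function -/
def c1 (t : ℝ) : ℝ := Real.smoothTransition (t + 1) - Real.smoothTransition t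

lemma smooth_c1 : ContDiff ℝ ∞ c1 :=
  (Real.smoothTransition.contDiff.comp (contDiff_id.add contDiff_const)).sub
    Real.smoothTransition.contDiff

lemma c1_ne {t : ℝ} (h : c1 t ≠ 0) : |t| ≤ 1 := by
  by_contra h'
  refine h ?_
  rcases lt_abs.1 (not_le.1 h') with h1 | h1
  · rw [c1, Real.smoothTransition.one_of_one_le (by linarith),
      Real.smoothTransition.one_of_one_le h1.le, sub_self]
  · rw [c1, Real.smoothTransition.zero_of_nonpos (by linarith),
      Real.smoothTransition.zero_of_nonpos (by linarith), sub_self]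

lemma sum_c1 {N : ℕ} {t : ℝ} (h : |t| ≤ N) :
    ∑ i ∈ Finset.range (2 * N + 1), c1 (t - (i - N)) = 1 := by
  have h1 := abs_le.1 h
  have := Finset.sum_range_sub' (fun i : ℕ => Real.smoothTransition (t + N + 1 - i)) (2 * N + 1)
  rw [Real.smoothTransition.one_of_one_le (by push_cast; linarith),
    Real.smoothTransition.zero_of_nonpos (x := t + N + 1 - (2 * N + 1 : ℕ))
      (by push_cast; linarith), sub_zero] at this
  rw [← this]
  refine Finset.sum_congr rfl fun i _ => ?_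
  rw [c1]
  congr 2
  · ring
  · push_cast
    ring

/-- the family of cells -/
def cel (g : P3 → ℝ) (φ : ℝ → ℝ) (q : ℝ × R2) (z : V) : ℂ :=
  ((c1 (tx z 0) * c1 (tx z 1) * (g (al z, q.1 • tx z + q.2) * φ (be z)) : ℝ) : ℂ)

lemma ex_ball {E : Type*} [NormedAddCommGroup E] [NormedSpace ℝ E] {g : E → ℝ} (hg : Tst g) :
    ∃ R, 0 ≤ R ∧ ∀ y, g y ≠ 0 → ‖y‖ ≤ R := by
  obtain ⟨R, hR⟩ := hg.2.isCompact.isBounded.exists_norm_le
  exact ⟨max R 0, le_max_right _ _, fun y hy =>
    (hR y (subset_tsupport _ hy)).trans (le_max_left _ _)⟩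

lemma fam_cel {g : P3 → ℝ} {φ : ℝ → ℝ} (hg : Tst g) (hφ : Tst φ) : Api4.Fam univ (cel g φ) := by
  obtain ⟨R, -, hR⟩ := ex_ball hg
  obtain ⟨R', -, hR'⟩ := ex_ball hφ
  refine Api4.fam_of_compact isOpen_univ (ContDiff.contDiffOn ?_)
    (isCompact_closedBall (0 : V) (R + R' + 1)) fun q _ z hz => ?_
  · have h1 := smooth_c1
    have h2 := hg.1
    have h3 := hφ.1
    unfold cel
    refine smooth_cx ?_
    fun_prop
  · by_contra h
    refine hz (mem_closedBall_zero_iff.2 ?_)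
    simp only [cel, Complex.ofReal_eq_zero, mul_eq_zero, not_or] at h
    have h1 := (norm_fst_le _).trans (hR _ h.2.1)
    have h2 := hR' _ h.2.2
    have h3 : ‖tx z‖ ≤ 1 := (pi_norm_le_iff_of_nonneg zero_le_one).2
      (Fin.forall_fin_two.2 ⟨c1_ne h.1.1, c1_ne h.1.2⟩)
    have h4 := norm_pt_le (tx z) (al z) (be z)
    rw [pt_eta] at h4
    simp only [Real.norm_eq_abs] at h1 h2
    linarith

/-- **cells** -/
theorem cells {g : P3 → ℝ} {φ : ℝ → ℝ} (hg : Tst g) (hφ : Tst φ) (m : ℕ) : ∃ C : ℝ, 0 ≤ C ∧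
    ∀ l ∈ Ioc (0 : ℝ) 1, ∃ (J : Finset (ℕ × ℕ)) (y : ℕ × ℕ → R2) (u : ℕ × ℕ → Sch),
      (∀ j, tsupport (u j) ⊆ {z | be z ∈ tsupport φ}) ∧ (∀ j ∈ J, sn m (u j) ≤ C) ∧
      J.card * l ^ 2 ≤ C ∧
      ∀ z, ∑ j ∈ J, u j (z - tv (y j)) = ((g (al z, l • tx z) * φ (be z) : ℝ) : ℂ) := by
  obtain ⟨R, hR0, hR⟩ := ex_ball hg
  have hF := fam_cel hg hφ
  obtain ⟨C, hC⟩ := hF.bdd ((isCompact_Icc (a := (0 : ℝ)) (b := 1)).prod
    (isCompact_closedBall (0 : R2) (R + 1))) (subset_univ _) m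
  refine ⟨max C ((2 * R + 3) ^ 2), le_max_of_le_right (by positivity), fun l hl => ?_⟩
  set N := ⌈R / l⌉₊ with hN
  have hN1 : R / l ≤ N := Nat.le_ceil _
  have hN2 : l * N ≤ R + 1 := by
    have := (Nat.ceil_lt_add_one (div_nonneg hR0 hl.1.le)).le
    rw [← hN] at this
    have h2 := mul_le_mul_of_nonneg_left this hl.1.le
    rw [mul_add, mul_div_cancel₀ _ hl.1.ne'] at h2
    linarith [hl.2]
  let y : ℕ × ℕ → R2 := fun j => ![j.1 - N, j.2 - N]
  have hu := fun j => Api4.coe_sch (hF.dc (mem_univ (l, l • y j)))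
  refine ⟨Finset.range (2 * N + 1) ×ˢ Finset.range (2 * N + 1), y,
    fun j => sch (cel g φ (l, l • y j)), fun j => ?_, fun j hj => le_max_of_le_left (hC _
      ⟨⟨hl.1.le, hl.2⟩, mem_closedBall_zero_iff.2 ?_⟩), le_max_of_le_right ?_, fun z => ?_⟩
  · rw [hu]
    refine tsupp_sub ((isClosed_tsupport φ).preimage cont_be) fun z hz => subset_tsupport φ ?_
    intro h
    exact hz (by simp [cel, h])
  · have h1 : ∀ i : ℕ, i < 2 * N + 1 → |(i : ℝ) - N| ≤ N := fun i hi => by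
      have : (i : ℝ) ≤ 2 * N := by exact_mod_cast Nat.lt_succ_iff.1 hi
      rw [abs_le]
      constructor <;> linarith [Nat.cast_nonneg (α := ℝ) i]
    simp only [Finset.mem_product, Finset.mem_range] at hj
    have h2 : ‖y j‖ ≤ N := (pi_norm_le_iff_of_nonneg (Nat.cast_nonneg N)).2
      (Fin.forall_fin_two.2 ⟨h1 _ hj.1, h1 _ hj.2⟩)
    rw [norm_smul, Real.norm_of_nonneg hl.1.le]
    exact (mul_le_mul_of_nonneg_left h2 hl.1.le).trans hN2
  · rw [Finset.card_product, Finset.card_range]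
    push_cast
    have h1 : (2 * N + 1) * l ≤ 2 * R + 3 := by nlinarith [hl.2]
    have h2 : 0 ≤ (2 * N + 1) * l := by have := hl.1; positivity
    nlinarith
  · have e : ∀ j, sch (cel g φ (l, l • y j)) (z - tv (y j)) = ((c1 (tx z 0 - (j.1 - N)) *
        c1 (tx z 1 - (j.2 - N)) * (g (al z, l • tx z) * φ (be z)) : ℝ) : ℂ) := fun j => by
      rw [hu]
      simp only [cel, tx_sub, tx_tv, al_sub, al_tv, be_sub, be_tv, sub_zero, smul_sub,
        sub_add_cancel]
      rfl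
    simp only [e]
    rw [← Complex.ofReal_sum, ← Finset.sum_mul]
    by_cases h : g (al z, l • tx z) = 0
    · simp [h]
    · have h1 := (norm_snd_le _).trans (hR _ h)
      rw [norm_smul, Real.norm_of_nonneg hl.1.le] at h1
      have h2 : ‖tx z‖ ≤ N := ((le_div_iff₀' hl.1).2 h1).trans hN1
      rw [Finset.sum_product' (f := fun i j : ℕ => c1 (tx z 0 - (i - N)) * c1 (tx z 1 - (j - N))),
        ← Finset.sum_mul_sum, sum_c1 ((norm_le_pi_norm _ 0).trans h2),
        sum_c1 ((norm_le_pi_norm _ 1).trans h2), one_mul, one_mul]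

end

end Vale.Agent.P352X.BX.Ktp
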