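import Vale.Agent.P352X.R.BB.KtA
import Vale.Agent.P352X.R.BB.KtB
import Vale.Agent.P352X.Api3d

/-!
# P352X, row BB.kt: the covariant part of `K` on thin slabs
-/

set_option linter.all false

open MeasureTheory Filter Topology Set
open scoped SchwartzMap ComplexConjugate ENNReal ContDiff

namespace Vale.Agent.P352X.BX

open Vale.Agent.P352 Vale.Agent.P352.GF Vale.Agent.P352.BW Vale.Agent.P352X.KDa
open Vale.Agent.P352.H755 Vale.Agent.P352X.Ap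
open UniformSpace (Completion)
open Complex (I)

noncomputable section

variable {D : Type*} [NormedAddCommGroup D] [InnerProductSpace ℂ D] {c : Ctx D}

namespace Ktp

lemma sn_nn {E : Type*} [NormedAddCommGroup E] [NormedSpace ℝ E] (m : ℕ) (f : 𝓢(E, ℂ)) :
    0 ≤ sn m f := by
  rw [Api4.sn_eq]
  exact apply_nonneg _ _

lemma sn_mo {m m' : ℕ} (h : m ≤ m') (f : Sch) : sn m f ≤ sn m' f := by
  rw [Api4.sn_eq, Api4.sn_eq]
  exact ST.sn_mono h f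

lemma meas_lt (σ : ℝ) : MeasurableSet {p : V | al p < σ} :=
  (isOpen_lt cont_al continuous_const).measurableSet

/-! ## small `p_b` -/

/-- bounds with a gain at small `p_b` -/
def Lo (c : Ctx D) (S : Set V) (Φ : Sch → Completion D) : Prop := ∃ (m : ℕ) (C : ℝ), 0 ≤ C ∧
  ∀ f : Sch, tsupport f ⊆ S → ‖Φ f‖ ≤ C * sn m f ∧
    ∀ t : ℝ, 0 < t → t ≤ 1 → ‖c.bt.P {p | al p < t ^ 20} (Φ f)‖ ≤ C * t * sn m f

variable {S : Set V} {Φ Ψ : Sch → Completion D}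

lemma Lo.add (h : Lo c S Φ) (h' : Lo c S Ψ) : Lo c S fun f => Φ f + Ψ f := by
  obtain ⟨m, C, hC, hb⟩ := h
  obtain ⟨m', C', hC', hb'⟩ := h'
  refine ⟨max m m', C + C', by positivity, fun f hf => ?_⟩
  have h1 := sn_mo (le_max_left m m') f
  have h2 := sn_mo (le_max_right m m') f
  refine ⟨(norm_add_le _ _).trans ?_, fun t h0 ht => ?_⟩
  · nlinarith [(hb f hf).1, (hb' f hf).1]
  · rw [map_add]
    refine (norm_add_le _ _).trans ?_
    nlinarith [(hb f hf).2 t h0 ht, (hb' f hf).2 t h0 ht, mul_nonneg hC h0.le, mul_nonneg hC' h0.le]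

lemma Lo.smul (a : ℂ) (h : Lo c S Φ) : Lo c S fun f => a • Φ f := by
  obtain ⟨m, C, hC, hb⟩ := h
  refine ⟨m, ‖a‖ * C, by positivity, fun f hf => ⟨?_, fun t h0 ht => ?_⟩⟩
  · rw [norm_smul, mul_assoc]
    exact mul_le_mul_of_nonneg_left (hb f hf).1 (norm_nonneg a)
  · rw [map_smul, norm_smul, mul_assoc, mul_assoc, ← mul_assoc C]
    exact mul_le_mul_of_nonneg_left ((hb f hf).2 t h0 ht) (norm_nonneg a)

lemma Lo.sub (h : Lo c S Φ) (h' : Lo c S Ψ) : Lo c S fun f => Φ f - Ψ f := by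
  simpa only [neg_one_smul, ← sub_eq_add_neg] using h.add (h'.smul (-1))

lemma lo_tau (hl : LOW c) (h k : V) (A : Sch →L[ℂ] Sch) : Lo c S fun f => tau c h k (A f) := by
  obtain ⟨m, C, hC, hb⟩ := hl
  obtain ⟨C1, m1, hC1, h1⟩ := ST.clm_sn' (A.restrictScalars ℝ) m
  obtain ⟨C2, m2, hC2, h2⟩ := ST.clm_sn_c (tau c h k ∘L A)
  refine ⟨max m1 m2, C * ‖h‖ * ‖k‖ * C1 + C2, by positivity, fun f _ => ?_⟩
  have a1 := sn_mo (le_max_left m1 m2) f
  have a2 := sn_mo (le_max_right m1 m2) f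
  have a3 := h1 f
  have a4 := h2 f
  rw [← Api4.sn_eq, ← Api4.sn_eq] at a3
  rw [← Api4.sn_eq] at a4
  have a5 := sn_nn m1 f
  have a6 := sn_nn m2 f
  have a7 : 0 ≤ C * ‖h‖ * ‖k‖ * C1 := by positivity
  refine ⟨a4.trans (by nlinarith), fun t h0 ht => ?_⟩
  have a8 := (hb h k (A f) (t ^ 20) (by positivity)).1
  have a9 : Real.sqrt (t ^ 20) ≤ t := Real.sqrt_le_iff.2 ⟨h0.le,
    pow_le_pow_of_le_one h0.le ht (by norm_num)⟩
  beta_reduce
  rw [tau_apply]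
  calc _ ≤ C * t * ‖h‖ * ‖k‖ * (C1 * sn (max m1 m2) f) := a8.trans (by
        gcongr
        · exact sn_nn _ _
        · exact a3.trans (mul_le_mul_of_nonneg_left a1 hC1))
    _ ≤ _ := by nlinarith [mul_nonneg (mul_nonneg hC2 h0.le) (a5.trans a1)]

lemma lo_K (t : T3 c) (hr : RATE c) (b1 : ℝ) {b2 : ℝ} (hb : b2 < 0) (h k : V) :
    Lo c {z | b1 ≤ be z ∧ be z ≤ b2} fun f => gen c.SK (tau c h k f) := by
  obtain ⟨m, C, hC, h1⟩ := hr b1 b2 hb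
  obtain ⟨m', C', h2⟩ := t.kd.slab b1 b2 (.inl hb)
  refine ⟨max m m', (C + |C'|) * ‖h‖ * ‖k‖, by positivity, fun f hf => ?_⟩
  have a1 := sn_mo (le_max_left m m') f
  have a2 := sn_mo (le_max_right m m') f
  have a3 := sn_nn m f
  have a4 := sn_nn m' f
  have a5 := abs_nonneg C'
  beta_reduce
  rw [tau_apply]
  refine ⟨(h2 h k f hf).2.2.1.trans ?_, fun t h0 ht => (h1 h k f t hf h0 ht).trans ?_⟩
  · gcongr
    linarith [le_abs_self C']
  · calc _ ≤ (C + |C'|) * t * ‖h‖ * ‖k‖ * sn (max m m') f := by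
          gcongr
          linarith
      _ = _ := by ring

lemma lo_KS (t : T3 c) (hl : LOW c) (hr : RATE c) (b1 : ℝ) {b2 : ℝ} (hb : b2 < 0) (h k : V) :
    Lo c {z | b1 ≤ be z ∧ be z ≤ b2} (KS c h k) := by
  have hM : ∀ i, Lo c {z | b1 ≤ be z ∧ be z ≤ b2} fun f =>
      gen (Mi c.Q i) (tau c h k (xS i f)) := fun i => by
    simp only [(gn_M t.gen i h k _).gen_eq]
    exact (((lo_tau hl h k (MS i ∘L xS i)).sub (lo_tau hl _ k (xS i))).sub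
      (lo_tau hl h _ (xS i))).smul I
  have hP : Lo c {z | b1 ≤ be z ∧ be z ≤ b2} fun f => gen (Pa c.Q) (tau c h k (qS f)) := by
    simp only [(gn_P t.gen h k _).gen_eq]
    exact (lo_tau hl h k (dS va ∘L qS)).smul I
  have := ((lo_K t hr b1 hb h k).sub (((hM 0).add (hM 1)).smul 2)).add hP
  unfold KS K3
  simpa only [Fin.sum_univ_two] using this

/-! ## wide averages along `b` -/

/-- the multiplier of the average -/
def mul (ρ : ℝ → ℝ) (s : ℝ) (p : V) : ℂ := ft1 (cx ρ) (al p / s)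

lemma av_eq {ρ : ℝ → ℝ} (hρ : Tst ρ) (s : ℝ) (v : Completion D) : SN.Bd (mul ρ s) ∧
    ∫ u, (ρ u : ℂ) • Pb c.Q (u / s) v = c.bt.Phi (mul ρ s) v := by
  have := c.bt.smear SN.isPair_mdot (y := fun u : ℝ => (u / s) • vb) (by fun_prop) (m := volume)
    (u := cx ρ) (cs_int (dc_cx hρ)) v
  have e : (fun p => ∫ u, cx ρ u * SN.ch (fun p y : V => mdot p y) ((u / s) • vb) p) = mul ρ s := by
    funext p
    simp only [mul, ft1, SN.ch, md_smul, md_vb']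
    congr 1
    funext u
    congr 4
    ring
  rw [e] at this
  exact this

lemma mul_bd {ρ : ℝ → ℝ} (hρ : Tst ρ) : ∃ C : ℝ, 0 ≤ C ∧ ∀ t : ℝ, 0 < t → t ≤ 1 → ∀ p,
    ‖mul ρ (t ^ 22) p‖ ≤ C ∧ (¬ al p < t ^ 20 → ‖mul ρ (t ^ 22) p‖ ≤ C * t) := by
  obtain ⟨m, C, hC, h⟩ := ft1_decay 1
  refine ⟨C * sn m (sch (cx ρ)), mul_nonneg hC (sn_nn _ _), fun t h0 ht p => ?_⟩
  have h1 := h (sch (cx ρ)) (al p / t ^ 22)
  rw [Api4.coe_sch (Api4.dc_cx hρ), pow_one] at h1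
  have h2 := norm_nonneg (ft1 (cx ρ) (al p / t ^ 22))
  have h3 := norm_nonneg (al p / t ^ 22)
  rw [mul]
  refine ⟨by nlinarith, fun hp => ?_⟩
  have h4 : 1 ≤ t * ‖al p / t ^ 22‖ := by
    refine le_trans ?_ (mul_le_mul_of_nonneg_left (le_abs_self _) h0.le)
    rw [← mul_div_assoc, le_div_iff₀ (by positivity), one_mul]
    have : t ^ 22 ≤ t ^ 21 := pow_le_pow_of_le_one h0.le ht (by norm_num)
    nlinarith [not_lt.1 hp]
  nlinarith

lemma av_le {ρ : ℝ → ℝ} (hρ : Tst ρ) (h : Lo c S Φ) : ∃ (m : ℕ) (C : ℝ), 0 ≤ C ∧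
    ∀ f : Sch, tsupport f ⊆ S → ∀ t : ℝ, 0 < t → t ≤ 1 →
      ‖c.bt.Phi (mul ρ (t ^ 22)) (Φ f)‖ ≤ C * t * sn m f := by
  obtain ⟨m, C, hC, hb⟩ := h
  obtain ⟨C1, hC1, h1⟩ := mul_bd hρ
  refine ⟨m, 2 * (C1 * C), by positivity, fun f hf t h0 ht => ?_⟩
  have hB := (av_eq (c := c) hρ (t ^ 22) 0).1
  have hA := meas_lt (t ^ 20)
  have e : Φ f = c.bt.P {p | al p < t ^ 20} (Φ f) + c.bt.P {p | al p < t ^ 20}ᶜ (Φ f) := by
    rw [SN.Calc.P_compl hA, add_sub_cancel]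
  have a1 := c.bt.norm_le hB hC1 (c.bt.P {p | al p < t ^ 20} (Φ f))
    (.of_forall fun p => (h1 t h0 ht p).1)
  have a2 := c.bt.norm_le hB (mul_nonneg hC1 h0.le) (c.bt.P {p | al p < t ^ 20}ᶜ (Φ f)) (by
    rw [SN.Calc.nu_P hA.compl]
    exact (ae_restrict_mem hA.compl).mono fun p hp => (h1 t h0 ht p).2 hp)
  have a3 := mul_le_mul_of_nonneg_left ((hb f hf).2 t h0 ht) hC1
  have a4 := mul_le_mul_of_nonneg_left ((SN.Calc.norm_P_le (C := c.bt.toCalc) hA.compl _).trans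
    (hb f hf).1) (mul_nonneg hC1 h0.le)
  rw [e, map_add]
  refine (norm_add_le _ _).trans ?_
  linarith

lemma rb_sc (g : GRP c) {ρ : ℝ → ℝ} (hρ : Tst ρ) {s : ℝ} (hs : 0 < s) (a : ℂ)
    (v : Completion D) :
    Rb c ρ (a • Usc c.Q 1 s v) = a • Usc c.Q 1 s (c.bt.Phi (mul ρ s) v) := by
  have hi := (g.ugPb.scale s⁻¹).integrable_smul (cs_int (dc_cx hρ)) v
  simp only [← div_eq_inv_mul] at hi
  rw [← (av_eq hρ s v).2, ← (Usc c.Q 1 s).integral_comp_comm hi, ← integral_smul, Rb]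
  congr 1
  funext u
  rw [map_smul, pb_sc g hs, map_smul, smul_comm]

lemma KS_sum (G : GEN c) (h k : V) {ι : Type*} (J : Finset ι) {f : ι → Sch}
    (d : ∀ j, Dm c.SK (tau c h k (f j))) :
    KS c h k (∑ j ∈ J, f j) = ∑ j ∈ J, KS c h k (f j) := by
  classical
  induction J using Finset.induction_on with
  | empty => simpa using KS_zero h k
  | insert j J hj ih =>
    rw [Finset.sum_insert hj, Finset.sum_insert hj, KS_add G h k (d j) (by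
      rw [map_sum]
      exact Dm.sum _ fun j _ => d j), ih]

lemma ex_slab {φ : ℝ → ℝ} (hφ : Tst φ) (h : tsupport φ ⊆ Iio 0) :
    ∃ b1 b2 : ℝ, b2 < 0 ∧ tsupport φ ⊆ Icc b1 b2 := by
  rcases (tsupport φ).eq_empty_or_nonempty with e | e
  · exact ⟨0, -1, by norm_num, e ▸ empty_subset _⟩
  · obtain ⟨a, -, ha⟩ := hφ.2.isCompact.exists_isLeast e |>.imp fun a ha => ha
    obtain ⟨b, hb, hb'⟩ := hφ.2.isCompact.exists_isGreatest e
    exact ⟨a, b, h hb, fun t ht => ⟨ha ht, hb' ht⟩⟩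

/-- the estimate for eigenvectors of the scalings -/
theorem main (t : T3 c) (hl : LOW c) (hr : RATE c) {ρ φ : ℝ → ℝ} {g : P3 → ℝ} (hρ : Tst ρ)
    (hg : Tst g) (hφ : Tst φ) (hn : tsupport φ ⊆ Iio 0) (h k : V) : ∃ C : ℝ, 0 ≤ C ∧
    ∀ τ ∈ Ioc (0 : ℝ) 1, ∀ a b : ℝ, 0 < a → 0 < b → scp 1 (τ ^ 22) h = a • h →
      scp 1 (τ ^ 22) k = b • k →
      ‖Rb c ρ (Kt c h k (pr g (dil (τ ^ 22) φ)))‖ ≤ C * τ * (τ ^ 22 / (a * b)) := by
  obtain ⟨b1, b2, hb, hs⟩ := ex_slab hφ hn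
  obtain ⟨m, C, hC, h1⟩ := av_le hρ (lo_KS t hl hr b1 hb h k)
  obtain ⟨C', hC', h2⟩ := cells hg hφ m
  obtain ⟨_, _, h3⟩ := t.kd.slab b1 b2 (.inl hb)
  refine ⟨C * C' * C', by positivity, fun τ hτ a b ha hb' eh ek => ?_⟩
  have h0 := hτ.1
  have hs0 : 0 < τ ^ 22 := by positivity
  obtain ⟨J, y, u, u1, u2, u3, u4⟩ := h2 (τ ^ 11) ⟨by positivity, pow_le_one₀ h0.le hτ.2⟩
  have u5 : ∀ j, tsupport (u j) ⊆ {z | b1 ≤ be z ∧ be z ≤ b2} := fun j z hz => hs (u1 j hz)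
  have d1 : ∀ j, Dm c.SK (tau c h k (u j)) := fun j => tau_apply (c := c) h k _ ▸ (h3 h k _ (u5 j)).1
  have d2 : ∀ j, Dm c.SK (tau c h k (ST.tsl (tv (y j)) (u j))) := fun j =>
    tau_apply (c := c) h k _ ▸ (h3 h k _ fun z hz => by
      simpa using u5 j (tsupport_tsl _ _ hz)).1
  have hF := test_pr hg (tst_dil hφ hs0.ne')
  have hq : Real.sqrt (τ ^ 22) = τ ^ 11 := by
    rw [show τ ^ 22 = (τ ^ 11) ^ 2 by ring, Real.sqrt_sq (by positivity)]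
  have hB := (av_eq (c := c) hρ (τ ^ 22) 0).1
  rw [← ev_sch hF, Kt_ev, KS_sc t.grp t.gen hs0 ha.ne' hb'.ne' eh ek
    (f := ∑ j ∈ J, ST.tsl (tv (y j)) (u j)) (fun z => by
      rw [sch_apply hF, SchwartzMap.sum_apply]
      simp only [ST.tsl_apply, u4, pr, pl, dil, al_scp, be_scp, tx_scp, hq, one_mul,
        mul_div_cancel_left₀ _ hs0.ne']) (by
      rw [map_sum]
      exact Dm.sum _ fun j _ => d2 j), rb_sc t.grp hρ hs0, norm_smul, Usc, t.grp.ug_norm,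
    KS_sum t.gen h k J d2, map_sum, Complex.norm_real, Real.norm_of_nonneg (by positivity)]
  have h4 : ‖∑ j ∈ J, c.bt.Phi (mul ρ (τ ^ 22)) (KS c h k (ST.tsl (tv (y j)) (u j)))‖ ≤
      J.card * (C * τ * C') := by
    rw [← nsmul_eq_mul, ← Finset.sum_const]
    refine norm_sum_le_of_le _ fun j hj => ?_
    rw [KS_tsl t.grp t.gen h k _ (d1 j), c.bt.Phi_U SN.isPair_mdot _ hB, Ut, t.grp.ug_norm]
    exact (h1 _ (u5 j) τ h0 hτ.2).trans (mul_le_mul_of_nonneg_left (u2 j hj) (by positivity))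
  calc _ ≤ τ ^ 22 * τ ^ 22 / (a * b) * (J.card * (C * τ * C')) := by gcongr
    _ = C * C' * (J.card * (τ ^ 11) ^ 2) * τ * (τ ^ 22 / (a * b)) := by ring
    _ ≤ _ := by gcongr

end Ktp

open Ktp in
/-- **row BB.kt** -/
theorem kt_row (c : Ctx D) : T3 c → LOW c → RATE c → KT c := by
  intro t hl hr ρ g φ hρ hg hφ hn
  obtain ⟨C1, a1, h1⟩ := main t hl hr hρ hg hφ hn va va
  obtain ⟨C2, a2, h2⟩ := main t hl hr hρ hg hφ hn va vb
  obtain ⟨C3, a3, h3⟩ := main t hl hr hρ hg hφ hn vb va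
  obtain ⟨C4, a4, h4⟩ := main t hl hr hρ hg hφ hn vb vb
  refine ⟨C1 + C2 + C3 + C4, fun τ hτ => ?_⟩
  have h0 := hτ.1
  have hs : 0 < τ ^ 22 := by positivity
  have ea : scp 1 (τ ^ 22) va = (1 : ℝ) • va := null_ext (by simp) (by simp) (by simp)
  have eb : scp 1 (τ ^ 22) vb = τ ^ 22 • vb := null_ext (by simp) (by simp) (by simp)
  have b1 := h1 τ hτ _ _ one_pos one_pos ea ea
  have b2 := h2 τ hτ _ _ one_pos hs ea eb
  have b3 := h3 τ hτ _ _ hs one_pos eb ea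
  have b4 := mul_le_mul_of_nonneg_left (h4 τ hτ _ _ hs hs eb eb) hs.le
  rw [one_mul, div_one] at b1
  rw [one_mul, div_self hs.ne', mul_one] at b2
  rw [mul_one, div_self hs.ne', mul_one] at b3
  rw [show τ ^ 22 * (C4 * τ * (τ ^ 22 / (τ ^ 22 * τ ^ 22))) = C4 * τ by field_simp] at b4
  refine ⟨b1.trans ?_, b2.trans ?_, b3.trans ?_, b4.trans ?_⟩ <;> gcongr <;> linarith

end

end Vale.Agent.P352X.BX
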