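import Vale.Agent.P352X.R.BB.Spec
import Vale.Agent.P352X.Api1C
import Vale.Agent.P352X.SN.Form
import Vale.Agent.P352X.SN.Inst

/-!
# P352X, sub-row BB.lip: stability of the form domain of `P_b`
-/

set_option linter.all false

noncomputable section

open MeasureTheory Filter Topology
open scoped ENNReal
open UniformSpace (Completion)

namespace Vale.Agent.P352X.BX

open Vale.Agent.P352 Vale.Agent.P352.GF Vale.Agent.P352.BW Vale.Agent.P352.H496

variable {D : Type*} [NormedAddCommGroup D] [InnerProductSpace ℂ D] {c : Ctx D}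

lemma qb_abs (b : BAS c) (v : Completion D) :
    ∫⁻ p, ENNReal.ofReal |GF.mdot p vb| ∂c.bt.nu v = c.qb v :=
  lintegral_congr_ae ((b.cone v).mono fun p hp => by
    simp only [md_vb', abs_of_nonneg ((cone_iff p).1 hp).1])

lemma qb_lip (g : GRP c) (b : BAS c) {T : Completion D → Completion D} {M L N : ℝ} {y : V}
    (hy : y = vb ∨ y = -vb) (hM : 0 ≤ M) (hL : 0 ≤ L) (hT : ∀ v w, ‖T v - T w‖ ≤ M * ‖v - w‖)
    {v : Completion D} (h : Qb c v N) (h1 : ‖T v‖ ≤ M * ‖v‖) (h2 : ∀ s ∈ Set.Ioc (0 : ℝ) 1,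
      ‖Ut c.Q (s • y) (T v) - T (Ut c.Q (s • vb) v)‖ ≤ L * ‖v‖ * s) :
    Qb c (T v) (8 * (M + L) * N) := by
  have N0 : 0 ≤ N := (norm_nonneg _).trans h.1
  have h3 := h1.trans (mul_le_mul_of_nonneg_left h.1 hM)
  have a1 := SN.Qn_lip (U := fun y z => Ut c.Q y z) (U' := fun y z => Ut c.Q y z) hT h2
  have a2 := c.bt.Qn_le SN.isPair_mdot vb v
  have a3 := c.bt.le_Qn SN.isPair_mdot vb (T v)
  have a4 : SN.Qn (fun y z => Ut c.Q y z) y (T v) = SN.Qn (fun y z => Ut c.Q y z) vb (T v) := by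
    rcases hy with rfl | rfl
    exacts [rfl, SN.Qn_neg g.urT vb _]
  rw [qb_abs b] at a2 a3
  rw [a4] at a1
  refine ⟨h3.trans (by nlinarith [mul_nonneg hM N0, mul_nonneg hL N0]), a3.trans ?_⟩
  calc _ ≤ ENNReal.ofReal (‖T v‖ ^ 2) + ENNReal.ofReal 3 * (ENNReal.ofReal (2 * (L * ‖v‖) ^ 2) +
        ENNReal.ofReal (2 * M ^ 2) * (ENNReal.ofReal 9 * ENNReal.ofReal (N ^ 2))) := by
        simp only [ENNReal.ofReal_ofNat]
        gcongr
        exact a1.trans (by gcongr; exact a2.trans (by gcongr; exact h.2))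
    _ ≤ _ := by
        rw [← ENNReal.ofReal_mul (by norm_num), ← ENNReal.ofReal_mul (by positivity),
          ← ENNReal.ofReal_add (by positivity) (by positivity), ← ENNReal.ofReal_mul (by norm_num),
          ← ENNReal.ofReal_add (by positivity) (by positivity)]
        refine ENNReal.ofReal_le_ofReal ?_
        have b1 := pow_le_pow_left₀ (norm_nonneg _) h3 2
        have b2 := pow_le_pow_left₀ (by positivity) (mul_le_mul_of_nonneg_left h.1 hL) 2
        nlinarith [mul_nonneg (mul_nonneg hM hL) (sq_nonneg N), sq_nonneg (M * N),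
          sq_nonneg (L * N)]

/-- **sub-row BB.lip** -/
theorem lip_row (c : Ctx D) (t : T3 c) : LIP c where
  op X hX := by
    have g := t.grp
    have h1 : ContDiff ℝ 1 fun s : ℝ => Pb c.Q s * X * Pb c.Q (-s) := by
      have := (hX.of_le (by simp : (1 : WithTop ℕ∞) ≤ _)).comp
        (contDiff_const.prodMk contDiff_id : ContDiff ℝ 1 fun s : ℝ => ((0 : ℝ), s))
      simpa only [Function.comp_def, neg_zero, g.ugB.zero', one_mul, mul_one] using this
    obtain ⟨L, hL⟩ := h1.contDiffOn.exists_lipschitzOnWith one_ne_zero (convex_Icc 0 1) isCompact_Icc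
    have h2 : ∀ u z, ‖(Pb c.Q (-u) * X * Pb c.Q u) z‖ ≤ ‖X‖ * ‖z‖ := fun u z => by
      change ‖Pb c.Q (-u) (X (Pb c.Q u z))‖ ≤ _
      rw [g.ugPb.nrm, ← g.ugPb.nrm u z]
      exact X.le_opNorm _
    refine ⟨8 * (‖X‖ + L), fun u v N h => qb_lip g t.bas (.inl rfl) (norm_nonneg _) L.2
      (fun v w => by rw [← map_sub]; exact h2 u _) h (h2 u v) fun s hs => ?_⟩
    have h3 := hL.norm_sub_le ⟨hs.1.le, hs.2⟩ ⟨le_rfl, zero_le_one⟩
    have e : Pb c.Q s ((Pb c.Q (-u) * X * Pb c.Q u) v) - (Pb c.Q (-u) * X * Pb c.Q u) (Pb c.Q s v) =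
        Pb c.Q (-u) ((Pb c.Q s * X * Pb c.Q (-s) - X) (Pb c.Q s (Pb c.Q u v))) := by
      simp only [ContinuousLinearMap.sub_apply, ContinuousLinearMap.mul_apply, map_sub,
        g.ugPb.neg_left]
      rw [g.ugPb.comm s, g.ugPb.comm s u]
    rw [neg_zero, g.ugPb.zero', one_mul, mul_one, sub_zero, Real.norm_of_nonneg hs.1.le] at h3
    refine (congrArg norm e).trans_le ?_
    rw [g.ugPb.nrm, mul_right_comm]
    refine (ContinuousLinearMap.le_opNorm _ _).trans ?_
    rw [g.ugPb.nrm, g.ugPb.nrm]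
    exact mul_le_mul_of_nonneg_right h3 (norm_nonneg _)
  j := ⟨8 * (1 + 0), fun v N h => qb_lip t.grp t.bas (T := c.J) (.inr rfl) zero_le_one le_rfl
    (fun v w => by rw [← map_sub, c.J.norm_map, one_mul]) h (by rw [c.J.norm_map, one_mul])
    fun s hs => by
      have e : jr (s • vb) = s • -vb := null_ext (by simp) (by simp) (by simp)
      rw [t.jc.ut, e, sub_self, norm_zero, zero_mul, zero_mul]⟩

end Vale.Agent.P352X.BX
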