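import Vale.Agent.P352X.R.BB.Flux

/-!
# P352X, row BB.low: small light cone momenta (helper34)
-/

set_option linter.all false

open MeasureTheory Filter Topology
open scoped SchwartzMap ComplexConjugate ENNReal ContDiff Real

namespace Vale.Agent.P352X.BX

open Vale.Agent.P352 Vale.Agent.P352.GF Vale.Agent.P352.BW Vale.Agent.P352.H246
open Vale.Agent.P352.H496 Vale.Agent.P352.H755 Vale.Agent.P352.H15
open UniformSpace (Completion)
open Complex (I)

noncomputable section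

namespace Low

lemma abs_nn (p h : V) : |nn p h| ≤ 48 * ‖h‖ ^ 2 * ‖p‖ ^ 2 := by
  have h1 := pow_le_pow_left₀ (abs_nonneg _) (abs_mdot_le h p) 2
  have h2 := mul_le_mul (abs_mdot_le p p) (abs_mdot_le h h) (abs_nonneg _) (by positivity)
  refine (abs_sub _ _).trans ?_
  rw [abs_mul, abs_mul, abs_pow, abs_two, mu]
  linarith

lemma int_w : Integrable fun y : P3 => ((1 + ‖y‖) ^ 4)⁻¹ := by
  have := integrable_one_add_norm (E := P3) (μ := volume) (r := (4 : ℕ)) (by simp; norm_num)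
  refine this.congr (.of_forall fun y => ?_)
  simp only
  rw [Real.rpow_neg (by positivity), Real.rpow_natCast]

variable {D : Type*} [NormedAddCommGroup D] [InnerProductSpace ℂ D] {c : Ctx D}

theorem strip (h : TWO c) {q : V → P3} {l : V → ℝ} (hl : Measurable l) (hq : ∀ p, ‖q p‖ ≤ 2 * ‖p‖)
    (pos : ∀ p ∈ Fc, 0 < l p) (i1 : ∀ (g : P3 → ℝ) (φ : ℝ → ℝ), Integrable g → Integrable φ →
      Integrable fun p => g (q p) * φ (l p))
    (i2 : ∀ (g : P3 → ℝ) (φ : ℝ → ℝ), ∫ p, g (q p) * φ (l p) = (∫ y, g y) * ∫ t, φ t) :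
    ∃ (m : ℕ) (C : ℝ), 0 ≤ C ∧ ∀ h k (f : Sch) (σ : ℝ), 0 < σ →
      ‖c.bt.P {p | l p < σ} (c.Tv (hk h k (ev f)))‖ ≤ C * √σ * ‖h‖ * ‖k‖ * sn m f := by
  obtain ⟨C, C0, hC⟩ := Flux.two_int h
  obtain ⟨m, A, A0, hA⟩ := ft_decay 4
  set W := ∫ y : P3, ((1 + ‖y‖) ^ 4)⁻¹
  have W0 : 0 ≤ W := integral_nonneg fun _ => by positivity
  refine ⟨m, √(C * W) * (192 * A), by positivity, fun h k f σ hσ => ?_⟩
  have hS : MeasurableSet {p | l p < σ} := measurableSet_lt hl measurable_const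
  have s0 : 0 ≤ sn m f := apply_nonneg _ _
  set K := (192 * A * ‖h‖ * ‖k‖ * sn m f) ^ 2
  have := hC h k (ev f) ({p | l p < σ}.indicator 1) _ ⟨f, rfl⟩ (measurable_one.indicator hS)
    (fun p => Set.indicator_nonneg (fun _ _ => zero_le_one) p)
    (i1 (fun y => K * ((1 + ‖y‖) ^ 4)⁻¹) ((Set.Ioo 0 σ).indicator 1) (int_w.const_mul K)
      ((integrable_indicator_iff measurableSet_Ioo).2 (integrableOn_const (by simp))))
    (fun p => mul_nonneg (by positivity) (Set.indicator_nonneg (fun _ _ => zero_le_one) _))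
    fun p hp => by
      by_cases e : l p < σ
      · rw [Set.indicator_of_mem (show p ∈ {p | l p < σ} from e), Set.indicator_of_mem
          (show l p ∈ Set.Ioo 0 σ from ⟨pos p hp, e⟩), Pi.one_apply, Pi.one_apply, one_mul, mul_one,
          ← div_eq_mul_inv, le_div_iff₀ (by positivity)]
        have h1 : nn p h * nn p k ≤ 48 * ‖h‖ ^ 2 * (1 + ‖p‖) ^ 2 * (48 * ‖k‖ ^ 2 * (1 + ‖p‖) ^ 2) := by
          refine (le_abs_self _).trans ((abs_mul _ _).trans_le ?_)
          refine (mul_le_mul (abs_nn p h) (abs_nn p k) (abs_nonneg _) (by positivity)).trans ?_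
          gcongr <;> linarith
        have h2 : 1 + ‖q p‖ ≤ 2 * (1 + ‖p‖) := by linarith [hq p]
        calc _ ≤ 48 * ‖h‖ ^ 2 * (1 + ‖p‖) ^ 2 * (48 * ‖k‖ ^ 2 * (1 + ‖p‖) ^ 2) *
              ‖ft (ev f) p‖ ^ 2 * (2 * (1 + ‖p‖)) ^ 4 := by gcongr
          _ = (192 * ‖h‖ * ‖k‖ * ((1 + ‖p‖) ^ 4 * ‖ft (ev f) p‖)) ^ 2 := by ring
          _ ≤ (192 * ‖h‖ * ‖k‖ * (A * sn m f)) ^ 2 := by gcongr (_ * ?_) ^ 2; exact hA f p
          _ = K := by simp only [K]; ring
      · rw [Set.indicator_of_notMem (show p ∉ {p | l p < σ} from e), zero_mul]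
        exact mul_nonneg (by positivity) (Set.indicator_nonneg (fun _ _ => zero_le_one) _)
  have e : (fun p => ENNReal.ofReal ({p | l p < σ}.indicator (1 : V → ℝ) p)) =
      {p | l p < σ}.indicator 1 := funext fun p => by by_cases e : l p < σ <;> simp [e]
  rw [e, lintegral_indicator_one hS, c.bt.nu_apply hS,
    i2 (fun y => K * ((1 + ‖y‖) ^ 4)⁻¹) ((Set.Ioo 0 σ).indicator 1), integral_const_mul,
    integral_indicator_one measurableSet_Ioo, Real.volume_real_Ioo_of_le hσ.le,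
    ENNReal.ofReal_le_ofReal_iff (by rw [sub_zero]; positivity)] at this
  refine abs_le_of_sq_le_sq' (this.trans_eq ?_) (by positivity) |>.2
  simp only [mul_pow, Real.sq_sqrt hσ.le, Real.sq_sqrt (mul_nonneg C0 W0), K]
  ring

end Low

theorem low_row {D : Type*} [NormedAddCommGroup D] [InnerProductSpace ℂ D] (c : Ctx D) :
    T3 c → LOW c := fun t => by
  have n (p : V) : ‖tx p‖ ≤ 2 * ‖p‖ := by linarith [norm_tx_le p, norm_nonneg p]
  obtain ⟨m1, C1, a1, b1⟩ := Low.strip t.two (q := pm) meas_al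
    (fun p => max_le (abs_be_le p) (n p)) (fun p hp => ((mem_Fc' p).1 hp).1)
    (fun _ _ => integrable_pm_al) integral_pm_al
  obtain ⟨m2, C2, a2, b2⟩ := Low.strip t.two (q := pl) meas_be
    (fun p => max_le ((abs_al_le p).trans (by linarith [norm_nonneg p])) (n p))
    (fun p hp => ((mem_Fc p).1 hp).1) (fun _ _ => integrable_pl_be) integral_pl_be
  have mono (m m' : ℕ) (h : m ≤ m') (f : Sch) : sn m f ≤ sn m' f :=
    Seminorm.le_def.1 (Finset.sup_mono (Finset.Iic_subset_Iic.2 (Prod.mk_le_mk.2 ⟨h, h⟩))) f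
  refine ⟨max m1 m2, C1 + C2, by positivity, fun h k f σ hσ => ⟨(b1 h k f σ hσ).trans ?_,
    (b2 h k f σ hσ).trans ?_⟩⟩
  · have : 0 ≤ sn m1 f := apply_nonneg _ _
    gcongr
    exacts [le_add_of_nonneg_right a2, mono _ _ (le_max_left _ _) f]
  · have : 0 ≤ sn m2 f := apply_nonneg _ _
    gcongr
    exacts [le_add_of_nonneg_left a1, mono _ _ (le_max_right _ _) f]

end

end Vale.Agent.P352X.BX
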