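import Vale.Agent.P352X.R.BB.Spec
import Vale.Agent.P352X.R.KD.D
import Vale.Agent.P352X.R.KER
import Vale.Agent.P352X.R.LIE
import Vale.Agent.P352X.R.BAS
import Vale.Agent.P352X.Api1C

/-!
# P352X, row BB.rate: small `p_b` for `K T(f) Ω`
-/

set_option linter.all false

open MeasureTheory Filter Topology

namespace Vale.Agent.P352X.BX

open Vale.Agent.P352 Vale.Agent.P352.GF Vale.Agent.P352.BW Vale.Agent.P352.H246
open Vale.Agent.P352.H496 Vale.Agent.P352.H755 Vale.Agent.P352.H15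
open UniformSpace (Completion)
open Complex (I)
open KDa (dS mS Adm tau)

noncomputable section

namespace Rate

section hilbert

variable {H : Type*} [NormedAddCommGroup H] [InnerProductSpace ℂ H] [CompleteSpace H]
  {W G : ℝ → H →L[ℂ] H} {r ξ ζ a b : H}

/-- `|A K r|^2 = <K^2 r, A* A r>` -/
lemma sq_le (g : UG W) (h1 : Gn W r ξ) (h2 : Gn W ξ ζ) {A : H →L[ℂ] H}
    (h : ∀ t, star A * A * W t = W t * (star A * A)) : ‖A ξ‖ ^ 2 ≤ ‖ζ‖ * ‖star A (A r)‖ := by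
  have e := g.symm h2 (h1.comm h)
  rw [ContinuousLinearMap.mul_apply, inner_star, inner_self_eq_norm_sq_to_K] at e
  have := norm_inner_le_norm (𝕜 := ℂ) ζ ((star A * A) r)
  rwa [← e, norm_pow, RCLike.norm_ofReal, abs_norm] at this

/-- Lipschitz bounds for `K r` under a commuting group -/
lemma lip_le (g : UG W) (g' : UG G) (h : ∀ s t, G s * W t = W t * G s) (h1 : Gn W r ξ)
    (h2 : Gn W ξ ζ) (ha : Gn G r a) (hb : Gn G a b) (s : ℝ) :
    ‖G s ξ - ξ‖ ^ 2 ≤ ‖ζ‖ * (‖b‖ * |s| * |s|) := by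
  have c : ∀ s t, (G s - 1) * W t = W t * (G s - 1) := fun s t => by
    rw [sub_mul, mul_sub, h, one_mul, mul_one]
  have e : star (G s - 1) = G (-s) - 1 := by rw [star_sub, g'.star_eq, star_one]
  refine (sq_le g h1 h2 (A := G s - 1) fun t => ?_).trans
    (mul_le_mul_of_nonneg_left ?_ (norm_nonneg _))
  · rw [e, mul_assoc, c, ← mul_assoc, c, mul_assoc]
  · have := g'.lip ((g'.shift ha s).sub ha) (-s)
    rw [abs_neg] at this
    rw [e]
    exact this.trans (mul_le_mul_of_nonneg_right (g'.lip hb s) (abs_nonneg s))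

end hilbert

/-- the vector field of `M_i` -/
def MS (i : Fin 2) : Sch →L[ℂ] Sch :=
  mS (ContinuousLinearMap.proj i ∘L txL) ∘L dS va + mS beL ∘L dS (ex i)

lemma ev_MS (i : Fin 2) (f : Sch) : ev (MS i f) = Mc i (ev f) := by
  funext z
  show mS (ContinuousLinearMap.proj i ∘L txL) (dS va f) z + mS beL (dS (ex i) f) z = _
  rw [KDa.mS_apply, KDa.mS_apply, Mc, ← KDa.ev_dS, ← KDa.ev_dS]
  rfl

/-- `M_i` on vectors -/
def muL (i : Fin 2) : V →L[ℝ] V :=
  (ContinuousLinearMap.proj i ∘L txL).smulRight va + beL.smulRight (ex i)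

lemma muL_apply (i : Fin 2) (h : V) : muL i h = tx h i • va + be h • ex i := rfl

/-- the action of `M_i` -/
def nm {H : Type*} [NormedAddCommGroup H] [NormedSpace ℂ H] (i : Fin 2) (Φ : V → V → Sch → H)
    (h k : V) (f : Sch) : H :=
  I • (Φ h k (MS i f) - Φ (muL i h) k f - Φ h (muL i k) f)

lemma adm_nm {H : Type*} [NormedAddCommGroup H] [NormedSpace ℂ H] {Φ : V → V → Sch → H}
    (i : Fin 2) (h : Adm Φ) : Adm (nm i Φ) :=
  (((h.comp 1 1 ((MS i).restrictScalars ℝ)).sub (h.comp (muL i) 1 1)).sub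
    (h.comp 1 (muL i) 1)).of_le fun _ _ _ => by
      rw [nm, norm_smul, Complex.norm_I, one_mul]
      exact le_rfl

variable {D : Type*} [NormedAddCommGroup D] [InnerProductSpace ℂ D] {c : Ctx D}

lemma gn_tau (G : GEN c) (i : Fin 2) (h k : V) (f : Sch) :
    Gn (Mi c.Q i) (tau c h k f) (nm i (fun h k f => tau c h k f) h k f) := by
  simp only [nm, KDa.tau_apply, ev_MS, muL_apply]
  exact G.mi i h k _ ⟨f, rfl⟩

lemma gn_nm (i : Fin 2) {Φ Ψ : V → V → Sch → Completion D}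
    (hΦ : ∀ h k f, Gn (Mi c.Q i) (Φ h k f) (Ψ h k f)) (h k : V) (f : Sch) :
    Gn (Mi c.Q i) (nm i Φ h k f) (nm i Ψ h k f) :=
  (((hΦ _ _ _).sub (hΦ _ _ _)).sub (hΦ _ _ _)).smul I

/-- `M_i` and `M_i ^ 2` on `T(h, k)(f) Ω` -/
lemma two_M (G : GEN c) (i : Fin 2) : ∃ (m : ℕ) (C : ℝ), 0 ≤ C ∧ ∀ h k (f : Sch), ∃ a b,
    Gn (Mi c.Q i) (c.Tv (hk h k (ev f))) a ∧ Gn (Mi c.Q i) a b ∧
      ‖a‖ ≤ C * ‖h‖ * ‖k‖ * sn m f ∧ ‖b‖ ≤ C * ‖h‖ * ‖k‖ * sn m f := by
  obtain ⟨m, C, h0, hC⟩ := (adm_nm i (KDa.adm_tau c)).addn (adm_nm i (adm_nm i (KDa.adm_tau c)))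
  refine ⟨m, C, h0, fun h k f => ⟨_, _, (gn_tau G i h k f).cast (KDa.tau_apply h k f).symm rfl,
    gn_nm i (gn_tau G i) h k f, ?_⟩⟩
  have := (le_abs_self _).trans (hC h k f)
  rw [sn_eq]
  exact ⟨(le_add_of_nonneg_right (norm_nonneg _)).trans this,
    (le_add_of_nonneg_left (norm_nonneg _)).trans this⟩

/-- the functions of `P` commute with `K` -/
lemma P_K (c : Ctx D) {A : Set ℝ} (hA : MeasurableSet A) (t : ℝ) :
    c.bt.P (be ⁻¹' A) * c.SK t = c.SK t * c.bt.P (be ⁻¹' A) := by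
  have e : ∀ v, c.bt.P (be ⁻¹' A) v = c.kc.Phi (fun q => A.indicator (fun _ => (1 : ℂ)) q.2.2) v :=
    fun v => ((Kin.common_P c.kc c.hS.toGrp0 null_va c.ct).1 _ (SN.Bd.ind hA) v).symm
  ext v
  rw [ContinuousLinearMap.mul_apply, ContinuousLinearMap.mul_apply, e, e, c.SK_Phi, c.SK_Phi]
  exact c.kc.comm ((SN.Bd.ind hA).comp (by fun_prop)) (SN.Bd.expI (by fun_prop)) v

lemma nrt_eq (Q : Theory D) (t : ℝ) (z : Completion D) :
    Mi Q 0 (2 * t) z = Ue Q 1 (H746.nrt va (t • ex 0)) 0 z := by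
  have : tv ((1 / 2 : ℝ) • (2 * t) • e2 0) = t • ex 0 := by
    rw [smul_smul, tv_smul, ← mul_assoc, one_div_mul_cancel two_ne_zero, one_mul]
    rfl
  rw [Mi, Ga, this]
  exact Ug_apply Q one_pos (H26.lor_c null_va (be_ex 0) t) 0 z

/-- the pigeonhole bound -/
lemma pig (c : Ctx D) {ξ : Completion D} {Λ t : ℝ} (h0 : 0 < t) (h1 : t ≤ 1)
    (h : ∀ s, ‖Mi c.Q 0 s ξ - ξ‖ ≤ Λ * |s|) :
    ‖c.bt.P {p | al p ≤ t ^ 20 ∧ t ^ 4 ≤ be p} ξ‖ ≤ ‖ξ‖ * t + 8 * Λ * t := by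
  have hΛ : 0 ≤ Λ := by simpa using (norm_nonneg _).trans (h 1)
  have hN : 0 < ⌈t⁻¹ ^ 2⌉₊ := Nat.ceil_pos.2 (by positivity)
  have hN2 : (⌈t⁻¹ ^ 2⌉₊ : ℝ) ≤ 2 * t⁻¹ ^ 2 := by
    linarith [Nat.ceil_lt_add_one (sq_nonneg t⁻¹), one_le_pow₀ (n := 2) ((one_le_inv₀ h0).2 h1)]
  refine (Kin.pig c.bR c.ct null_vb null_va al_va (al_ex 0) (be_ex 0) (by simp [md_ex, -tx_0])
    (ρ := t ^ 20) (lam := t ^ 4) (σ := 2 * t ^ 8) (Λ := 2 * Λ) (by positivity) (by positivity)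
    (by linarith [pow_pos h0 20]) (w := ξ) (fun s hs => ?_) hN).trans (add_le_add ?_ ?_)
  · rw [← nrt_eq]
    refine (h _).trans_eq ?_
    rw [abs_of_nonneg (by positivity)]
    ring
  · rw [← inv_inv t, ← div_eq_mul_inv, inv_inv]
    exact div_le_div_of_nonneg_left (norm_nonneg _) (inv_pos.2 h0)
      (Real.le_sqrt_of_sq_le (Nat.le_ceil _))
  · calc _ ≤ 2 * Λ * (2 * t⁻¹ ^ 2 * (2 * t ^ 8)) := by gcongr
      _ = 8 * Λ * t ^ 6 := by field_simp; ring
      _ ≤ _ := mul_le_mul_of_nonneg_left (pow_le_of_le_one h0.le h1 (by norm_num)) (by positivity)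

end Rate

open Rate

variable {D : Type*} [NormedAddCommGroup D] [InnerProductSpace ℂ D]

theorem rate_row (c : Ctx D) (T : T3 c) (low : LOW c) : RATE c := fun b1 b2 hb => by
  have g := T.grp
  obtain ⟨m1, C1, k1⟩ := T.kd.slab b1 b2 (.inl hb)
  obtain ⟨m2, C2, p2, k2⟩ := low
  obtain ⟨m3, C3, p3, k3⟩ := two_M T.gen 0
  refine ⟨m1 + m2 + m3, 10 * (|C1| + C2 + C3), by positivity, fun h k f t hf h0 h1 => ?_⟩
  obtain ⟨d1, d2, n1, n2⟩ := k1 h k f hf
  obtain ⟨a, b, ha, hb, -, n3⟩ := k3 h k f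
  have n4 := (k2 h k f (t ^ 4) (by positivity)).2
  rw [show t ^ 4 = (t ^ 2) ^ 2 by ring, Real.sqrt_sq (by positivity), ← pow_mul] at n4
  set n := (|C1| + C2 + C3) * (‖h‖ * ‖k‖ * sn (m1 + m2 + m3) f) with hn
  have up : ∀ {m C}, m ≤ m1 + m2 + m3 → C ≤ |C1| + C2 + C3 → C * ‖h‖ * ‖k‖ * sn m f ≤ n :=
    fun hm hC => by
      rw [mul_assoc, mul_assoc, ← mul_assoc ‖h‖]
      exact mul_le_mul hC (mul_le_mul_of_nonneg_left (Lie.sn_mono hm f) (by positivity))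
        (mul_nonneg (by positivity) (Lie.sn_nonneg _ _)) (by positivity)
  have q1 : C1 ≤ |C1| + C2 + C3 := by linarith [le_abs_self C1]
  replace n1 := n1.trans (up (by omega) q1)
  replace n2 := n2.trans (up (by omega) q1)
  replace n3 := n3.trans (up (by omega) (by linarith [abs_nonneg C1]))
  replace n4 : _ ≤ t ^ 2 * n := n4.trans ((le_of_eq (by ring)).trans (mul_le_mul_of_nonneg_left
    (up (m := m2) (C := C2) (by omega) (by linarith [abs_nonneg C1])) (sq_nonneg t)))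
  have n0 : 0 ≤ n := (norm_nonneg _).trans n1
  have hA : MeasurableSet {p | be p < t ^ 4} := measurableSet_lt meas_be measurable_const
  have hB : MeasurableSet {p | al p ≤ t ^ 20 ∧ t ^ 4 ≤ be p} :=
    (measurableSet_le meas_al measurable_const).inter (measurableSet_le measurable_const meas_be)
  have sa : star (c.bt.P {p | be p < t ^ 4}) = c.bt.P {p | be p < t ^ 4} :=
    ContinuousLinearMap.ext fun v => ext_inner_right ℂ fun w => by
      rw [star_inner, SN.Calc.P_adj hA]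
  have a1 := sq_le c.ugK d1.gn d2.gn (A := c.bt.P {p | be p < t ^ 4}) fun s => by
    have := P_K c (measurableSet_Iio (a := t ^ 4)) s
    rw [sa, mul_assoc]
    exact (congrArg _ this).trans (by rw [← mul_assoc, ← mul_assoc]; exact congrArg (· * _) this)
  rw [sa, SN.Calc.P_P hA hA, Set.inter_self] at a1
  have a2 := abs_le_of_sq_le_sq' (b := t * n) (a1.trans ((mul_le_mul n2 n4 (norm_nonneg _) n0).trans_eq
    (by ring))) (by positivity)
  have a3 := pig c h0 h1 (Λ := n) fun s => (abs_le_of_sq_le_sq' ((lip_le c.ugK (g.ugM 0)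
    (fun _ _ => g.ga_S _ _) d1.gn d2.gn ha hb s).trans ((mul_le_mul n2 (mul_le_mul_of_nonneg_right
      (mul_le_mul_of_nonneg_right n3 (abs_nonneg s)) (abs_nonneg s)) (by positivity) n0).trans_eq
        (by ring))) (by positivity)).2
  refine (SN.Calc.norm_P_mono (measurableSet_lt meas_al measurable_const) (hA.union hB)
    (.of_forall fun p hp => (lt_or_ge (be p) (t ^ 4)).imp id fun q => ⟨le_of_lt hp, q⟩)).trans
    ((Br.norm_P_union _ hA hB _).trans ?_)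
  have a4 := mul_le_mul_of_nonneg_right n1 h0.le
  calc _ ≤ 10 * (t * n) := by linarith [a2.2]
    _ = _ := by rw [hn]; ring

end

end Vale.Agent.P352X.BX
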