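import Vale.Agent.P352X.R.BB.Base

/-!
# P352X, row BB.tra: transverse translations
-/

set_option linter.all false

open MeasureTheory Filter Topology Set
open scoped SchwartzMap ComplexConjugate ENNReal ContDiff

namespace Vale.Agent.P352X.BX

open Vale.Agent.P352 Vale.Agent.P352.GF Vale.Agent.P352.BW Vale.Agent.P352.H246
open Vale.Agent.P352.H496 Vale.Agent.P352.H755 Vale.Agent.P352.H15 Vale.Agent.P352X.Ap
open Vale.Agent.P132 (ModData jconj)
open UniformSpace (Completion)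

noncomputable section

variable {D : Type*} [NormedAddCommGroup D] [InnerProductSpace ℂ D] {c : Ctx D}
  {χ : ℝ → ℝ} {f f' : Fn} {w w' : Completion D} {X : Completion D →L[ℂ] Completion D}

namespace Tra

theorem om2_eq (w w' : Completion D) (χ : ℝ → ℝ) (h k : V) (f : Fn) : c.om2 w w' χ (hk h k f) =
    inner ℂ (c.Tv (hk h k fun z => (χ (al z) : ℝ) * bar f z)) w +
      inner ℂ w' (c.Tv (hk h k fun z => (1 - χ (al z) : ℝ) * f z)) := by
  simp only [Ctx.om2, bar_hk]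
  congr 3 <;> funext m n z <;> simp only [hk] <;> ring

theorem t1 (hχ : ContDiff ℝ ∞ χ) (hf : Dc f) : IsTest fun z => (χ (al z) : ℝ) * bar f z :=
  (in_rmul (hχ.comp smooth_al) (in_bar (in_univ hf))).1

theorem t2 (hχ : ContDiff ℝ ∞ χ) (hf : Dc f) : IsTest fun z => (1 - χ (al z) : ℝ) * f z :=
  (in_rmul (contDiff_const.sub (hχ.comp smooth_al)) (in_univ hf)).1

theorem om2_add (hχ : ContDiff ℝ ∞ χ) (hf : Dc f) (hf' : Dc f') (h k : V) :
    c.om2 w w' χ (hk h k fun z => f z + f' z) =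
      c.om2 w w' χ (hk h k f) + c.om2 w w' χ (hk h k f') := by
  simp only [om2_eq]
  rw [add_add_add_comm, ← inner_add_left, ← inner_add_right, ← Tv_add (t1 hχ hf) (t1 hχ hf'),
    ← Tv_add (t2 hχ hf) (t2 hχ hf')]
  simp only [bar, star_add, mul_add]

theorem om2_ut (G : GRP c) (hχ : ContDiff ℝ ∞ χ) (hf : Dc f) (h k : V) (y : R2) :
    c.om2 w w' χ (hk h k f) = c.om2 (Ut c.Q (-tv y) w) (Ut c.Q (-tv y) w') χ
      (hk h k fun z => f (z + tv y)) := by
  simp only [om2_eq]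
  rw [← ut_T G (tv y) h k (t1 hχ hf), ← ut_T G (tv y) h k (t2 hχ hf), ← G.star_ut, inner_star,
    star_inner]
  simp [bar]

theorem sm (G : GRP c) (hX : c.Good X) (y : R2) : Sm c (Ut c.Q (-tv y) * X * Ut c.Q (tv y)) := by
  have h := (contDiff_const (c := Ut c.Q (-tv y))).mul (hX.comp
    (f := fun q : ℝ × ℝ => (q.1, q.2, (0 : ℝ))) (by fun_prop)) |>.mul
    (contDiff_const (c := Ut c.Q (tv y)))
  have b : ∀ s x v, Bo c.Q s (Ut c.Q (tv x) v) = Ut c.Q (tv x) (Bo c.Q s v) := fun s x v =>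
    DFunLike.congr_fun (G.bo_tv s x) v
  have p : ∀ s x v, Pb c.Q s (Ut c.Q (tv x) v) = Ut c.Q (tv x) (Pb c.Q s v) := fun s x v =>
    DFunLike.congr_fun (G.ut_comm _ _) v
  refine (congrArg (ContDiff ℝ ∞) (funext fun q => ContinuousLinearMap.ext fun v => ?_)).mp h
  simp only [← tv_neg, Function.comp_apply, neg_zero, G.gb0, ContinuousLinearMap.mul_apply,
    ContinuousLinearMap.one_apply, b, p]

theorem gen_ut (G : GRP c) (x z : V) (ψ : Completion D) :
    gen (c.Ky (x + z)) ψ = Ut c.Q x (gen (c.Ky z) (Ut c.Q (-x) ψ)) := by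
  have e : -(x + z) = -z + -x := neg_add_rev _ _
  by_cases h : Dm c.SK (Ut c.Q (-(x + z)) ψ)
  · rw [G.gen_Ky _ h, G.gen_Ky z (by rwa [G.ut_apply, ← e]), G.ut_apply, G.ut_apply, e]
  · rw [gen, gen, deriv_zero_of_not_differentiableAt (mt (G.dm_Ky _).1 h),
      deriv_zero_of_not_differentiableAt (mt (G.dm_Ky _).1 (by rwa [G.ut_apply, ← e]))]
    simp

theorem dc_sub (y x z : V) (r : ℝ) : z ∈ dc (y - x) r ↔ z + x ∈ dc y r := by
  simp only [dc, mem_setOf_eq]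
  congr! 2 <;> abel

end Tra

open Tra

theorem tra_row (c : Ctx D) : T3 c → FAR c → CORE c → BB c := by
  intro t far core u0 d0 y1 r1 y2 r2 X X' χ κ ρ y hd h1 h2 s1 s2 m1 g1 m2 g2 hχ c1 c2 hκ hρ sρ
  have G := t.grp
  have s : ∀ {y1 r1}, dc y1 r1 ⊆ {z | be z < -u0 ∧ d0 < al z} →
      dc (y1 - tv y) r1 ⊆ {z | be z < -u0 ∧ d0 < al z} := fun s z hz => by
    simpa using s ((dc_sub _ _ _ _).1 hz)
  have m : ∀ {X y1 r1}, X ∈ c.N (dc y1 r1) →
      Ut c.Q (-tv y) * X * Ut c.Q (tv y) ∈ c.N (dc (y1 - tv y) r1) := fun m => by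
    simpa using G.mem_ut m (-tv y) fun z hz => (dc_sub _ _ _ _).2 (by simpa using hz)
  have dat : Dat c u0 d0 _ r1 _ r2 _ _ := ⟨hd, h1, h2, s s1, s s2, m m1, m m2⟩
  obtain ⟨κ0, k0, a⟩ := core _ _ _ _ _ _ _ _ χ ρ dat (sm G g1 y) (sm G g2 y) ⟨hχ, c1, c2⟩ hρ sρ
  have b := a.add (far _ _ _ _ _ _ _ _ χ κ κ0 ρ y dat ⟨hχ, c1, c2⟩ hκ k0 hρ sρ)
  have j : ∀ x, jr (tv x) = tv x := fun x => null_ext (by simp) (by simp) (by simp)
  have v : ∀ x, Ut c.Q x c.Om = c.Om := fun x => G.vac _ _ _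
  have e : jconj c.J (Ut c.Q (-tv y) * X' * Ut c.Q (tv y)) =
      Ut c.Q (-tv y) * jconj c.J X' * Ut c.Q (tv y) := by
    ext z
    simp only [← tv_neg, P132.jconj_apply, ContinuousLinearMap.mul_apply, t.jc.ut, j]
  simp only [e, star_mul, G.star_ut, ContinuousLinearMap.mul_apply, v, G.ut_apply, neg_neg,
    add_neg_cancel, G.ut0, ContinuousLinearMap.one_apply, add_zero] at b
  simp only [gen_ut G (tv y), ← star_inner, G.star_ut]
  refine b.congr' ?_
  filter_upwards [eventually_gt_atTop 0] with L hL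
  have q := tst_kL hκ.1 hL
  have q0 := tst_kL k0.1 hL
  have q1 : Tst fun q : P3 => kL κ L (q.1, q.2 + y) := by
    simpa only [Prod.add_def, add_zero, tst_iff] using cs_tr (0, y) q
  refine (om2_add hχ (dc_pr (tst_x2 q0) hρ) (dc_pr (tst_x2 (cs_sub q1 q0)) hρ) _ _).symm.trans
    (Eq.trans ?_ (om2_ut G hχ (dc_pr (cs_mul_l (by fun_prop) q) hρ) _ _ y).symm)
  congr 2
  funext z
  simp only [pr, x2, pl, al_add, tx_add, be_add, al_tv, tx_tv, be_tv, add_zero, add_sub_cancel_right]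
  push_cast
  ring

end

end Vale.Agent.P352X.BX
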