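import Vale.Agent.P352X.R.BB.BaseA
import Vale.Agent.P352X.Api1C
import Vale.Agent.P352X.Api3
import Vale.Agent.P352X.Api4
import Vale.Agent.P352X.R.FAR
import Vale.Agent.P352X.R.GRP.C

/-!
# P352X, row BB: the calculus of the vectors `T(h, k)(f) Ω`
-/

set_option linter.all false

open MeasureTheory Filter Topology Set
open scoped SchwartzMap ComplexConjugate ENNReal ContDiff

namespace Vale.Agent.P352X.BX

open Vale.Agent.P352 Vale.Agent.P352.GF Vale.Agent.P352.BW Vale.Agent.P352.H246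
open Vale.Agent.P352.H496 Vale.Agent.P352.H755 Vale.Agent.P352.H15 Vale.Agent.P352X.Ap
open Vale.Agent.P132 (ModData jconj)
open UniformSpace (Completion)
open Complex (I)

noncomputable section

variable {D : Type*} [NormedAddCommGroup D] [InnerProductSpace ℂ D] {c : Ctx D}
  {h h' k k' y : V} {f f' : Fn} {g g' : P3 → ℝ} {φ φ' ρ ρ' χ : ℝ → ℝ} {r s t d R L ε u : ℝ}
  {v w : Completion D} {X : Completion D →L[ℂ] Completion D}

/-! ## linearity -/

variable (c) in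
/-- `f ↦ T(h, k)(f) Ω` -/
def TL (h k : V) : Sch →L[ℂ] Completion D :=
  ∑ m, ∑ n, ((eta m * h m * (eta n * k n) : ℝ) : ℂ) •
    (Completion.toComplL ∘L Grp.fC (Grp.T_fld c.hT m n) c.Q.vac)

theorem TL_apply (h k : V) (F : Sch) : TL c h k F = c.Tv (hk h k (ev F)) := by
  rw [Far.Tv_hk c h k (test_ev F)]
  simp only [TL, ContinuousLinearMap.sum_apply, ContinuousLinearMap.smul_apply]
  rfl

theorem Tv_sch (hf : IsTest f) (h k : V) : c.Tv (hk h k f) = TL c h k (sch f) := by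
  rw [TL_apply, ev_sch hf]

theorem Tv_add (hf : IsTest f) (hf' : IsTest f') (h k : V) :
    c.Tv (hk h k fun z => f z + f' z) = c.Tv (hk h k f) + c.Tv (hk h k f') := by
  rw [Tv_sch hf, Tv_sch hf', Tv_sch (sw_add hf hf'), Ap.sch_add hf hf', map_add]

theorem Tv_sub (hf : IsTest f) (hf' : IsTest f') (h k : V) :
    c.Tv (hk h k fun z => f z - f' z) = c.Tv (hk h k f) - c.Tv (hk h k f') := by
  rw [Tv_sch hf, Tv_sch hf', Tv_sch (sw_sub hf hf'), Ap.sch_sub hf hf', map_sub]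

theorem Tv_cmul (a : ℂ) (hf : IsTest f) (h k : V) :
    c.Tv (hk h k fun z => a * f z) = a • c.Tv (hk h k f) := by
  rw [Tv_sch hf, Tv_sch (sw_cmul a hf), Ap.sch_cmul a hf, map_smul]

theorem Tv_zero (h k : V) : c.Tv (hk h k fun _ => 0) = 0 := by
  rw [Tv_sch sw_zero, Ap.sch_zero, map_zero]

theorem Tv_sum {ι : Type*} {S : Finset ι} {F : ι → Fn} (hF : ∀ i ∈ S, IsTest (F i)) (h k : V) :
    c.Tv (hk h k fun z => ∑ i ∈ S, F i z) = ∑ i ∈ S, c.Tv (hk h k (F i)) := by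
  rw [Tv_sch (sw_sum hF), Ap.sch_sum hF, map_sum]
  exact Finset.sum_congr rfl fun i hi => (Tv_sch (hF i hi) h k).symm

theorem Tv_symm (hf : IsTest f) (h k : V) : c.Tv (hk h k f) = c.Tv (hk k h f) := by
  rw [Far.Tv_hk c h k hf, Far.Tv_hk c k h hf, Finset.sum_comm]
  refine Finset.sum_congr rfl fun m _ => Finset.sum_congr rfl fun n _ => ?_
  rw [c.hT.symm n m f _ hf, mul_comm]

theorem Tv_add_l (hf : IsTest f) (h h' k : V) :
    c.Tv (hk (h + h') k f) = c.Tv (hk h k f) + c.Tv (hk h' k f) := by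
  simp only [Far.Tv_hk c _ _ hf, ← Finset.sum_add_distrib, ← add_smul, Pi.add_apply]
  refine Finset.sum_congr rfl fun m _ => Finset.sum_congr rfl fun n _ => ?_
  congr 1
  push_cast
  ring

theorem Tv_smul_l (hf : IsTest f) (t : ℝ) (h k : V) :
    c.Tv (hk (t • h) k f) = (t : ℂ) • c.Tv (hk h k f) := by
  simp only [Far.Tv_hk c _ _ hf, Finset.smul_sum, smul_smul, Pi.smul_apply, smul_eq_mul]
  refine Finset.sum_congr rfl fun m _ => Finset.sum_congr rfl fun n _ => ?_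
  congr 1
  push_cast
  ring

theorem Tv_add_r (hf : IsTest f) (h k k' : V) :
    c.Tv (hk h (k + k') f) = c.Tv (hk h k f) + c.Tv (hk h k' f) := by
  rw [Tv_symm hf, Tv_add_l hf, Tv_symm hf k, Tv_symm hf k']

theorem Tv_smul_r (hf : IsTest f) (t : ℝ) (h k : V) :
    c.Tv (hk h (t • k) f) = (t : ℂ) • c.Tv (hk h k f) := by
  rw [Tv_symm hf, Tv_smul_l hf, Tv_symm hf k]

theorem Tv_neg_l (hf : IsTest f) (h k : V) : c.Tv (hk (-h) k f) = -c.Tv (hk h k f) := by
  simpa using Tv_smul_l (c := c) hf (-1) h k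

theorem Tv_neg_r (hf : IsTest f) (h k : V) : c.Tv (hk h (-k) f) = -c.Tv (hk h k f) := by
  simpa using Tv_smul_r (c := c) hf (-1) h k

theorem Tv_zero_l (hf : IsTest f) (k : V) : c.Tv (hk 0 k f) = 0 := by
  simpa using Tv_smul_l (c := c) hf 0 0 k

theorem Tv_zero_r (hf : IsTest f) (h : V) : c.Tv (hk h 0 f) = 0 := by
  rw [Tv_symm hf, Tv_zero_l hf]

/-- general tensor test functions -/
theorem Tv_add' {F F' : Ix → Ix → Fn} (hF : ∀ m n, IsTest (F m n)) (hF' : ∀ m n, IsTest (F' m n)) :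
    c.Tv (fun m n z => F m n z + F' m n z) = c.Tv F + c.Tv F' := by
  have e : ∀ m n, c.T m n (fun z => F m n z + F' m n z) c.Q.vac =
      c.T m n (F m n) c.Q.vac + c.T m n (F' m n) c.Q.vac := fun m n => by
    simpa using c.Q.lin _ _ _ 1 c.Q.vac (Grp.T_fld c.hT m n) (hF m n) (hF' m n)
  simp only [Ctx.Tv, Ctx.Tf, e, Finset.sum_add_distrib, Completion.coe_add]

/-! ## product functions -/

theorem TP_sch (hg : Tst g) (hφ : Tst φ) (h k : V) : TP c h k g φ = TL c h k (sch (pr g φ)) :=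
  Tv_sch (test_pr hg hφ) h k

theorem TP_symm (hg : Tst g) (hφ : Tst φ) (h k : V) : TP c h k g φ = TP c k h g φ :=
  Tv_symm (test_pr hg hφ) h k

theorem TP_add_g (hg : Tst g) (hg' : Tst g') (hφ : Tst φ) (h k : V) :
    TP c h k (fun y => g y + g' y) φ = TP c h k g φ + TP c h k g' φ := by
  rw [TP, TP, TP, ← Tv_add (test_pr hg hφ) (test_pr hg' hφ)]
  congr 2
  funext z
  simp [pr, add_mul]

theorem TP_add_p (hg : Tst g) (hφ : Tst φ) (hφ' : Tst φ') (h k : V) :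
    TP c h k g (fun t => φ t + φ' t) = TP c h k g φ + TP c h k g φ' := by
  rw [TP, TP, TP, ← Tv_add (test_pr hg hφ) (test_pr hg hφ')]
  congr 2
  funext z
  simp [pr, mul_add]

theorem TP_mul_g (a : ℝ) (hg : Tst g) (hφ : Tst φ) (h k : V) :
    TP c h k (fun y => a * g y) φ = (a : ℂ) • TP c h k g φ := by
  rw [TP, TP, ← Tv_cmul a (test_pr hg hφ)]
  congr 2
  funext z
  simp [pr, mul_assoc]

theorem TP_mul_p (a : ℝ) (hg : Tst g) (hφ : Tst φ) (h k : V) :
    TP c h k g (fun t => a * φ t) = (a : ℂ) • TP c h k g φ := by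
  rw [TP, TP, ← Tv_cmul a (test_pr hg hφ)]
  congr 2
  funext z
  simp [pr, mul_left_comm]

theorem TP_neg_g (hg : Tst g) (hφ : Tst φ) (h k : V) :
    TP c h k (fun y => -g y) φ = -TP c h k g φ := by
  simpa using TP_mul_g (c := c) (-1) hg hφ h k

theorem TP_neg_p (hg : Tst g) (hφ : Tst φ) (h k : V) :
    TP c h k g (fun t => -φ t) = -TP c h k g φ := by
  simpa using TP_mul_p (c := c) (-1) hg hφ h k

theorem TP_sub_g (hg : Tst g) (hg' : Tst g') (hφ : Tst φ) (h k : V) :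
    TP c h k (fun y => g y - g' y) φ = TP c h k g φ - TP c h k g' φ := by
  simp only [sub_eq_add_neg]
  rw [TP_add_g hg (cs_neg hg') hφ, TP_neg_g hg' hφ]

theorem TP_sub_p (hg : Tst g) (hφ : Tst φ) (hφ' : Tst φ') (h k : V) :
    TP c h k g (fun t => φ t - φ' t) = TP c h k g φ - TP c h k g φ' := by
  simp only [sub_eq_add_neg]
  rw [TP_add_p hg hφ (cs_neg hφ'), TP_neg_p hg hφ']

theorem TP_sum_g {ι : Type*} {S : Finset ι} {G : ι → P3 → ℝ} (hG : ∀ i ∈ S, Tst (G i)) (hφ : Tst φ)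
    (h k : V) : TP c h k (fun y => ∑ i ∈ S, G i y) φ = ∑ i ∈ S, TP c h k (G i) φ := by
  simp only [TP]
  rw [← Tv_sum fun i hi => test_pr (hG i hi) hφ]
  congr 2
  funext z
  simp [pr, Finset.sum_mul]

theorem Tx_add_g (hg : Tst g) (hg' : Tst g') (hφ : Tst φ) (h : V) :
    Tx c h (fun y => g y + g' y) φ = Tx c h g φ + Tx c h g' φ := by
  have e : ap 1 (fun y => g y + g' y) = fun y => ap 1 g y + ap 1 g' y := by
    funext y
    simp [ap, mul_add]
  rw [Tx, Tx, Tx, e, TP_add_g (tst_ap 1 hg) (tst_ap 1 hg') hφ, TP_add_g hg hg' (tst_tm hφ)]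
  abel

theorem Tx_add_p (hg : Tst g) (hφ : Tst φ) (hφ' : Tst φ') (h : V) :
    Tx c h g (fun t => φ t + φ' t) = Tx c h g φ + Tx c h g φ' := by
  have e : tm (fun t => φ t + φ' t) = fun t => tm φ t + tm φ' t := by
    funext y
    simp [tm, mul_add]
  rw [Tx, Tx, Tx, e, TP_add_p (tst_ap 1 hg) hφ hφ', TP_add_p hg (tst_tm hφ) (tst_tm hφ')]
  abel

theorem Tx_mul_g (a : ℝ) (hg : Tst g) (hφ : Tst φ) (h : V) :
    Tx c h (fun y => a * g y) φ = (a : ℂ) • Tx c h g φ := by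
  have e : ap 1 (fun y => a * g y) = fun y => a * ap 1 g y := by
    funext y
    simp [ap, mul_left_comm]
  rw [Tx, Tx, e, TP_mul_g a (tst_ap 1 hg) hφ, TP_mul_g a hg (tst_tm hφ), smul_sub]

theorem Tx_mul_p (a : ℝ) (hg : Tst g) (hφ : Tst φ) (h : V) :
    Tx c h g (fun t => a * φ t) = (a : ℂ) • Tx c h g φ := by
  have e : tm (fun t => a * φ t) = fun t => a * tm φ t := by
    funext y
    simp [tm, mul_left_comm]
  rw [Tx, Tx, e, TP_mul_p a (tst_ap 1 hg) hφ, TP_mul_p a hg (tst_tm hφ), smul_sub]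

theorem Tx_neg_g (hg : Tst g) (hφ : Tst φ) (h : V) : Tx c h (fun y => -g y) φ = -Tx c h g φ := by
  simpa using Tx_mul_g (c := c) (-1) hg hφ h

theorem Tx_neg_p (hg : Tst g) (hφ : Tst φ) (h : V) : Tx c h g (fun t => -φ t) = -Tx c h g φ := by
  simpa using Tx_mul_p (c := c) (-1) hg hφ h

theorem Tx_sub_g (hg : Tst g) (hg' : Tst g') (hφ : Tst φ) (h : V) :
    Tx c h (fun y => g y - g' y) φ = Tx c h g φ - Tx c h g' φ := by
  simp only [sub_eq_add_neg]
  rw [Tx_add_g hg (cs_neg hg') hφ, Tx_neg_g hg' hφ]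

theorem Tx_sub_p (hg : Tst g) (hφ : Tst φ) (hφ' : Tst φ') (h : V) :
    Tx c h g (fun t => φ t - φ' t) = Tx c h g φ - Tx c h g φ' := by
  simp only [sub_eq_add_neg]
  rw [Tx_add_p hg hφ (cs_neg hφ'), Tx_neg_p hg hφ']

theorem Tx_neg_l (hg : Tst g) (hφ : Tst φ) (h : V) : Tx c (-h) g φ = -Tx c h g φ := by
  rw [Tx, Tx, TP, TP, Tv_neg_l (test_pr (tst_ap 1 hg) hφ), Tv_neg_l (test_pr hg (tst_tm hφ))]
  simp only [TP]
  abel

theorem Tx_smul_l (t : ℝ) (hg : Tst g) (hφ : Tst φ) (h : V) :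
    Tx c (t • h) g φ = (t : ℂ) • Tx c h g φ := by
  rw [Tx, Tx, TP, TP, Tv_smul_l (test_pr (tst_ap 1 hg) hφ), Tv_smul_l (test_pr hg (tst_tm hφ)),
    smul_sub]
  rfl

/-! ## covariance -/

section grp

variable (G : GRP c)
include G

theorem perp_TP (hg : Tst g) (hφ : Tst φ) (h k : V) : inner ℂ c.Om (TP c h k g φ) = 0 :=
  Far.perp_Tv G h k (test_pr hg hφ)

theorem perp_Tx (hg : Tst g) (hφ : Tst φ) (h : V) : inner ℂ c.Om (Tx c h g φ) = 0 := by
  rw [Tx, inner_sub_right, perp_TP G (tst_ap 1 hg) hφ, perp_TP G hg (tst_tm hφ), sub_zero]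

theorem ug_T {Λ : Ix → V} (hs : 0 < s) (hL : IsLor Λ) (a h k : V) (hf : IsTest f) :
    Ug c.Q s Λ a (c.Tv (hk h k fun z => f (sim s Λ a z))) =
      c.Tv (hk (sim 1 Λ 0 h) (sim 1 Λ 0 k) f) := by
  rw [Ctx.Tv, G.coe _ _ _ _ hs hL, G.ten _ _ _ _ _ _ _ hs hL hf, c.Q.U_vac _ _ _ hs hL]
  rfl

theorem ut_T (y h k : V) (hf : IsTest f) :
    Ut c.Q y (c.Tv (hk h k fun z => f (z + y))) = c.Tv (hk h k f) := by
  have := ug_T G one_pos H496.isLor_one y h k hf
  simp only [sim_ut, add_zero] at this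
  exact this

theorem ut_T' (y h k : V) (hf : IsTest f) :
    Ut c.Q y (c.Tv (hk h k f)) = c.Tv (hk h k fun z => f (z - y)) := by
  have := ut_T G y h k (test_tsl hf (-y))
  simpa only [add_neg_cancel_right, ← sub_eq_add_neg, add_sub_cancel_right] using this

theorem ga_T (w : R2) (h k : V) (hf : IsTest f) :
    Ga c.Q w (c.Tv (hk h k fun z => f (gap w z))) = c.Tv (hk (gap w h) (gap w k) f) := by
  have := ug_T G one_pos (G.lga w).1 0 h k hf
  simp only [(G.lga w).2] at this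
  exact this

theorem usc_T (hr : 0 < r) (hs : 0 < s) (h k : V) (hf : IsTest f) :
    ((r * s : ℝ) : ℂ) • Usc c.Q r s (c.Tv (hk h k fun z => f (scp r s z))) =
      c.Tv (hk (scp r s h) (scp r s k) f) := by
  obtain ⟨hΛ, e⟩ := G.lsc r s hr hs
  have hq : 0 < Real.sqrt (r * s) := Real.sqrt_pos.2 (by positivity)
  have := ug_T G hq hΛ 0 h k hf
  simp only [e] at this
  rw [← e h, ← e k, sim_smul h, sim_smul k, Tv_smul_l hf, Tv_smul_r hf, smul_smul, ← this,
    ← Complex.ofReal_mul, Real.mul_self_sqrt (by positivity)]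
  rfl

omit G in
theorem scp_va (r s : ℝ) : scp r s va = r • va := null_ext (by simp) (by simp) (by simp)

omit G in
theorem scp_vb (r s : ℝ) : scp r s vb = s • vb := null_ext (by simp) (by simp) (by simp)

omit G in
theorem scp_ex (r s : ℝ) (i : Fin 2) : scp r s (ex i) = Real.sqrt (r * s) • ex i :=
  null_ext (by simp) (by simp) (by simp)

theorem usc_TP (hL : 0 < L) (hg : Tst g) (hφ : Tst φ) (h k : V) :
    (L : ℂ) • Usc c.Q L 1 (TP c h k g φ) = TP c (scp L 1 h) (scp L 1 k) (kL g L) φ := by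
  have := usc_T G hL one_pos h k (test_pr (tst_kL hg hL) hφ)
  rw [mul_one] at this
  rw [TP, TP, ← this]
  congr 4
  funext z
  rw [pr_kL hL, scp_scp _ (inv_pos.2 hL).le zero_le_one, inv_mul_cancel₀ hL.ne', mul_one, scp_one]

theorem usc_Tx (hL : 0 < L) (hg : Tst g) (hφ : Tst φ) (h : V) :
    (L : ℂ) • Usc c.Q L 1 (Tx c h g φ) = Tx c (scp L 1 h) (kL g L) φ := by
  have e : ap 1 (kL g L) = fun y => L * kL (ap 1 g) L y := by
    funext y
    simp only [ap, kL, pow_one]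
    field_simp
  rw [Tx, Tx, map_sub, smul_sub, usc_TP G hL (tst_ap 1 hg) hφ, usc_TP G hL hg (tst_tm hφ), scp_va,
    scp_vb, one_smul, e, TP_mul_g L (tst_kL (tst_ap 1 hg) hL) hφ, TP,
    Tv_smul_r (test_pr (tst_kL (tst_ap 1 hg) hL) hφ)]
  rfl

theorem usc_Tx_a (hL : 0 < L) (hg : Tst g) (hφ : Tst φ) :
    Usc c.Q L 1 (Tx c va g φ) = Tx c va (kL g L) φ := by
  have := usc_Tx G hL hg hφ va
  rw [scp_va, Tx_smul_l L (tst_kL hg hL) hφ] at this
  exact smul_right_injective _ (Complex.ofReal_ne_zero.2 hL.ne') this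

theorem usc_Tx_b (hL : 0 < L) (hg : Tst g) (hφ : Tst φ) :
    Usc c.Q L 1 (Tx c vb g φ) = Tx c vb (fun y => L⁻¹ * kL g L y) φ := by
  have := usc_Tx G hL hg hφ vb
  rw [scp_vb, one_smul] at this
  rw [Tx_mul_g _ (tst_kL hg hL) hφ, ← this, smul_smul, ← Complex.ofReal_mul,
    inv_mul_cancel₀ hL.ne', Complex.ofReal_one, one_smul]

/-- the face is the image of a fixed face -/
theorem usc_face (hR : 0 < R) (hL : 0 < L) (hφ : Tst φ) :
    Tx c vb (face R L) φ = Usc c.Q L 1 (Tx c vb (k3 (deriv kk) (kp R)) φ) :=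
  (usc_Tx_b G hL (tst_face0 hR) hφ).symm

/-- conservation -/
theorem cons_T (h : V) (hf : IsTest f) : c.Tv (hk va h (dv vb f)) + c.Tv (hk vb h (dv va f)) =
    ∑ i, c.Tv (hk (ex i) h (dv (ex i) f)) := by
  have := congrArg (fun x : D => (x : Completion D)) (sub_eq_zero.1 (G.cons h f c.Q.vac hf))
  simpa only [Completion.coe_add, Fin.sum_univ_two, Ctx.Tv] using this

theorem cons_TP (h : V) (hg : Tst g) (hφ : Tst φ) :
    TP c va h g (deriv φ) + TP c vb h (da g) φ = ∑ i, TP c (ex i) h (di i g) φ := by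
  have := cons_T G h (test_pr hg hφ)
  simp only [dv_pr_a (tst_diff hg) (tst_diff hφ), dv_pr_b (tst_diff hg) (tst_diff hφ),
    dv_pr_ex (tst_diff hg) (tst_diff hφ)] at this
  exact this

/-- conservation of the current of the boost -/
theorem cons (hg : Tst g) (hφ : Tst φ) :
    Tx c va g (deriv φ) + Tx c vb (da g) φ = ∑ i, Tx c (ex i) (di i g) φ := by
  have h1 := cons_TP G va (tst_ap 1 hg) hφ
  have h2 := cons_TP G vb hg (tst_tm hφ)
  have e : deriv (tm φ) = fun t => φ t + tm (deriv φ) t := by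
    funext t
    have := ((hasDerivAt_id t).mul (tst_diff hφ t).hasDerivAt).deriv
    rw [show tm φ = id * φ from rfl, this]
    simp [tm]
  rw [da_ap (tst_diff hg), TP_add_g hg (tst_ap 1 (tst_da hg)) hφ] at h1
  rw [e, TP_add_p hg hφ (tst_tm (cs_deriv hφ)), TP_symm hg hφ] at h2
  simp only [di_ap _ (tst_diff hg)] at h1
  simp only [Tx, Finset.sum_sub_distrib, ← h1, ← h2]
  abel

theorem usc_pb (hL : 0 < L) (u : ℝ) : Usc c.Q L 1 * Pb c.Q u = Pb c.Q u * Usc c.Q L 1 := by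
  rw [Pb, G.sc_ut _ _ _ hL one_pos]
  congr 2
  exact null_ext (by simp) (by simp) (by simp)

theorem usc_K (hL : 0 < L) (hv : Dm c.SK v) :
    Dm c.SK (Usc c.Q L 1 v) ∧ gen c.SK (Usc c.Q L 1 v) = Usc c.Q L 1 (gen c.SK v) :=
  hv.comm fun t => by rw [G.sc_S _ _ _ hL one_pos, div_one]

theorem usc_norm (r s : ℝ) (v : Completion D) : ‖Usc c.Q r s v‖ = ‖v‖ := G.ug_norm _ _ _ v

theorem pb_pb (s t : ℝ) (v : Completion D) : Pb c.Q s (Pb c.Q t v) = Pb c.Q (s + t) v := by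
  rw [G.ugPb.add']
  rfl

theorem pb_om (u : ℝ) : Pb c.Q u c.Om = c.Om := G.vac _ _ _

theorem bo_om (u : ℝ) : Bo c.Q u c.Om = c.Om := G.vac _ _ _

theorem Sm.star (hX : Sm c X) : Sm c (star X) := by
  have := (ContinuousLinearMap.contDiff (n := ∞) (starL' ℝ :
    (Completion D →L[ℂ] Completion D) ≃L[ℝ] _).toContinuousLinearMap).comp hX
  have e : (fun q : ℝ × ℝ => Bo c.Q q.1 * Pb c.Q q.2 * Star.star X * Pb c.Q (-q.2) * Bo c.Q (-q.1)) =
      ⇑(starL' ℝ : (Completion D →L[ℂ] Completion D) ≃L[ℝ] _).toContinuousLinearMap ∘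
        fun q : ℝ × ℝ => Bo c.Q q.1 * Pb c.Q q.2 * X * Pb c.Q (-q.2) * Bo c.Q (-q.1) := by
    funext q
    simp [star_mul, G.ugPb.star_eq, G.ugB.star_eq, mul_assoc]
  unfold Sm
  rw [e]
  exact this

/-! ## averages along `b` -/

theorem int_Rb (hρ : Tst ρ) (v : Completion D) : Integrable fun u => (ρ u : ℂ) • Pb c.Q u v :=
  G.ugPb.integrable_smul (cs_int (dc_cx hρ)) v

theorem Rb_add (hρ : Tst ρ) (v w : Completion D) : Rb c ρ (v + w) = Rb c ρ v + Rb c ρ w := by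
  simp only [Rb, map_add, smul_add]
  exact integral_add (int_Rb G hρ v) (int_Rb G hρ w)

omit G in
theorem Rb_smul (a : ℂ) (v : Completion D) : Rb c ρ (a • v) = a • Rb c ρ v := by
  simp only [Rb, map_smul, smul_comm _ a]
  exact integral_smul _ _

omit G in
theorem Rb_neg (v : Completion D) : Rb c ρ (-v) = -Rb c ρ v := by
  simpa using Rb_smul (c := c) (ρ := ρ) (-1) v

theorem Rb_sub (hρ : Tst ρ) (v w : Completion D) : Rb c ρ (v - w) = Rb c ρ v - Rb c ρ w := by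
  rw [sub_eq_add_neg, Rb_add G hρ, Rb_neg, ← sub_eq_add_neg]

omit G in
theorem Rb_zero : Rb c ρ 0 = 0 := by simp [Rb]

theorem Rb_sum (hρ : Tst ρ) {ι : Type*} (S : Finset ι) (F : ι → Completion D) :
    Rb c ρ (∑ i ∈ S, F i) = ∑ i ∈ S, Rb c ρ (F i) := by
  simp only [Rb, map_sum, Finset.smul_sum]
  exact integral_finsetSum _ fun i _ => int_Rb G hρ (F i)

theorem Rb_norm (ρ : ℝ → ℝ) (v : Completion D) : ‖Rb c ρ v‖ ≤ (∫ u, |ρ u|) * ‖v‖ := by
  refine (norm_integral_le_integral_norm _).trans (le_of_eq ?_)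
  simp only [norm_smul, G.ugPb.nrm, Complex.norm_real, Real.norm_eq_abs]
  exact integral_mul_const _ _

theorem Rb_comm (hρ : Tst ρ) {A : Completion D →L[ℂ] Completion D}
    (hA : ∀ u, A * Pb c.Q u = Pb c.Q u * A) (v : Completion D) :
    Rb c ρ (A v) = A (Rb c ρ v) := by
  rw [Rb, Rb, ← A.integral_comp_comm (int_Rb G hρ v)]
  congr 1
  funext u
  rw [map_smul, ← ContinuousLinearMap.mul_apply, ← hA u, ContinuousLinearMap.mul_apply]

theorem Rb_usc (hρ : Tst ρ) (hL : 0 < L) (v : Completion D) :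
    Rb c ρ (Usc c.Q L 1 v) = Usc c.Q L 1 (Rb c ρ v) := Rb_comm G hρ (usc_pb G hL) v

theorem inner_Rb (hρ : Tst ρ) (v w : Completion D) :
    inner ℂ (Rb c ρ v) w = ∫ u, (ρ u : ℂ) * inner ℂ v (Pb c.Q (-u) w) := by
  rw [← inner_conj_symm, Rb, ← integral_inner (int_Rb G hρ v), ← integral_conj]
  congr 1
  funext u
  rw [inner_smul_right, map_mul, Complex.conj_ofReal, inner_conj_symm, G.ugPb.adj', neg_neg]

theorem perp_Rb (hρ : Tst ρ) (hv : inner ℂ c.Om v = 0) : inner ℂ c.Om (Rb c ρ v) = 0 := by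
  rw [← inner_conj_symm, inner_Rb G hρ]
  simp [pb_om G, inner_eq_zero_symm.1 hv]

omit G in
theorem perp_K (hv : Dm c.SK v) : inner ℂ c.Om (gen c.SK v) = 0 := by
  rw [c.ugK.symm (gn_of_fix c.K_vac) hv.gn, inner_zero_left]

end grp

/-! ## the modular conjugation -/

theorem jr_va : jr va = -va := null_ext (by simp) (by simp) (by simp)

theorem jr_vb : jr vb = -vb := null_ext (by simp) (by simp) (by simp)

theorem jr_ex (i : Fin 2) : jr (ex i) = ex i := null_ext (by simp) (by simp) (by simp)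

section jc

variable (j : JC c)
include j

theorem J_T (h k : V) (hf : IsTest f) :
    c.J (c.Tv (hk h k f)) = c.Tv (hk (jr h) (jr k) (bar fun z => f (jr z))) := by
  rw [Far.Tv_hk c h k hf, Far.Tv_hk c _ _ (test_bar (test_conf0 conf_jr hf))]
  simp only [map_sum, J_smul, j.one _ _ _ hf, smul_smul, jr_apply, Complex.conj_ofReal]
  refine Finset.sum_congr rfl fun m _ => Finset.sum_congr rfl fun n _ => ?_
  congr 1
  push_cast
  ring

theorem J_TP (hg : Tst g) (hφ : Tst φ) (h k : V) :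
    c.J (TP c h k g φ) = TP c (jr h) (jr k) (fl g) (ng φ) := by
  rw [TP, J_T j h k (test_pr hg hφ), TP, ← bar_pr (fl g)]
  congr 3
  funext z
  simp [pr, fl, ng, pl]

theorem J_TP_aa (hg : Tst g) (hφ : Tst φ) :
    c.J (TP c va va g φ) = TP c va va (fl g) (ng φ) := by
  have := test_pr (tst_fl hg) (tst_ng hφ)
  rw [J_TP j hg hφ, jr_va, TP, Tv_neg_l this, Tv_neg_r this, neg_neg, TP]

theorem J_Tx (hg : Tst g) (hφ : Tst φ) (h : V) :
    c.J (Tx c h g φ) = Tx c (jr h) (fl g) (ng φ) := by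
  have h1 := tst_ap 1 (tst_fl hg)
  have h2 := tst_tm (tst_ng hφ)
  rw [Tx, map_sub, J_TP j (tst_ap 1 hg) hφ, J_TP j hg (tst_tm hφ), fl_ap, ng_tm,
    TP_mul_g _ h1 (tst_ng hφ), TP_mul_p _ (tst_fl hg) h2, jr_va, jr_vb, TP, TP,
    Tv_neg_r (test_pr h1 (tst_ng hφ)), Tv_neg_r (test_pr (tst_fl hg) h2)]
  simp [Tx, TP]

theorem J_pb (u : ℝ) (v : Completion D) : c.J (Pb c.Q u v) = Pb c.Q (-u) (c.J v) := by
  rw [Pb, j.ut, Pb]
  congr 2
  exact null_ext (by simp) (by simp) (by simp)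

theorem J_K (hv : Dm c.SK v) : Dm c.SK (c.J v) ∧ gen c.SK (c.J v) = c.J (gen c.SK v) :=
  have := hv.gn.anti_neg c.J (W' := c.SK) fun t => j.S t v
  ⟨this.dm, this.gen_eq⟩

theorem jconj_pb (G : GRP c) (u : ℝ) (X : Completion D →L[ℂ] Completion D) :
    jconj c.J (Pb c.Q u * X * Pb c.Q (-u)) = Pb c.Q (-u) * jconj c.J X * Pb c.Q u := by
  ext v
  simp [J_pb j]

end jc

theorem star_Y (X : Completion D →L[ℂ] Completion D) :
    star (jconj c.J X) c.Om = c.J (star X c.Om) := by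
  rw [jconj_star c.J c.J_J, P132.jconj_apply, c.J_Om]

/-! ## the domain of `K` -/

section kd

variable (kd : KD c)
include kd

/-- test functions with compact support below the plane -/
theorem dm_T (hf : Dc f) (hs : tsupport f ⊆ {z | be z < 0}) (h k : V) :
    Dm c.SK (c.Tv (hk h k f)) := by
  rcases (tsupport f).eq_empty_or_nonempty with h0 | h0
  · have : f = fun _ => 0 := funext fun z => image_eq_zero_of_notMem_tsupport (by simp [h0])
    rw [this, Tv_zero]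
    exact dm_zero
  obtain ⟨z1, -, h1⟩ := hf.2.isCompact.exists_isMinOn h0 cont_be.continuousOn
  obtain ⟨z2, m2, h2⟩ := hf.2.isCompact.exists_isMaxOn h0 cont_be.continuousOn
  obtain ⟨m, C, H⟩ := kd.slab (be z1) (be z2) (Or.inl (hs m2))
  have := (H h k (sch f) (by
    rw [Ap.tsupport_sch (dc_sw hf)]
    exact fun z hz => ⟨h1 hz, h2 hz⟩)).1
  rwa [ev_sch (dc_sw hf)] at this

theorem dm_TP (hg : Tst g) (hφ : Tst φ) (hs : tsupport φ ⊆ Iio 0) (h k : V) :
    Dm c.SK (TP c h k g φ) :=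
  dm_T kd (dc_pr hg hφ) (fun _ hz => hs (tsupport_pr g φ hz).2) h k

theorem dm_Tx (hg : Tst g) (hφ : Tst φ) (hs : tsupport φ ⊆ Iio 0) (h : V) :
    Dm c.SK (Tx c h g φ) :=
  (dm_TP kd (tst_ap 1 hg) hφ hs h va).sub
    (dm_TP kd hg (tst_tm hφ) ((tsupport_tm φ).trans hs) h vb)

theorem dm_GG (hχ : Stp d χ) (hR : 0 < R) (hL : 0 < L) (hε : 0 < ε) : Dm c.SK (GG c χ R L ε) :=
  (dm_Tx kd (tst_slab hχ hR hL) (tst_dlt tst_dps hε.ne') (tsupport_dlt_neg tsupport_dps_neg hε)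
    va).neg.sub (dm_Tx kd (tst_face hR hL) (tst_edge hR hε) (tsupport_edge hR hε) vb)

end kd

theorem Qb.nonneg {N : ℝ} (h : Qb c v N) : 0 ≤ N := (norm_nonneg _).trans h.1

theorem Qb.mono {N N' : ℝ} (h : Qb c v N) (e : N ≤ N') : Qb c v N' :=
  ⟨h.1.trans e, h.2.trans (ENNReal.ofReal_le_ofReal (pow_le_pow_left₀ h.nonneg e 2))⟩

end

end Vale.Agent.P352X.BX
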