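import Vale.Agent.P352X.R.BB.Spec
import Vale.Agent.P352X.Api2c

/-!
# P352X, row BB: the cutoff functions
-/

set_option linter.all false

open MeasureTheory Filter Topology Set
open scoped SchwartzMap ComplexConjugate ENNReal ContDiff

namespace Vale.Agent.P352X.BX

open Vale.Agent.P352 Vale.Agent.P352.GF Vale.Agent.P352.H755 Vale.Agent.P352X.Ap

noncomputable section

variable {g g' : P3 → ℝ} {φ φ' χ : ℝ → ℝ} {t s d R L ε : ℝ} {i : Fin 2}

/-! ## the steps -/

theorem kk_one (h : t ≤ 1) : kk t = 1 := by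
  rw [kk, Real.smoothTransition.zero_of_nonpos (by linarith), sub_zero]

theorem kk_zero (h : 2 ≤ t) : kk t = 0 := by
  rw [kk, Real.smoothTransition.one_of_one_le (by linarith), sub_self]

@[fun_prop] theorem smooth_kk : ContDiff ℝ ∞ kk :=
  contDiff_const.sub (Real.smoothTransition.contDiff.comp (contDiff_id.sub contDiff_const))

@[fun_prop] theorem diff_kk : Differentiable ℝ kk := smooth_kk.differentiable (by simp)

theorem kk_nonneg (t : ℝ) : 0 ≤ kk t := sub_nonneg.2 (Real.smoothTransition.le_one _)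

theorem kk_le (t : ℝ) : kk t ≤ 1 := sub_le_self _ (Real.smoothTransition.nonneg _)

theorem kk_ev (h : t < 1) : ∀ᶠ x in 𝓝 t, kk x = 1 :=
  (eventually_lt_nhds h).mono fun _ hx => kk_one hx.le

theorem kk_ev' (h : 2 < t) : ∀ᶠ x in 𝓝 t, kk x = 0 :=
  (eventually_gt_nhds h).mono fun _ hx => kk_zero hx.le

/-- the derivative of a smooth function that is constant on one side -/
theorem deriv_zero_le {f : ℝ → ℝ} {a b : ℝ} (hf : ContDiff ℝ ∞ f) (h : ∀ x, x ≤ a → f x = b)
    (ht : t ≤ a) : deriv f t = 0 := by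
  have h1 : EqOn (deriv f) (fun _ => 0) (Iio a) := fun x hx => by
    have : f =ᶠ[𝓝 x] fun _ => b := (eventually_lt_nhds hx).mono fun _ hy => h _ hy.le
    rw [this.deriv_eq, deriv_const]
  exact h1.closure (hf.continuous_deriv (by simp)) continuous_const (by rwa [closure_Iio])

theorem deriv_zero_ge {f : ℝ → ℝ} {a b : ℝ} (hf : ContDiff ℝ ∞ f) (h : ∀ x, a ≤ x → f x = b)
    (ht : a ≤ t) : deriv f t = 0 := by
  have h1 : EqOn (deriv f) (fun _ => 0) (Ioi a) := fun x hx => by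
    have : f =ᶠ[𝓝 x] fun _ => b := (eventually_gt_nhds hx).mono fun _ hy => h _ hy.le
    rw [this.deriv_eq, deriv_const]
  exact h1.closure (hf.continuous_deriv (by simp)) continuous_const (by rwa [closure_Ioi])

theorem dkk_le (h : t ≤ 1) : deriv kk t = 0 := deriv_zero_le smooth_kk (fun _ => kk_one) h

theorem dkk_ge (h : 2 ≤ t) : deriv kk t = 0 := deriv_zero_ge smooth_kk (fun _ => kk_zero) h

@[fun_prop] theorem smooth_dkk : ContDiff ℝ ∞ (deriv kk) := (contDiff_infty_iff_deriv.1 smooth_kk).2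

/-- smooth functions that vanish outside of an interval -/
theorem tst_Icc {f : ℝ → ℝ} {a b : ℝ} (hf : ContDiff ℝ ∞ f) (h1 : ∀ x, x ≤ a → f x = 0)
    (h2 : ∀ x, b ≤ x → f x = 0) : Tst f ∧ tsupport f ⊆ Icc a b := by
  have h : ∀ x, f x ≠ 0 → x ∈ Icc a b := fun x hx =>
    ⟨by_contra fun h => hx (h1 x (not_le.1 h).le), by_contra fun h => hx (h2 x (not_le.1 h).le)⟩
  exact ⟨cs_of hf isCompact_Icc fun x hx => by_contra fun h' => hx (h x h'),
    tsupp_sub isClosed_Icc h⟩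

theorem tst_dkk : Tst (deriv kk) := (tst_Icc smooth_dkk (fun _ => dkk_le) fun _ => dkk_ge).1

theorem ps_one (h : t ≤ -1) : ps t = 1 := kk_one (by linarith)

theorem ps_zero (h : -1 / 2 ≤ t) : ps t = 0 := kk_zero (by linarith)

@[fun_prop] theorem smooth_ps : ContDiff ℝ ∞ ps := by unfold ps; fun_prop

@[fun_prop] theorem diff_ps : Differentiable ℝ ps := smooth_ps.differentiable (by simp)

theorem dps_le (h : t ≤ -1) : deriv ps t = 0 := deriv_zero_le smooth_ps (fun _ => ps_one) h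

theorem dps_ge (h : -1 / 2 ≤ t) : deriv ps t = 0 := deriv_zero_ge smooth_ps (fun _ => ps_zero) h

@[fun_prop] theorem smooth_dps : ContDiff ℝ ∞ (deriv ps) := (contDiff_infty_iff_deriv.1 smooth_ps).2

theorem tst_dps : Tst (deriv ps) := (tst_Icc smooth_dps (fun _ => dps_le) fun _ => dps_ge).1

theorem tsupport_dps : tsupport (deriv ps) ⊆ Icc (-1) (-1 / 2) :=
  (tst_Icc smooth_dps (fun _ => dps_le) fun _ => dps_ge).2

theorem integral_dps : ∫ t, deriv ps t = -1 := by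
  rw [← setIntegral_eq_integral_of_forall_compl_eq_zero (s := Ioc (-1) (-1 / 2)) fun t ht => by
      rcases le_or_gt t (-1) with h | h
      · exact dps_le h
      · exact dps_ge (not_le.1 fun h' => ht ⟨h, h'⟩).le,
    ← intervalIntegral.integral_of_le (by norm_num),
    intervalIntegral.integral_deriv_eq_sub (fun x _ => diff_ps x)
      (smooth_dps.continuous.intervalIntegrable _ _), ps_zero le_rfl, ps_one le_rfl]
  norm_num

/-- `ps (t / ε)` -/
theorem ps_div_one (hε : 0 < ε) (h : t ≤ -ε) : ps (t / ε) = 1 :=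
  ps_one (by rw [div_le_iff₀ hε]; linarith)

theorem ps_div_zero (hε : 0 < ε) (h : -ε / 2 ≤ t) : ps (t / ε) = 0 :=
  ps_zero (by rw [le_div_iff₀ hε]; linarith)

theorem deriv_dil' (s : ℝ) (φ : ℝ → ℝ) : deriv (dil s φ) = dlt s (deriv φ) :=
  funext fun t => deriv_dil s φ t

theorem Stp.opp (h : Stp d χ) : Stp d (opp χ) :=
  ⟨contDiff_const.sub (h.1.comp contDiff_neg), fun t ht => by
    rw [BX.opp, h.2.2 _ (by linarith), sub_self], fun t ht => by
    rw [BX.opp, h.2.1 _ (by linarith), sub_zero]⟩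

theorem opp_opp (χ : ℝ → ℝ) : opp (opp χ) = χ := by
  funext t
  simp [opp]

theorem Stp.diff (h : Stp d χ) : Differentiable ℝ χ := h.1.differentiable (by simp)

theorem Stp.d_le (h : Stp d χ) (ht : t ≤ -d / 2) : deriv χ t = 0 := deriv_zero_le h.1 h.2.1 ht

theorem Stp.d_ge (h : Stp d χ) (ht : d / 2 ≤ t) : deriv χ t = 0 := deriv_zero_ge h.1 h.2.2 ht

theorem Stp.tst_d (h : Stp d χ) : Tst (deriv χ) ∧ tsupport (deriv χ) ⊆ Icc (-d / 2) (d / 2) :=
  tst_Icc (contDiff_infty_iff_deriv.1 h.1).2 (fun _ => h.d_le) fun _ => h.d_ge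

theorem deriv_opp (h : Differentiable ℝ χ) (t : ℝ) : deriv (opp χ) t = deriv χ (-t) := by
  have := ((h (-t)).hasDerivAt.comp t (hasDerivAt_neg t)).const_sub 1
  rw [show opp χ = fun x => 1 - (χ ∘ Neg.neg) x from rfl, this.deriv]
  ring

/-! ## closure properties -/

theorem tst_tm (h : Tst φ) : Tst (tm φ) := cs_mul_l contDiff_id h

theorem tsupport_tm (φ : ℝ → ℝ) : tsupport (tm φ) ⊆ tsupport φ :=
  tsupp_of_zero fun t h => by rw [tm, h, mul_zero]

theorem tst_ng (h : Tst φ) : Tst (ng φ) := cs_cle (ContinuousLinearEquiv.neg ℝ) h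

theorem tsupport_ng (φ : ℝ → ℝ) : tsupport (ng φ) ⊆ {t | -t ∈ tsupport φ} :=
  tsupp_sub ((isClosed_tsupport φ).preimage continuous_neg) fun _ h => subset_tsupport φ h

theorem ng_ng (φ : ℝ → ℝ) : ng (ng φ) = φ := by
  funext t
  simp [ng]

theorem ng_tm (φ : ℝ → ℝ) : ng (tm φ) = fun t => -1 * tm (ng φ) t := by
  funext t
  simp [ng, tm]

/-- the reflection of the plane -/
def flE : P3 ≃L[ℝ] P3 := (ContinuousLinearEquiv.neg ℝ).prodCongr (ContinuousLinearEquiv.refl ℝ R2)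

theorem tst_fl (h : Tst g) : Tst (fl g) := cs_cle flE h

theorem smooth_fl (h : ContDiff ℝ ∞ g) : ContDiff ℝ ∞ (fl g) := h.comp flE.contDiff

theorem fl_fl (g : P3 → ℝ) : fl (fl g) = g := by
  funext y
  simp [fl]

theorem fl_ap (g : P3 → ℝ) : fl (ap 1 g) = fun y => -1 * ap 1 (fl g) y := by
  funext y
  simp [fl, ap]

theorem fl_kL (g : P3 → ℝ) (L : ℝ) : fl (kL g L) = kL (fl g) L := by
  funext y
  simp [fl, kL, neg_div]

theorem tst_da (h : Tst g) : Tst (da g) := cs_fderiv _ h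

theorem tst_di (i : Fin 2) (h : Tst g) : Tst (di i g) := cs_fderiv _ h

theorem tst_xi (i : Fin 2) (h : Tst g) : Tst (xi i g) := cs_mul_l (by fun_prop) h

theorem tst_x2 (h : Tst g) : Tst (x2 g) := cs_mul_l (by fun_prop) h

theorem tst_diff {E : Type*} [NormedAddCommGroup E] [NormedSpace ℝ E] {f : E → ℝ} (h : Tst f) :
    Differentiable ℝ f := h.1.differentiable (by simp)

theorem tm_dil (s : ℝ) (hs : s ≠ 0) (φ : ℝ → ℝ) : tm (dil s φ) = fun t => s * dil s (tm φ) t := by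
  funext t
  simp only [tm, dil]
  field_simp

theorem tm_dlt (s : ℝ) (φ : ℝ → ℝ) : tm (dlt s φ) = dil s (tm φ) := by
  funext t
  simp only [tm, dil, dlt]
  ring

theorem tsupport_dil_neg (h : tsupport φ ⊆ Iio 0) (hs : 0 < s) : tsupport (dil s φ) ⊆ Iio 0 :=
  fun t ht => by
    have := h (tsupport_dil s φ ht)
    rwa [mem_Iio, div_lt_iff₀ hs, zero_mul] at this

theorem tsupport_dlt_neg (h : tsupport φ ⊆ Iio 0) (hs : 0 < s) : tsupport (dlt s φ) ⊆ Iio 0 :=
  fun t ht => by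
    have := h (tsupport_dlt s φ ht)
    rwa [mem_Iio, div_lt_iff₀ hs, zero_mul] at this

/-- derivatives along `a` are derivatives in the first variable -/
theorem da_of {y : P3} {v : ℝ} (hg : DifferentiableAt ℝ g y)
    (h : HasDerivAt (fun a => g (a, y.2)) v y.1) : da g y = v := by
  have h1 : HasDerivAt (fun a : ℝ => ((a, y.2) : P3)) (1, 0) y.1 :=
    (hasDerivAt_id y.1).prodMk (hasDerivAt_const _ _)
  exact (hg.hasFDerivAt.comp_hasDerivAt y.1 h1).unique h

theorem da_k3 {k : ℝ → ℝ} {k' : R2 → ℝ} (h : Differentiable ℝ k) (h' : Differentiable ℝ k') :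
    da (k3 k k') = k3 (deriv k) k' := by
  funext y
  exact da_of ((h.comp differentiable_fst).mul (h'.comp differentiable_snd) y)
    ((h y.1).hasDerivAt.mul_const (k' y.2))

theorem da_ap (h : Differentiable ℝ g) : da (ap 1 g) = fun y => g y + ap 1 (da g) y := by
  funext y
  have h1 : HasDerivAt (fun a : ℝ => ((a, y.2) : P3)) (1, 0) y.1 :=
    (hasDerivAt_id y.1).prodMk (hasDerivAt_const _ _)
  refine da_of (((differentiable_fst.pow 1).mul h) y) ?_
  have := (hasDerivAt_id y.1).mul ((h y).hasFDerivAt.comp_hasDerivAt y.1 h1)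
  refine (this.congr_deriv ?_).congr_of_eventuallyEq (Eventually.of_forall fun a => ?_)
  · simp [ap, da]
  · simp [ap]

theorem di_ap (i : Fin 2) (h : Differentiable ℝ g) : di i (ap 1 g) = ap 1 (di i g) := by
  funext y
  have := (hasFDerivAt_fst (𝕜 := ℝ) (p := y)).mul (h y).hasFDerivAt
  have e : ap 1 g = Prod.fst * g := by
    funext y
    simp [ap]
  rw [di, e, this.fderiv]
  simp [ap, di]

/-! ## the cutoffs -/

@[fun_prop] theorem smooth_kp (R : ℝ) : ContDiff ℝ ∞ (kp R) := by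
  unfold kp
  fun_prop

theorem kp_one {x : R2} (hR : 0 < R) (h : d2 x x ≤ 11 * R) : kp R x = 1 :=
  kk_one ((div_le_one (by positivity)).2 h)

theorem kp_zero {x : R2} (hR : 0 < R) (h : 22 * R ≤ d2 x x) : kp R x = 0 :=
  kk_zero ((le_div_iff₀ (by positivity)).2 (by linarith))

theorem tst_kp (hR : 0 < R) : Tst (kp R) := by
  refine cs_of (smooth_kp R) (isCompact_closedBall 0 (22 * R + 1)) fun x hx => kp_zero hR ?_
  rw [mem_closedBall_zero_iff, not_le] at hx
  nlinarith [norm_sq_le_d2 x]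

theorem kL_k3 (k : ℝ → ℝ) (k' : R2 → ℝ) (L : ℝ) :
    kL (k3 k k') L = k3 (dil L k) fun x => k' ((Real.sqrt L)⁻¹ • x) := rfl

theorem tst_kpL (hR : 0 < R) (hL : 0 < L) : Tst fun x : R2 => kp R ((Real.sqrt L)⁻¹ • x) :=
  cs_smul (inv_ne_zero (Real.sqrt_pos.2 hL).ne') (tst_kp hR)

theorem slab_eq (χ : ℝ → ℝ) (R L : ℝ) :
    slab χ R L = k3 (fun t => χ t * kk (t / L)) fun x => kp R ((Real.sqrt L)⁻¹ • x) := by
  funext y
  simp only [slab, kL, k3]
  ring

theorem tst_chk (h : Stp d χ) (hL : 0 < L) : Tst fun t => χ t * kk (t / L) :=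
  (tst_Icc (b := 2 * L) (h.1.mul (by fun_prop)) (fun t ht => by rw [h.2.1 t ht, zero_mul])
    fun t ht => by rw [kk_zero ((le_div_iff₀ hL).2 ht), mul_zero]).1

theorem tst_slab (h : Stp d χ) (hR : 0 < R) (hL : 0 < L) : Tst (slab χ R L) := by
  rw [slab_eq]
  exact tst_k3 (tst_chk h hL) (tst_kpL hR hL)

/-- the face in the frame `L = 1` -/
theorem tst_face0 (hR : 0 < R) : Tst (k3 (deriv kk) (kp R)) := tst_k3 tst_dkk (tst_kp hR)

theorem tst_face (hR : 0 < R) (hL : 0 < L) : Tst (face R L) :=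
  cs_cmul _ (tst_kL (tst_face0 hR) hL)

theorem tst_edge' (hR : 0 < R) (hε : 0 < ε) :
    Tst (edge R ε) ∧ tsupport (edge R ε) ⊆ Icc (-(4 * R)) (-ε / 2) :=
  tst_Icc (by unfold edge; fun_prop) (fun t ht => by
      rw [edge, kk_zero ((le_div_iff₀ (by positivity)).2 (by linarith)), mul_zero])
    fun t ht => by rw [edge, ps_div_zero hε ht, zero_mul]

theorem tst_edge (hR : 0 < R) (hε : 0 < ε) : Tst (edge R ε) := (tst_edge' hR hε).1

theorem tsupport_edge (hR : 0 < R) (hε : 0 < ε) : tsupport (edge R ε) ⊆ Iio 0 :=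
  fun _ ht => ((tst_edge' hR hε).2 ht).2.trans_lt (by linarith)

theorem tsupport_dps_neg : tsupport (deriv ps) ⊆ Iio 0 :=
  fun _ ht => (tsupport_dps ht).2.trans_lt (by norm_num)

theorem tst_k2 : Tst fun t => kk t * kk (-t) :=
  (tst_Icc (a := -2) (b := 2) (by fun_prop) (fun t ht => by rw [kk_zero (t := -t) (by linarith),
    mul_zero]) fun t ht => by rw [kk_zero ht, zero_mul]).1

theorem tst_cut0 (hR : 0 < R) : Tst (cut0 R) := tst_k3 tst_k2 (tst_kp hR)

theorem cut_cut0 (hR : 0 < R) : Cut (cut0 R) := by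
  refine ⟨tst_cut0 hR, ?_⟩
  have h1 : ∀ᶠ y : P3 in 𝓝 0, y.1 < 1 := continuous_fst.continuousAt.eventually_lt
    continuousAt_const (by simp)
  have h2 : ∀ᶠ y : P3 in 𝓝 0, -y.1 < 1 := continuous_fst.neg.continuousAt.eventually_lt
    continuousAt_const (by simp)
  have h3 : ∀ᶠ y : P3 in 𝓝 0, d2 y.2 y.2 < 11 * R :=
    (cont_d2 continuous_snd continuous_snd).continuousAt.eventually_lt continuousAt_const
      (by simp [hR])
  filter_upwards [h1, h2, h3] with y a1 a2 a3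
  simp only [cut0, k3]
  rw [kk_one a1.le, kk_one a2.le, kp_one hR a3.le]
  norm_num

/-! ## the scales -/

theorem ep_pos (n : ℕ) : 0 < ep n := by
  unfold ep
  positivity

theorem half_mem (n : ℕ) : (1 / 2 : ℝ) ^ n ∈ Ioc (0 : ℝ) 1 :=
  ⟨by positivity, pow_le_one₀ (by norm_num) (by norm_num)⟩

theorem ep_le (n : ℕ) : ep n ≤ ((1 / 2 : ℝ) ^ n) ^ 2 :=
  pow_le_pow_of_le_one (half_mem n).1.le (half_mem n).2 (by norm_num)

theorem ep_mem (n : ℕ) : ep n ∈ Ioc (0 : ℝ) 1 :=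
  ⟨ep_pos n, pow_le_one₀ (half_mem n).1.le (half_mem n).2⟩

theorem sqrt_ep (n : ℕ) : Real.sqrt (ep n) ≤ (1 / 2) ^ n :=
  Real.sqrt_le_iff.2 ⟨(half_mem n).1.le, ep_le n⟩

theorem ep_succ (n : ℕ) : ep (n + 1) = ep n * ep 1 := by
  simp only [ep, pow_succ (1 / 2 : ℝ) n, mul_pow, pow_one]

theorem ep_anti : Antitone ep := antitone_nat_of_succ_le fun n => by
  rw [ep_succ]
  exact mul_le_of_le_one_right (ep_pos n).le (ep_mem 1).2

theorem tendsto_half : Tendsto (fun n : ℕ => (1 / 2 : ℝ) ^ n) atTop (𝓝[>] 0) :=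
  tendsto_nhdsWithin_iff.2 ⟨tendsto_pow_atTop_nhds_zero_of_lt_one (by norm_num) (by norm_num),
    Eventually.of_forall fun n => (half_mem n).1⟩

theorem tendsto_pow22 : Tendsto (fun t : ℝ => t ^ 22) (𝓝[>] 0) (𝓝[>] 0) :=
  tendsto_nhdsWithin_iff.2 ⟨by
    simpa using ((continuous_pow 22).tendsto (0 : ℝ)).mono_left nhdsWithin_le_nhds,
    eventually_mem_nhdsWithin.mono fun t (ht : 0 < t) => pow_pos ht 22⟩

theorem tendsto_ep : Tendsto ep atTop (𝓝[>] 0) := tendsto_pow22.comp tendsto_half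

/-- the profile of the dyadic pieces -/
def ph0 (t : ℝ) : ℝ := ps (t / ep 1) - ps t

theorem tst_ph0' : Tst ph0 ∧ tsupport ph0 ⊆ Icc (-1) (-ep 1 / 2) :=
  tst_Icc (by unfold ph0; fun_prop) (fun t ht => by
      rw [ph0, ps_div_one (ep_pos 1) (by linarith [(ep_mem 1).2]), ps_one ht, sub_self])
    fun t ht => by
      rw [ph0, ps_div_zero (ep_pos 1) ht, ps_zero (by linarith [(ep_mem 1).2]), sub_self]

theorem tst_ph0 : Tst ph0 := tst_ph0'.1

theorem tsupport_ph0 : tsupport ph0 ⊆ Iio 0 :=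
  fun _ ht => (tst_ph0'.2 ht).2.trans_lt (by linarith [ep_pos 1])

theorem dil_ph0 (n : ℕ) (t : ℝ) : dil (ep n) ph0 t = ps (t / ep (n + 1)) - ps (t / ep n) := by
  rw [dil, ph0, ep_succ n, div_div]

theorem edge_succ {n : ℕ} (hR : 0 < R) (h : ep n ≤ R) (t : ℝ) :
    edge R (ep (n + 1)) t = edge R (ep n) t + dil (ep n) ph0 t := by
  rw [dil_ph0, edge, edge]
  rcases le_total t (-ep n) with h1 | h1
  · rw [ps_div_one (ep_pos n) h1, ps_div_one (ep_pos _)
      (h1.trans (neg_le_neg (ep_anti n.le_succ)))]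
    ring
  · rw [kk_one ((div_le_one (by positivity)).2 (by linarith))]
    ring

/-- sums of dyadic pieces -/
theorem dyadic {H : Type*} [NormedAddCommGroup H] {f : ℕ → H} {C : ℝ} {m : ℕ}
    (h : ∀ j, m ≤ j → ‖f (j + 1) - f j‖ ≤ C * (1 / 2) ^ j) {n : ℕ} (hn : m ≤ n) :
    ‖f n - f m‖ ≤ 2 * C * (1 / 2) ^ m := by
  have h0 : 0 ≤ C := by
    have := (norm_nonneg _).trans (h m le_rfl)
    by_contra h'
    nlinarith [(half_mem m).1]
  have : ‖f n - f m‖ ≤ 2 * C * (1 / 2) ^ m - 2 * C * (1 / 2) ^ n := by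
    induction n, hn using Nat.le_induction with
    | base => simp
    | succ n hn ih =>
      have := norm_add_le (f (n + 1) - f n) (f n - f m)
      rw [sub_add_sub_cancel] at this
      rw [pow_succ]
      linarith [h n hn]
  have h1 : 0 ≤ 2 * C * (1 / 2 : ℝ) ^ n := by positivity
  linarith

end

end Vale.Agent.P352X.BX
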