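import Vale.Agent.P352X.R.BB.Spec
import Vale.Agent.P352X.R.GRP.C
import Vale.Agent.P352X.Api2c

/-!
# P352X, row BB.dec: the calculus of the vectors `Tx`
-/

set_option linter.all false

open MeasureTheory Filter Topology
open scoped SchwartzMap ComplexConjugate ContDiff

namespace Vale.Agent.P352X.BX.Dec

open Vale.Agent.P352 Vale.Agent.P352.GF Vale.Agent.P352.H755 Ap
open UniformSpace (Completion)

noncomputable section

variable {D : Type*} [NormedAddCommGroup D] [InnerProductSpace ℂ D] {c : Ctx D} {h k : V}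
  {f f' : Fn}

lemma coe_sum {ι : Type*} (s : Finset ι) (v : ι → D) :
    ((∑ i ∈ s, v i : D) : Completion D) = ∑ i ∈ s, (v i : Completion D) :=
  map_sum (Completion.toComplL (𝕜 := ℂ) (E := D)) v s

lemma Tv_hk (h k : V) (hf : GF.IsTest f) : c.Tv (hk h k f) = ∑ m, ∑ n,
    ((eta m * h m * (eta n * k n) : ℝ) : ℂ) • ((c.T m n f c.Q.vac : D) : Completion D) := by
  simp only [Ctx.Tv, Ctx.Tf, Grp.T_hk c.hT h k hf, coe_sum, Completion.coe_smul]

lemma Tv_lin (a : ℂ) (hf : GF.IsTest f) (hf' : GF.IsTest f') :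
    c.Tv (hk h k fun x => f x + a * f' x) = c.Tv (hk h k f) + a • c.Tv (hk h k f') := by
  simp only [Tv_hk h k (sw_lin a hf hf'), Tv_hk h k hf, Tv_hk h k hf', Finset.smul_sum,
    c.Q.lin _ f f' a _ (Grp.T_fld c.hT _ _) hf hf', Completion.coe_add, Completion.coe_smul,
    smul_add, Finset.sum_add_distrib, smul_comm a]

lemma Tv_smul (s t : ℝ) (hf : GF.IsTest f) :
    c.Tv (hk (s • h) (t • k) f) = ((s * t : ℝ) : ℂ) • c.Tv (hk h k f) := by
  simp only [Tv_hk _ _ hf, Finset.smul_sum, smul_smul, ← Complex.ofReal_mul]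
  refine Finset.sum_congr rfl fun m _ => Finset.sum_congr rfl fun n _ => ?_
  congr 2
  simp only [Pi.smul_apply, smul_eq_mul]
  ring

lemma Tv_symm (hf : GF.IsTest f) : c.Tv (hk h k f) = c.Tv (hk k h f) := by
  rw [Tv_hk _ _ hf, Tv_hk _ _ hf, Finset.sum_comm]
  exact Finset.sum_congr rfl fun m _ => Finset.sum_congr rfl fun n _ => by
    rw [c.hT.symm n m f _ hf, mul_comm]

lemma Tv_J (j : JC c) (hf : GF.IsTest f) :
    c.J (c.Tv (hk h k f)) = c.Tv (hk (jr h) (jr k) (bar fun z => f (jr z))) := by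
  simp only [Tv_hk _ _ hf, Tv_hk _ _ (test_bar (test_conf0 conf_jr hf)), map_sum, map_smulₛₗ,
    j.one _ _ f hf, smul_smul, Complex.conj_ofReal, ← Complex.ofReal_mul, jr_apply]
  refine Finset.sum_congr rfl fun m _ => Finset.sum_congr rfl fun n _ => ?_
  congr 2
  ring

lemma Tv_sc (g : GRP c) {L : ℝ} (hL : 0 < L) (hf : GF.IsTest f) :
    Usc c.Q L 1 (c.Tv (hk h k fun z => f (scp L 1 z))) =
      ((L⁻¹ : ℝ) : ℂ) • c.Tv (hk (scp L 1 h) (scp L 1 k) f) := by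
  obtain ⟨l1, l2⟩ := g.lsc L 1 hL one_pos
  have hs : 0 < Real.sqrt (L * 1) := by positivity
  have e := g.ten _ _ 0 h k f c.Q.vac hs l1 hf
  simp only [l2] at e
  rw [Usc, Ctx.Tv, g.coe _ _ _ _ hs l1, e, c.Q.U_vac _ _ _ hs l1, ← l2, ← l2, sim_smul (s := Real.sqrt _) h,
    sim_smul (s := Real.sqrt _) k, Tv_smul _ _ hf, smul_smul, Real.mul_self_sqrt (by positivity), mul_one,
    ← Complex.ofReal_mul, inv_mul_cancel₀ hL.ne', Complex.ofReal_one, one_smul]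
  rfl

lemma Tv_perp (g : GRP c) (hf : GF.IsTest f) : inner ℂ c.Om (c.Tv (hk h k f)) = 0 := by
  simp only [Tv_hk _ _ hf, inner_sum, inner_smul_right, BW.om, Completion.inner_coe,
    g.perp _ _ f hf, mul_zero, Finset.sum_const_zero]

variable {g g' : P3 → ℝ} {φ φ' : ℝ → ℝ}

lemma tst_tm (h : Tst φ) : Tst (tm φ) := cs_mul_l contDiff_id h
lemma tst_ng (h : Tst φ) : Tst (ng φ) := cs_cle (ContinuousLinearEquiv.neg ℝ) h
lemma tst_fl (h : Tst g) : Tst (fl g) :=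
  cs_cle ((ContinuousLinearEquiv.neg ℝ (M := ℝ)).prodCongr (.refl ℝ R2)) h
lemma tst_da (h : Tst g) : Tst (da g) := cs_fderiv _ h
lemma tst_di (i : Fin 2) (h : Tst g) : Tst (di i g) := cs_fderiv _ h

/-- linearity -/
lemma TP_lin (g φ) {g₁ g₂ : P3 → ℝ} {φ₁ φ₂ : ℝ → ℝ} (a : ℝ) (h1 : Tst g₁) (k1 : Tst φ₁) (h2 : Tst g₂)
    (k2 : Tst φ₂) (e : ∀ y t, g y * φ t = g₁ y * φ₁ t + a * (g₂ y * φ₂ t)) :
    TP c h k g φ = TP c h k g₁ φ₁ + (a : ℂ) • TP c h k g₂ φ₂ := by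
  rw [TP, TP, TP, ← Tv_lin _ (test_pr h1 k1) (test_pr h2 k2)]
  congr 2
  funext z
  simp only [pr, e]
  push_cast
  rfl

lemma Tx_lin (g φ) {g₁ g₂ : P3 → ℝ} {φ₁ φ₂ : ℝ → ℝ} (a : ℝ) (h1 : Tst g₁) (k1 : Tst φ₁) (h2 : Tst g₂)
    (k2 : Tst φ₂) (e : ∀ y t, g y * φ t = g₁ y * φ₁ t + a * (g₂ y * φ₂ t)) :
    Tx c h g φ = Tx c h g₁ φ₁ + (a : ℂ) • Tx c h g₂ φ₂ := by
  rw [Tx, Tx, Tx, TP_lin (ap 1 g) φ a (tst_ap 1 h1) k1 (tst_ap 1 h2) k2 fun y t => by
      simp only [ap]; linear_combination y.1 * e y t,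
    TP_lin g (tm φ) a h1 (tst_tm k1) h2 (tst_tm k2) fun y t => by
      simp only [tm]; linear_combination t * e y t]
  module

lemma TP_smul (g φ) (a : ℝ) (h1 : Tst g') (k1 : Tst φ') (e : ∀ y t, g y * φ t = a * (g' y * φ' t)) :
    TP c h k g φ = (a : ℂ) • TP c h k g' φ' := by
  rw [TP_lin g φ (a - 1) h1 k1 h1 k1 fun y t => by rw [e]; ring]
  push_cast
  module

lemma Tx_add_l (h1 : Tst g) (h2 : Tst g') (k1 : Tst φ) :
    Tx c h (fun y => g y + g' y) φ = Tx c h g φ + Tx c h g' φ := by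
  rw [Tx_lin _ _ 1 h1 k1 h2 k1 fun y t => by ring]
  simp

lemma Tx_sub_l (h1 : Tst g) (h2 : Tst g') (k1 : Tst φ) :
    Tx c h (fun y => g y - g' y) φ = Tx c h g φ - Tx c h g' φ := by
  rw [Tx_lin _ _ (-1) h1 k1 h2 k1 fun y t => by ring]
  simp [sub_eq_add_neg]

lemma Tx_neg_l (h1 : Tst g) (k1 : Tst φ) : Tx c h (fun y => -g y) φ = -Tx c h g φ := by
  rw [Tx_lin _ _ (-2) h1 k1 h1 k1 fun y t => by ring]
  push_cast
  module

lemma Tx_add_r (h1 : Tst g) (k1 : Tst φ) (k2 : Tst φ') :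
    Tx c h g (fun t => φ t + φ' t) = Tx c h g φ + Tx c h g φ' := by
  rw [Tx_lin _ _ 1 h1 k1 h1 k2 fun y t => by ring]
  simp

lemma Tx_sub_r (h1 : Tst g) (k1 : Tst φ) (k2 : Tst φ') :
    Tx c h g (fun t => φ t - φ' t) = Tx c h g φ - Tx c h g φ' := by
  rw [Tx_lin _ _ (-1) h1 k1 h1 k2 fun y t => by ring]
  simp [sub_eq_add_neg]

lemma Tx_perp (G : GRP c) (h1 : Tst g) (k1 : Tst φ) : inner ℂ c.Om (Tx c h g φ) = 0 := by
  rw [Tx, inner_sub_right, TP, TP, Tv_perp G (test_pr (tst_ap 1 h1) k1),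
    Tv_perp G (test_pr h1 (tst_tm k1)), sub_zero]

lemma TP_hk (s t : ℝ) (h1 : Tst g) (k1 : Tst φ) :
    TP c (s • h) (t • k) g φ = ((s * t : ℝ) : ℂ) • TP c h k g φ := Tv_smul s t (test_pr h1 k1)

lemma TP_J (j : JC c) (h1 : Tst g) (k1 : Tst φ) :
    c.J (TP c h k g φ) = TP c (jr h) (jr k) (fl g) (ng φ) := by
  rw [TP, Tv_J j (test_pr h1 k1), TP, ← bar_pr (fl g)]
  congr 3
  funext z
  simp [pr, fl, ng, pl]

lemma Tx_J (j : JC c) (hh : jr h = -h) (h1 : Tst g) (k1 : Tst φ) :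
    c.J (Tx c h g φ) = -Tx c h (fl g) (ng φ) := by
  have a : jr va = (-1 : ℝ) • va := null_ext (by simp) (by simp) (by simp)
  have b : jr vb = (-1 : ℝ) • vb := null_ext (by simp) (by simp) (by simp)
  have h2 := tst_fl h1
  have k2 := tst_ng k1
  rw [Tx, map_sub, TP_J j (tst_ap 1 h1) k1, TP_J j h1 (tst_tm k1), hh, ← neg_one_smul ℝ h, a, b,
    TP_hk _ _ (tst_fl (tst_ap 1 h1)) k2, TP_hk _ _ h2 (tst_ng (tst_tm k1)),
    TP_smul (fl (ap 1 g)) _ (-1) (tst_ap 1 h2) k2 fun y t => by simp [fl, ap],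
    TP_smul _ (ng (tm φ)) (-1) h2 (tst_tm k2) fun y t => by simp [ng, tm], Tx]
  push_cast
  module

lemma TP_sc (G : GRP c) {L : ℝ} (hL : 0 < L) (h1 : Tst g) (k1 : Tst φ) : Usc c.Q L 1 (TP c h k g φ) =
    ((L⁻¹ : ℝ) : ℂ) • TP c (scp L 1 h) (scp L 1 k) (kL g L) φ := by
  rw [TP, TP, ← Tv_sc G hL (test_pr (tst_kL h1 hL) k1)]
  congr 3
  funext z
  rw [pr_kL hL, scp_scp _ (inv_pos.2 hL).le one_pos.le, inv_mul_cancel₀ hL.ne', one_mul, scp_one]

lemma Tx_sc (G : GRP c) {L r : ℝ} (hL : 0 < L) (hh : scp L 1 h = r • h) (h1 : Tst g) (k1 : Tst φ) :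
    Usc c.Q L 1 (Tx c h g φ) = Tx c h (fun y => r / L * kL g L y) φ := by
  have a : scp L 1 va = L • va := null_ext (by simp) (by simp) (by simp)
  have b : scp L 1 vb = (1 : ℝ) • vb := null_ext (by simp) (by simp) (by simp)
  have h2 := tst_kL h1 hL
  have h3 := tst_kL (tst_ap 1 h1) hL
  rw [Tx, map_sub, TP_sc G hL (tst_ap 1 h1) k1, TP_sc G hL h1 (tst_tm k1), hh, a, b,
    TP_hk _ _ h3 k1, TP_hk _ _ h2 (tst_tm k1), Tx,
    TP_smul (ap 1 _) _ r h3 k1 fun y t => by simp only [ap, kL]; field_simp,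
    TP_smul (fun y => r / L * kL g L y) _ (r / L) h2 (tst_tm k1) fun y t => mul_assoc _ _ _, smul_smul, smul_smul,
    ← Complex.ofReal_mul, ← Complex.ofReal_mul]
  congr 3 <;> field_simp

lemma TP_cons (G : GRP c) (h : V) (h1 : Tst g) (k1 : Tst φ) :
    TP c va h g (deriv φ) + TP c vb h (da g) φ = ∑ i, TP c (ex i) h (di i g) φ := by
  have d1 := h1.1.differentiable (by simp)
  have d2 := k1.1.differentiable (by simp)
  have e := congrArg (fun v : D => (v : Completion D)) (G.cons h _ c.Q.vac (test_pr h1 k1))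
  simp only [dv_pr_a d1 d2, dv_pr_b d1 d2, dv_pr_ex d1 d2, Completion.coe_sub, Completion.coe_add,
    coe_sum, Completion.coe_zero, sub_eq_zero] at e
  exact e

/-- conservation of the boost current -/
lemma Tx_cons (G : GRP c) (h1 : Tst g) (k1 : Tst φ) :
    Tx c va g (deriv φ) + Tx c vb (da g) φ = ∑ i, Tx c (ex i) (di i g) φ := by
  have d1 := h1.1.differentiable (by simp)
  have d2 := k1.1.differentiable (by simp)
  have a := TP_cons G va (tst_ap 1 h1) k1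
  have b := TP_cons G vb h1 (tst_tm k1)
  have e : ∀ y v, fderiv ℝ (ap 1 g) y v = v.1 * g y + y.1 * fderiv ℝ g y v := fun y v => by
    have := (hasFDerivAt_fst (𝕜 := ℝ) (p := y)).mul (d1 y).hasFDerivAt
    rw [show ap 1 g = Prod.fst * g from funext fun y => by simp [ap], this.fderiv]
    simp
    ring
  have e2 : ∀ i, di i (ap 1 g) = ap 1 (di i g) := fun i => funext fun y => by simp [di, e, ap]
  rw [TP_lin (da _) φ 1 (tst_ap 1 (tst_da h1)) k1 h1 k1 fun y t => by simp [da, e, ap]; ring] at a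
  rw [TP_lin g (deriv _) 1 h1 (tst_tm (cs_deriv k1)) h1 k1 fun y t => by
    rw [show tm φ = id * φ from rfl, deriv_mul differentiableAt_id (d2 t)]; simp [tm]; ring] at b
  have s : TP c vb va g φ = TP c va vb g φ := Tv_symm (test_pr h1 k1)
  simp only [Tx, Finset.sum_sub_distrib, ← e2, ← a, ← b, s]
  abel

end

end Vale.Agent.P352X.BX.Dec
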