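import Vale.Agent.P352X.R.BB.Base

/-!
# P352X, row BB.fin: the main terms and the form
-/

set_option linter.all false

open MeasureTheory Filter Topology Set
open scoped SchwartzMap ComplexConjugate ENNReal ContDiff

namespace Vale.Agent.P352X.BX

open Vale.Agent.P352 Vale.Agent.P352.GF Vale.Agent.P352.BW Vale.Agent.P352.H246
open Vale.Agent.P352.H496 Vale.Agent.P352.H755 Vale.Agent.P352.H15 Vale.Agent.P352X.Ap
open Vale.Agent.P132 (ModData jconj)
open UniformSpace (Completion)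
open Complex (I)

noncomputable section

namespace En

variable {χ : ℝ → ℝ} {d R L : ℝ}

/-- the main part -/
def A (χ : ℝ → ℝ) (R L : ℝ) : P3 → ℝ := fun y => χ y.1 * (d2 y.2 y.2 * kL (cut0 R) L y)
/-- the part in the gap -/
def G (χ : ℝ → ℝ) (R L : ℝ) : P3 → ℝ :=
  x2 (k3 (tm (deriv χ)) fun x => kp R ((Real.sqrt L)⁻¹ • x))
/-- the part at `al ~ L` -/
def F (R : ℝ) : P3 → ℝ := x2 (k3 (tm (deriv kk)) (kp R))

lemma tst_A (hχ : ContDiff ℝ ∞ χ) (hR : 0 < R) (hL : 0 < L) : Tst (A χ R L) :=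
  cs_mul_l (hχ.comp contDiff_fst) (tst_x2 (tst_kL (tst_cut0 hR) hL))

lemma tst_G (hχ : Stp d χ) (hR : 0 < R) (hL : 0 < L) : Tst (G χ R L) :=
  tst_x2 (tst_k3 (tst_tm hχ.tst_d.1) (tst_kpL hR hL))

lemma tst_F (hR : 0 < R) : Tst (F R) := tst_x2 (tst_k3 (tst_tm tst_dkk) (tst_kp hR))

lemma supp_G (hχ : Stp d χ) (hd : 0 < d) : tsupport (G χ R L) ⊆ {y | |y.1| < d} := by
  refine (tsupp_sub (K := {y : P3 | |y.1| ≤ d / 2}) (isClosed_le (by fun_prop) (by fun_prop))
    fun y hy => ?_).trans fun y (hy : |y.1| ≤ d / 2) => hy.trans_lt (by linarith)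
  have h : deriv χ y.1 ≠ 0 := fun h => hy (by simp [G, x2, k3, tm, h])
  refine abs_le.2 ⟨not_lt.1 fun h' => h (hχ.d_le (by linarith)),
    not_lt.1 fun h' => h (hχ.d_ge h'.le)⟩

lemma split (hχ : Stp d χ) (hR : 0 < R) (hL : 0 < L) (h : d ≤ L) :
    x2 (da (ap 1 (slab χ R L))) = fun y => A χ R L y + G χ R L y + L * kL (F R) L y := by
  have e : ap 1 (slab χ R L) = k3 (tm fun t => χ t * kk (t / L))
      fun x => kp R ((Real.sqrt L)⁻¹ • x) := by
    funext y
    simp only [ap, slab, kL, k3, tm, pow_one]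
    ring
  rw [e, da_k3 (tst_diff (tst_tm (tst_chk hχ hL))) (tst_diff (tst_kpL hR hL))]
  funext y
  have h1 : deriv (tm fun t => χ t * kk (t / L)) y.1 = χ y.1 * kk (y.1 / L) +
      y.1 * (deriv χ y.1 * kk (y.1 / L) + χ y.1 * (deriv kk (y.1 / L) * (1 / L))) := by
    have := ((hasDerivAt_id y.1).fun_mul ((hχ.diff y.1).hasDerivAt.fun_mul
      ((diff_kk (y.1 / L)).hasDerivAt.comp y.1 ((hasDerivAt_id y.1).div_const L)))).deriv
    simp only [id, one_mul, Function.comp] at this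
    exact this
  have h2 : χ y.1 * kk (-(y.1 / L)) = χ y.1 := by
    rcases le_total y.1 (-d / 2) with a | a
    · rw [hχ.2.1 _ a, zero_mul]
    · rw [kk_one (by rw [← neg_div, div_le_one hL]; linarith), mul_one]
  have h3 : deriv χ y.1 * kk (y.1 / L) = deriv χ y.1 := by
    rcases le_total (d / 2) y.1 with a | a
    · rw [hχ.d_ge a, zero_mul]
    · rw [kk_one (by rw [div_le_one hL]; linarith), mul_one]
  have h4 : χ y.1 * deriv kk (y.1 / L) = deriv kk (y.1 / L) := by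
    rcases le_total (d / 2) y.1 with a | a
    · rw [hχ.2.2 _ a, one_mul]
    · rw [dkk_le (by rw [div_le_one hL]; linarith), mul_zero]
  have h5 : L * d2 ((Real.sqrt L)⁻¹ • y.2) ((Real.sqrt L)⁻¹ • y.2) = d2 y.2 y.2 := by
    rw [d2_smul, d2_smul_l, ← mul_assoc, ← mul_assoc, mul_assoc L, ← mul_inv,
      Real.mul_self_sqrt hL.le, mul_inv_cancel₀ hL.ne', one_mul]
  simp only [x2, k3, h1, A, G, F, kL, cut0, tm]
  linear_combination kp R ((Real.sqrt L)⁻¹ • y.2) * (-(d2 y.2 y.2 * kk (y.1 / L)) * h2 +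
    d2 y.2 y.2 * y.1 * h3 + d2 y.2 y.2 * (y.1 / L) * h4 - y.1 / L * deriv kk (y.1 / L) * h5)

lemma split' (hχ : Stp d χ) (hR : 0 < R) (hL : 0 < L) (h : d ≤ L) :
    fl (x2 (da (ap 1 (slab (opp χ) R L)))) =
      fun y => A (fun t => 1 - χ t) R L y - G χ R L y + L * kL (fl (F R)) L y := by
  rw [split hχ.opp hR hL h, ← fl_kL]
  funext y
  simp only [fl, A, G, x2, k3, tm, kL, cut0, deriv_opp hχ.diff, opp, neg_neg, neg_div]
  ring

variable {D : Type*} [NormedAddCommGroup D] [InnerProductSpace ℂ D] {c : Ctx D}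

lemma om2_eq (w w' : Completion D) (ρ : ℝ → ℝ) :
    c.om2 w w' χ (hk va va (pr (fun q => d2 q.2 q.2 * kL (cut0 R) L q) ρ)) =
      inner ℂ (TP c va va (A χ R L) ρ) w +
        inner ℂ w' (TP c va va (A (fun t => 1 - χ t) R L) ρ) := by
  rw [Ctx.om2, TP, TP]
  congr 3 <;> funext m n z
  · simp only [bar, hk, pr, A, pl, Complex.star_def, map_mul, Complex.conj_ofReal]
    push_cast
    ring
  · simp only [hk, pr, A, pl]
    push_cast
    ring

end En

open En

variable {D : Type*} [NormedAddCommGroup D] [InnerProductSpace ℂ D]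

theorem fin_row (c : Ctx D) (t : T3 c) (gap : GAP c) : END c := by
  intro u0 d0 y1 r1 y2 r2 X X' χ ρ R dat hχ hR hρ hs
  have g := t.grp
  have h1 := (Far.limP g t.bas (tst_F hR) hρ (jconj c.J X' (X c.Om))).add
    (Far.limM g t.bas (tst_fl (tst_F hR)) hρ (star X (star (jconj c.J X') c.Om)))
  rw [add_zero] at h1
  refine h1.congr' ?_
  filter_upwards [eventually_ge_atTop d0] with L hd
  have hL := dat.hd.trans_le hd
  have a1 := tst_A hχ.1 hR hL
  have a2 := tst_A (χ := fun t => 1 - χ t) (contDiff_const.sub hχ.1) hR hL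
  have a3 := tst_G hχ hR hL
  have a4 := tst_kL (tst_F hR) hL
  have a5 := tst_kL (tst_fl (tst_F hR)) hL
  rw [om2_eq, c.E.inner_J_right, J_TP_aa t.jc (tst_x2 (tst_da (tst_ap 1 (tst_slab hχ.opp hR hL))))
    (tst_ng hρ), ng_ng, split hχ hR hL hd, split' hχ hR hL hd,
    TP_add_g (cs_add a1 a3) (cs_cmul L a4) hρ, TP_add_g a1 a3 hρ,
    TP_add_g (cs_sub a2 a3) (cs_cmul L a5) hρ, TP_sub_g a2 a3 hρ, TP_mul_g L a4 hρ,
    TP_mul_g L a5 hρ, Far.usc_Tv g (tst_F hR) hρ hL, Far.usc_Tv g (tst_fl (tst_F hR)) hρ hL,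
    inner_add_left, inner_add_left, inner_add_right, inner_sub_right,
    gap _ _ _ _ _ _ X X' _ ρ dat a3 (supp_G hχ dat.hd) hρ hs]
  simp only [TP]
  ring

end

end Vale.Agent.P352X.BX
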