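import Vale.Agent.P352X.R.BB.Spec
import Vale.Agent.P352X.R.KD
import Vale.Agent.P352X.Api1C

/-!
# P352X, row BB.kt: covariance of `Kt`
-/

set_option linter.all false

open MeasureTheory Filter Topology
open scoped SchwartzMap ComplexConjugate ENNReal ContDiff

namespace Vale.Agent.P352X.BX.Ktp

open Vale.Agent.P352 Vale.Agent.P352.GF Vale.Agent.P352.BW Vale.Agent.P352X.KDa
open UniformSpace (Completion)
open Complex (I)

noncomputable section

variable {D : Type*} [NormedAddCommGroup D] [InnerProductSpace ℂ D] {c : Ctx D}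

/-! ## operators on test functions -/

/-- the transverse coordinates -/
def xL (i : Fin 2) : V →L[ℝ] ℝ := ContinuousLinearMap.proj (R := ℝ) (φ := fun _ : Fin 2 => ℝ) i ∘L txL

/-- multiplication by `x_i` -/
def xS (i : Fin 2) : Sch →L[ℂ] Sch := mS (xL i)

lemma xS_apply (i : Fin 2) (f : Sch) (z : V) : xS i f z = (tx z i : ℝ) * f z := mS_apply _ f z

/-- multiplication by `|x|^2` -/
def qS : Sch →L[ℂ] Sch := xS 0 ∘L xS 0 + xS 1 ∘L xS 1

lemma qS_apply (f : Sch) (z : V) : qS f z = (d2 (tx z) (tx z) : ℝ) * f z := by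
  show xS 0 (xS 0 f) z + xS 1 (xS 1 f) z = _
  simp only [xS_apply, d2]
  push_cast
  ring

/-- the vector field of `M_i` -/
def MS (i : Fin 2) : Sch →L[ℂ] Sch := xS i ∘L dS va + mS beL ∘L dS (ex i)

lemma ev_MS (i : Fin 2) (f : Sch) : ev (MS i f) = Mc i (ev f) := by
  funext z
  show xS i (dS va f) z + mS beL (dS (ex i) f) z = _
  rw [xS_apply, mS_apply, Mc, ← ev_dS, ← ev_dS]
  rfl

lemma gn_M (G : GEN c) (i : Fin 2) (h k : V) (f : Sch) : Gn (Mi c.Q i) (tau c h k f)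
    (I • (tau c h k (MS i f) - tau c (tx h i • va + be h • ex i) k f -
      tau c h (tx k i • va + be k • ex i) f)) := by
  simp only [tau_apply, ev_MS]
  exact G.mi i h k _ ⟨f, rfl⟩

lemma gn_P (G : GEN c) (h k : V) (f : Sch) :
    Gn (Pa c.Q) (tau c h k f) (I • tau c h k (dS va f)) := by
  simp only [tau_apply, ev_dS]
  exact G.ut va h k _ ⟨f, rfl⟩

/-! ## the combination `K ψ - 2 M_i χ_i + P w` -/

/-- `K ψ - 2 M_i χ_i + P w` -/
def K3 (c : Ctx D) (ψ : Completion D) (χ : Fin 2 → Completion D) (w : Completion D) :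
    Completion D :=
  gen c.SK ψ - (2 : ℂ) • ∑ i, gen (Mi c.Q i) (χ i) + gen (Pa c.Q) w

/-- `Kt` on Schwartz functions -/
def KS (c : Ctx D) (h k : V) (f : Sch) : Completion D :=
  K3 c (tau c h k f) (fun i => tau c h k (xS i f)) (tau c h k (qS f))

lemma Kt_ev (h k : V) (f : Sch) : Kt c h k (ev f) = KS c h k f := by
  have e1 : ∀ i, ev (xS i f) = fun z => (tx z i : ℝ) * ev f z := fun i => funext (xS_apply i f)
  have e2 : ev (qS f) = fun z => (d2 (tx z) (tx z) : ℝ) * ev f z := funext (qS_apply f)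
  simp only [KS, K3, Kt, tau_apply, e1, e2]

lemma KS_zero (h k : V) : KS c h k 0 = 0 := by simp [KS, K3, gen_zero]

lemma KS_add (G : GEN c) (h k : V) {f f' : Sch} (d : Dm c.SK (tau c h k f))
    (d' : Dm c.SK (tau c h k f')) : KS c h k (f + f') = KS c h k f + KS c h k f' := by
  simp only [KS, K3, map_add, gen_add d d', gen_add (gn_M G _ h k _).dm (gn_M G _ h k _).dm,
    gen_add (gn_P G h k _).dm (gn_P G h k _).dm, Finset.sum_add_distrib, smul_add]
  abel

/-! ## transverse translations -/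

section tr

variable (g : GRP c) (y : R2) {ψ χ w k m p : Completion D}
include g

lemma gn_P_ut (a : V) (h : Gn (Pa c.Q) ψ p) : Gn (Pa c.Q) (Ut c.Q a ψ) (Ut c.Q a p) :=
  h.comm fun t => g.ut_comm _ _

lemma gn_M_ut (i : Fin 2) (h : Gn (Mi c.Q i) ψ m) (h' : Gn (Pa c.Q) ψ p) :
    Gn (Mi c.Q i) (Ut c.Q (tv y) ψ) (Ut c.Q (tv y) (m + ((y i : ℝ) : ℂ) • p)) := by
  have h1 : Gn (fun t => Pa c.Q (y i * t)) ψ (y i • p) :=
    h'.scale (ContinuousLinearMap.id ℂ _) (y i) fun _ => rfl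
  have h2 := (g.ugPa.scale (y i)).gn_mul h1 (by rw [(g.ugM i).zero']; rfl) h
  refine (h2.map (W' := Mi c.Q i) (Ut c.Q (tv y)) fun t => ?_).cast rfl (by
    rw [add_comm, Complex.coe_smul])
  have e : gap (t • e2 i) (tv y) = tv y + (y i * t) • va :=
    null_ext (by simp [d2_smul_l, mul_comm]) (by simp) (by simp)
  have := DFunLike.congr_fun (g.ga_ut (t • e2 i) (tv y)) ψ
  rw [e, g.ut] at this
  exact this

lemma gn_K_ut (G : GEN c) (h : Dm c.SK ψ) (hM : ∀ i, Dm (Mi c.Q i) ψ) (hP : Dm (Pa c.Q) ψ) :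
    Gn c.SK (Ut c.Q (tv y) ψ) (Ut c.Q (tv y) (gen c.SK ψ +
      ∑ i, ((2 * y i : ℝ) : ℂ) • gen (Mi c.Q i) ψ + ((d2 y y : ℝ) : ℂ) • gen (Pa c.Q) ψ)) := by
  have := (g.gn_Ky _).1 (G.ky (-y) ψ h hM hP)
  rw [tv_neg, neg_neg] at this
  refine this.cast rfl ?_
  congr 1
  simp only [Pi.neg_apply, mul_neg, Complex.ofReal_neg, neg_smul, Finset.sum_neg_distrib,
    sub_neg_eq_add, d2_neg, d2_neg_l, neg_neg, Complex.coe_smul]

end tr

lemma xS_tsl (y : R2) (i : Fin 2) (f : Sch) : xS i (ST.tsl (tv y) f) =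
    ST.tsl (tv y) (xS i f + ((y i : ℝ) : ℂ) • f) := by
  ext z
  simp only [xS_apply, ST.tsl_apply, SchwartzMap.add_apply, SchwartzMap.smul_apply, tx_sub, tx_tv,
    Pi.sub_apply, smul_eq_mul]
  push_cast
  ring

lemma qS_tsl (y : R2) (f : Sch) : qS (ST.tsl (tv y) f) =
    ST.tsl (tv y) (qS f + (((2 * y 0 : ℝ) : ℂ) • xS 0 f + ((2 * y 1 : ℝ) : ℂ) • xS 1 f) +
      ((d2 y y : ℝ) : ℂ) • f) := by
  ext z
  simp only [xS_apply, qS_apply, ST.tsl_apply, SchwartzMap.add_apply, SchwartzMap.smul_apply,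
    tx_sub, tx_tv, Pi.sub_apply, smul_eq_mul, d2]
  push_cast
  ring

/-- `Kt` is covariant under the transverse translations -/
theorem KS_tsl (g : GRP c) (G : GEN c) (h k : V) (y : R2) {f : Sch}
    (d : Dm c.SK (tau c h k f)) : KS c h k (ST.tsl (tv y) f) = Ut c.Q (tv y) (KS c h k f) := by
  have hM := fun i u => (gn_M G i h k u).dm
  have hP := fun u => (gn_P G h k u).dm
  have e1 := (gn_K_ut g y G d (fun i => hM i f) (hP f)).gen_eq
  have e2 := fun i => (gn_M_ut g y i ((hM i (xS i f)).gn.add ((hM i f).gn.smul (y i : ℝ)))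
    ((hP (xS i f)).gn.add ((hP f).gn.smul (y i : ℝ)))).gen_eq
  have e3 := (gn_P_ut g (tv y) (((hP (qS f)).gn.add (((hP (xS 0 f)).gn.smul (2 * y 0 : ℝ)).add
    ((hP (xS 1 f)).gn.smul (2 * y 1 : ℝ)))).add ((hP f).gn.smul (d2 y y : ℝ)))).gen_eq
  simp only [KS, K3, xS_tsl, qS_tsl, ← ut_tau g, map_add (tau c h k), map_smul (tau c h k), e1,
    e2, e3]
  rw [← map_sum, ← map_smul, ← map_sub, ← map_add]
  congr 1
  simp only [Fin.sum_univ_two, d2]
  push_cast
  module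

/-! ## scalings -/

section sc

variable (g : GRP c) {s : ℝ} (hs : 0 < s) {ψ k : Completion D}
include g hs

lemma gn_K_sc (h : Gn c.SK ψ k) : Gn c.SK (Usc c.Q 1 s ψ) (s • Usc c.Q 1 s k) :=
  h.scale _ s fun t => by
    have := DFunLike.congr_fun (g.sc_S 1 s (s * t) one_pos hs) ψ
    rw [mul_div_cancel_left₀ _ hs.ne'] at this
    exact this.symm

lemma gn_M_sc (i : Fin 2) (h : Gn (Mi c.Q i) ψ k) :
    Gn (Mi c.Q i) (Usc c.Q 1 s ψ) (Real.sqrt s • Usc c.Q 1 s k) :=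
  h.scale _ _ fun t => by
    have := DFunLike.congr_fun (g.sc_ga 1 s ((Real.sqrt s * t) • e2 i) one_pos hs) ψ
    rw [smul_smul, one_div, Real.sqrt_inv, inv_mul_cancel_left₀ (Real.sqrt_pos.2 hs).ne'] at this
    exact this.symm

lemma gn_P_sc (h : Gn (Pa c.Q) ψ k) : Gn (Pa c.Q) (Usc c.Q 1 s ψ) (Usc c.Q 1 s k) :=
  h.comm fun t => by
    rw [Pa, g.sc_ut _ _ _ one_pos hs]
    congr 2
    exact null_ext (by simp) (by simp) (by simp)

lemma pb_sc (u : ℝ) (v : Completion D) :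
    Pb c.Q u (Usc c.Q 1 s v) = Usc c.Q 1 s (Pb c.Q (u / s) v) := by
  have := DFunLike.congr_fun (g.sc_ut 1 s ((u / s) • vb) one_pos hs) v
  rw [show scp 1 s ((u / s) • vb) = u • vb from
    null_ext (by simp) (by simp [mul_div_cancel₀ _ hs.ne']) (by simp)] at this
  exact this.symm

end sc

lemma tau_smul (a b : ℝ) (h k : V) (f : Sch) :
    tau c (a • h) (b • k) f = ((a * b : ℝ) : ℂ) • tau c h k f := by
  simp only [tau, ContinuousLinearMap.sum_apply, ContinuousLinearMap.smul_apply, Finset.smul_sum,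
    smul_smul, ← Complex.ofReal_mul, Pi.smul_apply, smul_eq_mul]
  refine Finset.sum_congr rfl fun m _ => Finset.sum_congr rfl fun n _ => ?_
  congr 2
  ring

/-- the scalings on `T(h, k)(f) Ω`, for eigenvectors `h`, `k` -/
lemma usc_tau (g : GRP c) {r s a b : ℝ} (hr : 0 < r) (hs : 0 < s) {h k : V}
    (eh : scp r s h = a • h) (ek : scp r s k = b • k) {F f : Sch}
    (e : ∀ z, f z = F (scp r s z)) :
    Usc c.Q r s (tau c h k f) = ((a * b / (r * s) : ℝ) : ℂ) • tau c h k F := by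
  obtain ⟨hΛ, hz⟩ := g.lsc r s hr hs
  have hq : 0 < Real.sqrt (r * s) := Real.sqrt_pos.2 (by positivity)
  set Λ := H755.bst va vb (Real.sqrt (r / s) - 1) (Real.sqrt (s / r) - 1)
  have e1 : (fun x => ev F (sim (Real.sqrt (r * s)) Λ 0 x)) = ev f := by
    funext x
    rw [hz]
    exact (e x).symm
  have e2 : ∀ (a : ℝ) (h : V), scp r s h = a • h → sim 1 Λ 0 h = (a / Real.sqrt (r * s)) • h := by
    intro a h eh
    funext n
    have := congrFun ((hz h).trans eh) n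
    simp only [sim, Pi.zero_apply, zero_add, Pi.smul_apply, smul_eq_mul, one_mul] at this ⊢
    field_simp
    linarith
  have := g.ten _ Λ 0 h k _ c.Q.vac hq hΛ ⟨F, rfl⟩
  rw [e1, e2 a h eh, e2 b k ek, c.Q.U_vac _ _ _ hq hΛ] at this
  rw [tau_apply, Ctx.Tv, Usc, g.coe _ _ _ _ hq hΛ, this]
  change c.Tv _ = _
  rw [← tau_apply, tau_smul, div_mul_div_comm, Real.mul_self_sqrt (by positivity)]

/-- `Kt` is covariant under the scalings `sc(1, s)` -/
theorem KS_sc (g : GRP c) (G : GEN c) {s a b : ℝ} (hs : 0 < s) (ha : a ≠ 0) (hb : b ≠ 0) {h k : V}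
    (eh : scp 1 s h = a • h) (ek : scp 1 s k = b • k) {F f : Sch}
    (e : ∀ z, f z = F (scp 1 s z)) (d : Dm c.SK (tau c h k f)) :
    KS c h k F = ((s * s / (a * b) : ℝ) : ℂ) • Usc c.Q 1 s (KS c h k f) := by
  have hq := Real.sqrt_pos.2 hs
  have hq2 : ((Real.sqrt s : ℝ) : ℂ) * (Real.sqrt s : ℝ) = s := by
    rw [← Complex.ofReal_mul, Real.mul_self_sqrt hs.le]
  have h0 : ∀ {F f : Sch}, (∀ z, f z = F (scp 1 s z)) →
      tau c h k F = ((s / (a * b) : ℝ) : ℂ) • Usc c.Q 1 s (tau c h k f) := fun e => by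
    rw [usc_tau g one_pos hs eh ek e, smul_smul, ← Complex.ofReal_mul,
      show s / (a * b) * (a * b / (1 * s)) = 1 by field_simp, Complex.ofReal_one, one_smul]
  have e1 := ((gn_K_sc g hs d.gn).smul (s / (a * b) : ℝ)).gen_eq
  have e2 := fun i => ((gn_M_sc g hs i ((gn_M G i h k (xS i f)).dm.gn.smul
    (Real.sqrt s : ℝ))).smul (s / (a * b) : ℝ)).gen_eq
  have e3 := ((gn_P_sc g hs ((gn_P G h k (qS f)).dm.gn.smul (s : ℝ))).smul
    (s / (a * b) : ℝ)).gen_eq
  have f2 : ∀ i, tau c h k (xS i F) = ((s / (a * b) : ℝ) : ℂ) •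
      Usc c.Q 1 s (((Real.sqrt s : ℝ) : ℂ) • tau c h k (xS i f)) := fun i => by
    rw [← map_smul (tau c h k)]
    refine h0 fun z => ?_
    simp only [SchwartzMap.smul_apply, xS_apply, e, tx_scp, one_mul, Pi.smul_apply, smul_eq_mul]
    push_cast
    ring
  have f3 : tau c h k (qS F) = ((s / (a * b) : ℝ) : ℂ) •
      Usc c.Q 1 s (((s : ℝ) : ℂ) • tau c h k (qS f)) := by
    rw [← map_smul (tau c h k)]
    refine h0 fun z => ?_
    simp only [SchwartzMap.smul_apply, qS_apply, e, tx_scp, one_mul, d2_smul, d2_smul_l,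
      smul_eq_mul]
    push_cast
    linear_combination (-(d2 (tx z) (tx z) : ℂ) * F (scp 1 s z)) * hq2
  simp only [KS, K3, h0 e, f2, f3, e1, e2, e3]
  simp only [Fin.sum_univ_two, map_add, map_sub, map_smul, ← Complex.coe_smul, smul_smul]
  push_cast
  have hq3 : ((s : ℂ) / (a * b)) * ((Real.sqrt s : ℝ) * (Real.sqrt s : ℝ)) = s * s / (a * b) := by
    rw [hq2]
    ring
  rw [hq3]
  module

end

end Vale.Agent.P352X.BX.Ktp
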