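import Vale.Agent.P352X.R.BB.Base

/-!
# P352X, row BB.l1: averages along `b` of thin slabs
-/

set_option linter.all false

open MeasureTheory Filter Topology Set
open scoped SchwartzMap ComplexConjugate ENNReal ContDiff

namespace Vale.Agent.P352X.BX

open Vale.Agent.P352 Vale.Agent.P352.GF Vale.Agent.P352.BW Vale.Agent.P352.H246
open Vale.Agent.P352.H496 Vale.Agent.P352.H755 Vale.Agent.P352.H15 Vale.Agent.P352X.Ap
open UniformSpace (Completion)

noncomputable section

variable {D : Type*} [NormedAddCommGroup D] [InnerProductSpace ℂ D] {c : Ctx D}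
  {g : P3 → ℝ} {φ ρ : ℝ → ℝ}

theorem pr_sub_vb (g : P3 → ℝ) (φ : ℝ → ℝ) (u : ℝ) (z : V) :
    pr g φ (z - u • vb) = (g (pl z) * φ (be z - u) : ℝ) := by
  simp [pr, pl]

/-- the average along `b` is the convolution of the profiles -/
theorem Rb_TP (G : GRP c) (hρ : Tst ρ) (hg : Tst g) (hφ : Tst φ) (h k : V) :
    Rb c ρ (TP c h k g φ) =
      TL c h k (sch fun z => (g (pl z) * ∫ u, ρ u * φ (be z - u) : ℝ)) := by
  have hD : Dc fun q : ℝ × V => (ρ q.1 : ℂ) * pr g φ (q.2 - q.1 • vb) := by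
    have := cs_cle ((ContinuousLinearEquiv.refl ℝ ℝ).skewProd (ContinuousLinearEquiv.refl ℝ V)
      (-(ContinuousLinearMap.id ℝ ℝ).smulRight vb)) (cs_prod (dc_cx hρ) (dc_pr hg hφ))
    rw [dc_iff]
    simpa [ContinuousLinearEquiv.skewProd_apply, sub_eq_add_neg] using this
  have e := (Api4.par volume hD (TL c h k)).2.2
  have e1 : (fun z => ∫ u, (ρ u : ℂ) * pr g φ (z - u • vb)) =
      fun z => ((g (pl z) * ∫ u, ρ u * φ (be z - u) : ℝ) : ℂ) := by
    funext z
    rw [← integral_const_mul, ← integral_complex_ofReal]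
    congr 1
    funext u
    rw [pr_sub_vb]
    push_cast
    ring
  simp only [e1] at e
  rw [e, Rb]
  congr 1
  funext u
  have ht : IsTest fun z => pr g φ (z - u • vb) := by
    simpa only [sub_eq_add_neg] using test_tsl (test_pr hg hφ) (-(u • vb))
  rw [Pb, TP, ut_T' G _ h k (test_pr hg hφ), Tv_sch ht, Ap.sch_cmul _ ht, map_smul]

/-- the two profiles can be swapped -/
theorem Rb_swap (G : GRP c) (hρ : Tst ρ) (hg : Tst g) (hφ : Tst φ) (h k : V) :
    Rb c ρ (TP c h k g φ) = Rb c φ (TP c h k g ρ) := by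
  rw [Rb_TP G hρ hg hφ, Rb_TP G hφ hg hρ]
  congr 2
  funext z
  rw [← integral_sub_left_eq_self (fun u => ρ u * φ (be z - u)) volume (be z)]
  simp only [sub_sub_cancel, mul_comm]

theorem Rb_dlt {s : ℝ} (hs : 0 < s) (φ : ℝ → ℝ) (v : Completion D) :
    Rb c (dlt s φ) v = ∫ t, (φ t : ℂ) • Pb c.Q (s * t) v := by
  have := Measure.integral_comp_mul_left (fun u => ((φ (u / s) : ℝ) : ℂ) • Pb c.Q u v) s
  simp only [mul_div_cancel_left₀ _ hs.ne'] at this
  rw [this, abs_of_pos (inv_pos.2 hs), ← integral_smul, Rb]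
  congr 1
  funext u
  rw [← Complex.coe_smul, smul_smul, ← Complex.ofReal_mul, dlt, div_eq_inv_mul]

theorem Rb_dlt_lim (G : GRP c) (hφ : Tst φ) (v : Completion D) :
    Tendsto (fun s => Rb c (dlt s φ) v) (𝓝[>] 0) (𝓝 (((∫ t, φ t : ℝ) : ℂ) • v)) := by
  have e : ((∫ t, φ t : ℝ) : ℂ) • v = ∫ t, (φ t : ℂ) • Pb c.Q (0 * t) v := by
    simp only [zero_mul, G.ugPb.zero', ContinuousLinearMap.one_apply, integral_smul_const,
      integral_complex_ofReal]
  rw [e]
  refine Tendsto.congr' (eventually_mem_nhdsWithin.mono fun s hs => (Rb_dlt hs φ v).symm)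
    (tendsto_nhdsWithin_of_tendsto_nhds ?_)
  refine (continuous_of_dominated (bound := fun t => ‖(φ t : ℂ)‖ * ‖v‖) (fun s => ?_)
    (fun s => Eventually.of_forall fun t => ?_) ((cs_int (dc_cx hφ)).norm.mul_const _)
    (Eventually.of_forall fun t => ?_)).tendsto 0
  · exact ((dc_cx hφ).1.continuous.smul (G.ugPb.cont' (continuous_const.mul continuous_id)
      continuous_const)).aestronglyMeasurable
  · rw [norm_smul, G.ugPb.nrm]
  · exact (G.ugPb.cont' (continuous_id.mul continuous_const) continuous_const).const_smul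
      (φ t : ℂ)

theorem l1_row (c : Ctx D) : T3 c → L1 c := fun t =>
  ⟨fun h k ρ g hρ hg => ⟨‖TP c h k g ρ‖, fun φ hφ => by
    rw [Rb_swap t.grp hρ hg hφ, mul_comm]
    exact Rb_norm t.grp φ _⟩,
  fun h k ρ g φ hρ hg hφ => (Rb_dlt_lim t.grp hφ _).congr' (eventually_mem_nhdsWithin.mono
    fun s hs => Rb_swap t.grp (tst_dlt hφ (ne_of_gt hs)) hg hρ h k)⟩

end

end Vale.Agent.P352X.BX
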