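import Vale.Agent.P352X.Spec

/-!
# P352X, row BB: vocabulary and sub-rows (proof notes: notes/P352/bb.md)
-/

set_option linter.all false

open MeasureTheory Filter Topology
open scoped SchwartzMap ComplexConjugate ENNReal ContDiff

namespace Vale.Agent.P352X.BX

open Vale.Agent.P352 Vale.Agent.P352.GF Vale.Agent.P352.BW Vale.Agent.P352.H246
open Vale.Agent.P352.H496 Vale.Agent.P352.H755 Vale.Agent.P352.H15
open Vale.Agent.P132 (ModData jconj)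
open UniformSpace (Completion)
open Complex (I)

noncomputable section

/-! ## functions -/

/-- one for `t ≤ 1`, zero for `2 ≤ t` -/
def kk (t : ℝ) : ℝ := 1 - Real.smoothTransition (t - 1)
/-- one for `t ≤ -1`, zero for `-1 / 2 ≤ t` -/
def ps (t : ℝ) : ℝ := kk (2 * t + 3)
def tm (φ : ℝ → ℝ) : ℝ → ℝ := fun t => t * φ t
def ng (φ : ℝ → ℝ) : ℝ → ℝ := fun t => φ (-t)
def fl (g : P3 → ℝ) : P3 → ℝ := fun y => g (-y.1, y.2)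
def da (g : P3 → ℝ) : P3 → ℝ := fun y => fderiv ℝ g y (1, 0)
def di (i : Fin 2) (g : P3 → ℝ) : P3 → ℝ := fun y => fderiv ℝ g y (0, e2 i)
def xi (i : Fin 2) (g : P3 → ℝ) : P3 → ℝ := fun y => y.2 i * g y
def x2 (g : P3 → ℝ) : P3 → ℝ := fun y => d2 y.2 y.2 * g y
/-- steps in the gap -/
def Stp (d : ℝ) (χ : ℝ → ℝ) : Prop :=
  ContDiff ℝ ∞ χ ∧ (∀ t, t ≤ -d / 2 → χ t = 0) ∧ ∀ t, d / 2 ≤ t → χ t = 1
/-- the mirror image of a step -/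
def opp (χ : ℝ → ℝ) : ℝ → ℝ := fun t => 1 - χ (-t)
/-- the transverse cutoff -/
def kp (R : ℝ) : R2 → ℝ := fun x => kk (d2 x x / (11 * R))
/-- the part of the plane to the right of the gap -/
def slab (χ : ℝ → ℝ) (R L : ℝ) : P3 → ℝ := fun y => χ y.1 * kL (k3 kk (kp R)) L y
/-- the face at `al ~ L` -/
def face (R L : ℝ) : P3 → ℝ := fun y => L⁻¹ * kL (k3 (deriv kk) (kp R)) L y
/-- the profile of the face -/
def edge (R ε : ℝ) : ℝ → ℝ := fun t => ps (t / ε) * kk (-t / (2 * R))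
/-- the special cutoff -/
def cut0 (R : ℝ) : P3 → ℝ := k3 (fun t => kk t * kk (-t)) (kp R)
/-- the scales -/
def ep (n : ℕ) : ℝ := ((1 / 2 : ℝ) ^ n) ^ 22
def Box (d e R : ℝ) : Set V :=
  {z | -R ≤ be z ∧ be z ≤ -e ∧ d ≤ al z ∧ al z ≤ R ∧ d2 (tx z) (tx z) ≤ R ^ 2}

variable {D : Type*} [NormedAddCommGroup D] [InnerProductSpace ℂ D] (c : Ctx D)

/-! ## vectors -/

/-- `T(h, k)(g φ) Ω` -/
def TP (h k : V) (g : P3 → ℝ) (φ : ℝ → ℝ) : Completion D := c.Tv (hk h k (pr g φ))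
/-- `T(h, ξ)(g φ) Ω` for the boost field `ξ = al a - be b` -/
def Tx (h : V) (g : P3 → ℝ) (φ : ℝ → ℝ) : Completion D :=
  TP c h va (ap 1 g) φ - TP c h vb g (tm φ)
/-- the charge of the boost on the surface below the plane -/
def GG (χ : ℝ → ℝ) (R L ε : ℝ) : Completion D :=
  -Tx c va (slab χ R L) (dlt ε (deriv ps)) - Tx c vb (face R L) (edge R ε)
/-- averages along `b` -/
def Rb (ρ : ℝ → ℝ) (v : Completion D) : Completion D := ∫ u, (ρ u : ℂ) • Pb c.Q u v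
/-- `v` is in the form domain of `P_b`, with the bound `N` -/
def Qb (v : Completion D) (N : ℝ) : Prop := ‖v‖ ≤ N ∧ c.qb v ≤ ENNReal.ofReal (N ^ 2)
/-- smooth in norm under the boosts and the translations along `b` -/
def Sm (X : Completion D →L[ℂ] Completion D) : Prop :=
  ContDiff ℝ ∞ fun q : ℝ × ℝ => Bo c.Q q.1 * Pb c.Q q.2 * X * Pb c.Q (-q.2) * Bo c.Q (-q.1)
/-- the domain conditions for `i [B, K] = K` -/
def Reg (φ : Completion D) : Prop := Dm (Bo c.Q) φ ∧ Dm c.SK φ ∧ Dm c.SK (gen (Bo c.Q) φ) ∧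
  Gn (Bo c.Q) (gen c.SK φ) (gen c.SK (gen (Bo c.Q) φ) - I • gen c.SK φ)
/-- `K T(f) - 2 M_i T(x_i f) + P T(|x|^2 f)`: covariant under the transverse translations -/
def Kt (h k : V) (f : Fn) : Completion D :=
  gen c.SK (c.Tv (hk h k f)) -
    (2 : ℂ) • ∑ i, gen (Mi c.Q i) (c.Tv (hk h k fun z => (tx z i : ℝ) * f z)) +
    gen (Pa c.Q) (c.Tv (hk h k fun z => (d2 (tx z) (tx z) : ℝ) * f z))
/-- the data of the row -/
structure Dat (u0 d0 : ℝ) (y1 : V) (r1 : ℝ) (y2 : V) (r2 : ℝ)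
    (X X' : Completion D →L[ℂ] Completion D) : Prop where
  hd : 0 < d0
  h1 : 0 < r1
  h2 : 0 < r2
  s1 : dc y1 r1 ⊆ {z | be z < -u0 ∧ d0 < al z}
  s2 : dc y2 r2 ⊆ {z | be z < -u0 ∧ d0 < al z}
  m1 : X ∈ c.N (dc y1 r1)
  m2 : X' ∈ c.N (dc y2 r2)

/-! ## the sub-rows -/

/-- BB.l1: averages along `b` of thin slabs -/
structure L1 : Prop where
  l1 : ∀ h k ρ g, Tst ρ → Tst g → ∃ C : ℝ, ∀ φ, Tst φ → ‖Rb c ρ (TP c h k g φ)‖ ≤ C * ∫ t, |φ t|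
  del : ∀ h k ρ g φ, Tst ρ → Tst g → Tst φ →
    Tendsto (fun s => Rb c ρ (TP c h k g (dlt s φ))) (𝓝[>] 0)
      (𝓝 (((∫ t, φ t : ℝ) : ℂ) • TP c h k g ρ))

/-- BB.flux: thin fluxes against the form domain of `P_b` -/
structure FLUX : Prop where
  tr : ∀ i g φ, Tst g → Tst φ → ∃ C : ℝ, ∀ s ∈ Set.Ioc (0 : ℝ) 1, ∀ v N, Qb c v N →
    ‖inner ℂ (Tx c (ex i) g (dil s φ)) v‖ ≤ C * Real.sqrt s * N
  bd : ∀ g φ, Tst g → Tst φ → ∃ C : ℝ, ∀ s ∈ Set.Ioc (0 : ℝ) 1, ∀ v N, Qb c v N →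
    ‖inner ℂ (Tx c vb g (dil s φ)) v‖ ≤ C * N
  lim : ∀ g φ v N, Tst g → Tst φ → Qb c v N →
    Tendsto (fun s => inner ℂ (Tx c vb g (dil s φ)) v) (𝓝[>] 0) (𝓝 0)

/-- BB.low: small light cone momenta -/
def LOW : Prop := ∃ (m : ℕ) (C : ℝ), 0 ≤ C ∧ ∀ h k (f : Sch) (σ : ℝ), 0 < σ →
  ‖c.bt.P {p | al p < σ} (c.Tv (hk h k (ev f)))‖ ≤ C * Real.sqrt σ * ‖h‖ * ‖k‖ * sn m f ∧
  ‖c.bt.P {p | be p < σ} (c.Tv (hk h k (ev f)))‖ ≤ C * Real.sqrt σ * ‖h‖ * ‖k‖ * sn m f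

/-- BB.rate: small `p_b` for `K T(f) Ω` -/
def RATE : Prop := ∀ b1 b2 : ℝ, b2 < 0 → ∃ (m : ℕ) (C : ℝ), 0 ≤ C ∧ ∀ h k (f : Sch) (t : ℝ),
  tsupport f ⊆ {z | b1 ≤ be z ∧ be z ≤ b2} → 0 < t → t ≤ 1 →
  ‖c.bt.P {p | al p < t ^ 20} (gen c.SK (c.Tv (hk h k (ev f))))‖ ≤ C * t * ‖h‖ * ‖k‖ * sn m f

/-- BB.kt: the covariant part of `K` on thin slabs -/
def KT : Prop := ∀ ρ g φ, Tst ρ → Tst g → Tst φ → tsupport φ ⊆ Set.Iio 0 →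
  ∃ C : ℝ, ∀ t ∈ Set.Ioc (0 : ℝ) 1,
    ‖Rb c ρ (Kt c va va (pr g (dil (t ^ 22) φ)))‖ ≤ C * t * t ^ 22 ∧
    ‖Rb c ρ (Kt c va vb (pr g (dil (t ^ 22) φ)))‖ ≤ C * t ∧
    ‖Rb c ρ (Kt c vb va (pr g (dil (t ^ 22) φ)))‖ ≤ C * t ∧
    t ^ 22 * ‖Rb c ρ (Kt c vb vb (pr g (dil (t ^ 22) φ)))‖ ≤ C * t

/-- BB.ks: `K` on thin slabs -/
structure KS : Prop where
  face : ∀ ρ g φ, Tst ρ → Tst g → Tst φ → tsupport φ ⊆ Set.Iio 0 →
    ∃ C : ℝ, ∀ t ∈ Set.Ioc (0 : ℝ) 1, ‖Rb c ρ (gen c.SK (Tx c vb g (dil (t ^ 22) φ)))‖ ≤ C * t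
  slab : ∀ ρ g φ, Tst ρ → Tst g → Tst φ → tsupport φ ⊆ Set.Iio 0 →
    Tendsto (fun t : ℝ => Rb c ρ (gen c.SK (Tx c va g (dlt (t ^ 22) φ)))) (𝓝[>] 0)
      (𝓝 (((∫ t, φ t : ℝ) : ℂ) • I • TP c va va (x2 (da (ap 1 g))) ρ))

/-- BB.half: the Ward identity of the boost on the surface below the plane -/
def HALF : Prop := ∀ (d d1 e R L ε : ℝ) χ y r X k, 0 < d → d / 2 < d1 → d ≤ R → 2 * R ≤ L →
  0 < ε → 2 * ε ≤ e → e ≤ R → Stp d χ → 0 < r → X ∈ c.N (dc y r) →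
  closure (dc y r) ⊆ Box d e R → Gn (Bo c.Q) (X c.Om) k →
  Pr (c.N (Wdg va vb (-(d1 • va)))) c.Om (k + X (GG c χ R L ε)) (star X (GG c χ R L ε))

/-- BB.mi: the master identity -/
def MI : Prop := ∀ (d1 r : ℝ) (X X' : Completion D →L[ℂ] Completion D) (G G' : Completion D),
  0 ≤ d1 → 0 < r → X ∈ c.N (Rc r (d1 • va)) → X' ∈ c.N (Rc r (d1 • va)) → Dm c.SK G →
  Dm c.SK G' →
  Reg c (X c.Om) → Dm (Bo c.Q) (star X' c.Om) → Dm c.SK (star X' c.Om) →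
  Pr (c.N (Wdg va vb (-(d1 • va)))) c.Om (gen (Bo c.Q) (X c.Om) + X G) (star X G) →
  Pr (c.N (Wdg va vb (-(d1 • va)))) c.Om (gen (Bo c.Q) (star X' c.Om) + star X' G') (X' G') →
  inner ℂ (c.J (star X' c.Om)) (gen c.SK (X c.Om)) =
    I * inner ℂ (gen c.SK G) (jconj c.J X' (X c.Om)) +
    I * inner ℂ (gen c.SK G') (c.J (star X (c.J (star X' c.Om)))) -
    I * inner ℂ (G - c.J G') (jconj c.J X' (gen c.SK (X c.Om))) +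
    I * inner ℂ (star X (c.J (gen c.SK (star X' c.Om)))) (G - c.J G')

/-- BB.dom: domains, uniformly under small translations along `b` -/
def DOM : Prop := ∀ (u0 u1 d0 d1 : ℝ) y r X, u1 < u0 → 0 ≤ d1 → d1 < d0 → 0 < r →
  dc y r ⊆ {z | be z < -u0 ∧ d0 < al z} → X ∈ c.N (dc y r) → Sm c X →
  ∃ r' N : ℝ, 0 < r' ∧ (∀ u ∈ Set.Icc (-u1) u1,
    Pb c.Q (-u) * X * Pb c.Q u ∈ c.N (Rc r' (d1 • va)) ∧ Reg c (Pb c.Q (-u) (X c.Om)) ∧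
    Qb c (gen c.SK (Pb c.Q (-u) (X c.Om))) N) ∧
    ContinuousOn (fun u => gen c.SK (Pb c.Q (-u) (X c.Om))) (Set.Icc (-u1) u1)

/-- BB.lip: stability of the form domain of `P_b` -/
structure LIP : Prop where
  op : ∀ X, Sm c X → ∃ C : ℝ, ∀ u v N, Qb c v N → Qb c ((Pb c.Q (-u) * X * Pb c.Q u) v) (C * N)
  j : ∃ C : ℝ, ∀ v N, Qb c v N → Qb c (c.J v) (C * N)

/-- BB.dec: the total surface, by conservation -/
def DEC : Prop := ∀ (d R : ℝ) χ, 0 < d → d ≤ R → Stp d χ →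
  ∃ (Γ : ℝ → Completion D) (g1 : Fin 2 → P3 → ℝ) (φ0 γ : ℝ → ℝ), (∀ i, Tst (g1 i)) ∧ Tst φ0 ∧
    Tst γ ∧ (∀ ε, 0 < ε → inner ℂ c.Om (Γ ε) = 0) ∧
    (∀ n, ep n ≤ R → Γ (ep (n + 1)) - Γ (ep n) = ∑ i, Tx c (ex i) (g1 i) (dil (ep n) φ0)) ∧
    ∀ L, R ≤ L → ∃ (g2 : P3 → ℝ) (g3 : Fin 2 → P3 → ℝ), Tst g2 ∧ (∀ i, Tst (g3 i)) ∧
      ∀ ε, 0 < ε → ε ≤ R → GG c χ R L ε - c.J (GG c (opp χ) R L ε) =
        Usc c.Q L 1 (Γ ε) + Tx c vb g2 (dil ε γ) + ∑ i, Tx c (ex i) (g3 i) (dil ε γ)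

/-- BB.gap: the gap commutes with `X` and `Y` -/
def GAP : Prop := ∀ u0 d0 y1 r1 y2 r2 X X' g ρ, Dat c u0 d0 y1 r1 y2 r2 X X' → Tst g →
  tsupport g ⊆ {y | |y.1| < d0} → Tst ρ → tsupport ρ ⊆ Set.Ioo (-u0) u0 →
  inner ℂ (TP c va va g ρ) (jconj c.J X' (X c.Om)) =
    inner ℂ (star X (star (jconj c.J X') c.Om)) (TP c va va g ρ)

/-- BB.far: the limit does not depend on the cutoff -/
def FAR : Prop := ∀ u0 d0 y1 r1 y2 r2 X X' χ κ κ0 ρ (y : R2), Dat c u0 d0 y1 r1 y2 r2 X X' →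
  Stp d0 χ → Cut κ → Cut κ0 → Tst ρ → tsupport ρ ⊆ Set.Ioo (-u0) u0 →
  Tendsto (fun L => c.om2 (jconj c.J X' (X c.Om)) (star X (star (jconj c.J X') c.Om)) χ
    (hk va va (pr (fun q => d2 q.2 q.2 * (kL κ L (q.1, q.2 + y) - kL κ0 L q)) ρ))) atTop (𝓝 0)

/-- BB.main: the main terms -/
def MAIN : Prop := ∀ (d R : ℝ) χ ρ w, 0 < d → d ≤ R → Stp d χ → Tst ρ → ∀ η > 0,
  ∀ᶠ L in atTop, ∀ᶠ n in atTop, ‖I * inner ℂ (Rb c ρ (gen c.SK (GG c χ R L (ep n)))) w -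
    inner ℂ (TP c va va (x2 (da (ap 1 (slab χ R L)))) ρ) w‖ ≤ η

/-- BB.cross: the cross terms -/
def CROSS : Prop := ∀ (d R u1 N : ℝ) χ ρ (v : ℝ → Completion D), 0 < d → d ≤ R → Stp d χ →
  Tst ρ → tsupport ρ ⊆ Set.Icc (-u1) u1 → ContinuousOn v (Set.Icc (-u1) u1) →
  (∀ u ∈ Set.Icc (-u1) u1, Qb c (v u) N) → ∀ η > 0, ∀ᶠ L in atTop, ∀ᶠ n in atTop,
    ‖∫ u, (ρ u : ℂ) * inner ℂ (GG c χ R L (ep n) - c.J (GG c (opp χ) R L (ep n))) (v u)‖ ≤ η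

/-- BB.end: the main terms and the form -/
def END : Prop := ∀ u0 d0 y1 r1 y2 r2 X X' χ ρ (R : ℝ), Dat c u0 d0 y1 r1 y2 r2 X X' →
  Stp d0 χ → 0 < R → Tst ρ → tsupport ρ ⊆ Set.Ioo (-u0) u0 →
  Tendsto (fun L => inner ℂ (TP c va va (x2 (da (ap 1 (slab χ R L)))) ρ) (jconj c.J X' (X c.Om)) +
    inner ℂ (TP c va va (x2 (da (ap 1 (slab (opp χ) R L)))) (ng ρ))
      (c.J (star X (star (jconj c.J X') c.Om))) -
    c.om2 (jconj c.J X' (X c.Om)) (star X (star (jconj c.J X') c.Om)) χ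
      (hk va va (pr (fun q => d2 q.2 q.2 * kL (cut0 R) L q) ρ))) atTop (𝓝 0)

/-- BB.core: the row for `y = 0` and one cutoff -/
def CORE : Prop := ∀ u0 d0 y1 r1 y2 r2 X X' χ ρ, Dat c u0 d0 y1 r1 y2 r2 X X' → Sm c X →
  Sm c X' → Stp d0 χ → Tst ρ → tsupport ρ ⊆ Set.Ioo (-u0) u0 → ∃ κ0, Cut κ0 ∧
  Tendsto (fun L => c.om2 (jconj c.J X' (X c.Om)) (star X (star (jconj c.J X') c.Om)) χ
      (hk va va (pr (fun q => d2 q.2 q.2 * kL κ0 L q) ρ))) atTop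
    (𝓝 (∫ u, (ρ u : ℂ) * inner ℂ (star (jconj c.J X') c.Om) (gen (c.Ky (u • vb)) (X c.Om))))

/-- the sub-rows, with their dependencies -/
structure Rows : Prop where
  l1 : T3 c → L1 c
  flux : T3 c → FLUX c
  low : T3 c → LOW c
  rate : T3 c → LOW c → RATE c
  kt : T3 c → LOW c → RATE c → KT c
  ks : T3 c → L1 c → KT c → KS c
  half : T3 c → HALF c
  mi : T3 c → MI c
  dom : T3 c → DOM c
  lip : T3 c → LIP c
  dec : T3 c → DEC c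
  gap : T3 c → GAP c
  far : T3 c → FAR c
  main : T3 c → KS c → MAIN c
  cross : T3 c → FLUX c → DEC c → CROSS c
  fin : T3 c → GAP c → END c
  core : T3 c → HALF c → MI c → DOM c → LIP c → MAIN c → CROSS c → END c → CORE c
  tra : T3 c → FAR c → CORE c → BB c

theorem Rows.bb {c : Ctx D} (r : Rows c) (t : T3 c) : BB c :=
  r.tra t (r.far t) (r.core t (r.half t) (r.mi t) (r.dom t) (r.lip t)
    (r.main t (r.ks t (r.l1 t) (r.kt t (r.low t) (r.rate t (r.low t)))))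
    (r.cross t (r.flux t) (r.dec t)) (r.fin t (r.gap t)))

end

end Vale.Agent.P352X.BX
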